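import Crest.Agent.R91.Defs

/-!
Row 91, task C: sign averaging, the completion, and the transfer of "no `c₀`".
-/

set_option autoImplicit false

open Finset Filter Topology Function

namespace Crest.Agent.R91

noncomputable section

namespace ABS

theorem signs (a : ℕ → ℕ → ℝ) (J : ℕ) :
    ∃ ε : ℕ → ℝ, (∀ s, ε s = 1 ∨ ε s = -1) ∧
      ∑ s ∈ range J, a s s ≤ ∑ s ∈ range J, ∑ t ∈ range J, ε s * (ε t * a s t) := by
  induction J with
  | zero => exact ⟨fun _ => 1, fun _ => Or.inl rfl, by simp⟩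
  | succ J ih =>
    obtain ⟨ε, hε, h⟩ := ih
    set X : ℝ := ∑ s ∈ range J, ε s * (a s J + a J s) with hX
    obtain ⟨σ, hσ, hσX⟩ : ∃ σ : ℝ, (σ = 1 ∨ σ = -1) ∧ 0 ≤ σ * X := by
      rcases le_total 0 X with h0 | h0
      · exact ⟨1, Or.inl rfl, by linarith⟩
      · exact ⟨-1, Or.inr rfl, by linarith⟩
    refine ⟨update ε J σ, ?_, ?_⟩
    · intro s
      by_cases hs : s = J
      · subst hs; simpa using hσ
      · rw [update_of_ne hs]; exact hε s
    · have hlt : ∀ s ∈ range J, update ε J σ s = ε s := fun s hs =>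
        update_of_ne (mem_range.1 hs).ne _ _
      have e1 : ∑ s ∈ range J, ∑ t ∈ range (J + 1), update ε J σ s * (update ε J σ t * a s t) =
          ∑ s ∈ range J, ∑ t ∈ range J, ε s * (ε t * a s t) +
            ∑ s ∈ range J, ε s * (σ * a s J) := by
        rw [← sum_add_distrib]
        refine sum_congr rfl fun s hs => ?_
        rw [sum_range_succ, update_self, hlt s hs]
        congr 1
        exact sum_congr rfl fun t ht => by rw [hlt t ht]
      have e2 : ∑ t ∈ range (J + 1), update ε J σ J * (update ε J σ t * a J t) =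
          ∑ t ∈ range J, σ * (ε t * a J t) + a J J := by
        rw [sum_range_succ, update_self]
        congr 1
        · exact sum_congr rfl fun t ht => by rw [hlt t ht]
        · rcases hσ with rfl | rfl <;> ring
      have e3 : σ * X = ∑ s ∈ range J, ε s * (σ * a s J) + ∑ t ∈ range J, σ * (ε t * a J t) := by
        rw [hX, mul_sum, ← sum_add_distrib]
        exact sum_congr rfl fun s _ => by ring
      rw [sum_range_succ, sum_range_succ, e1, e2]
      linarith

end ABS

theorem sel : Sel := by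
  intro V _ _ K ν j η C' hW hj hη hC' hh
  obtain ⟨C, hC⟩ := hW
  obtain ⟨J, hJ⟩ := exists_nat_gt (C' * C / η)
  have hJ' : C' * C < J * η := by rwa [div_lt_iff₀ hη] at hJ
  obtain ⟨h, h1, h2⟩ := hh J
  obtain ⟨ε, hε, hs⟩ := ABS.signs (fun s t => h s (ν (j t))) J
  obtain ⟨g, hg, he⟩ := h2 ε hε
  have hx : g (∑ t ∈ range J, ε t • ν (j t)) ≤ C := by
    have := hC ((range J).image j) (fun i => ε (invFun j i))
      (fun i => by rcases hε (invFun j i) with h | h <;> simp [h]) g hg
    rw [sum_image (fun a _ b _ hab => hj hab)] at this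
    simpa only [leftInverse_invFun hj _] using this
  have h3 : (∑ s ∈ range J, ε s • h s) (∑ t ∈ range J, ε t • ν (j t)) =
      ∑ s ∈ range J, ∑ t ∈ range J, ε s * (ε t * h s (ν (j t))) := by
    rw [LinearMap.sum_apply]
    refine sum_congr rfl fun s _ => ?_
    rw [LinearMap.smul_apply, map_sum, smul_eq_mul, mul_sum]
    exact sum_congr rfl fun t _ => by rw [map_smul, smul_eq_mul]
  have h4 : (J : ℝ) * η ≤ ∑ s ∈ range J, h s (ν (j s)) := by
    have := card_nsmul_le_sum (range J) (fun s => h s (ν (j s))) η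
      fun s hs => h1 s (mem_range.1 hs)
    rwa [card_range, nsmul_eq_mul] at this
  rw [he, LinearMap.smul_apply, smul_eq_mul] at h3
  have h5 := mul_le_mul_of_nonneg_left hx hC'
  linarith

theorem preEx : PreEx := by
  intro V _ _ K hne hneg hb
  have habs : ∀ (ν : V) (r : ℝ), (∀ g ∈ K, g ν ≤ r) → ∀ g ∈ K, |g ν| ≤ r := by
    intro ν r h g hg
    have h1 := h g hg
    have h2 := h (-g) (hneg g hg)
    rw [LinearMap.neg_apply] at h2
    exact abs_le.2 ⟨by linarith, h1⟩
  have hmem : ∀ ν : V, Memℓp (fun g : K => (g.1 ν : ℝ)) ⊤ := by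
    intro ν
    obtain ⟨C, hC⟩ := hb ν
    refine memℓp_infty ⟨C, ?_⟩
    rintro _ ⟨g, rfl⟩
    exact habs ν C hC g.1 g.2
  let T : V →ₗ[ℝ] lp (fun _ : K => ℝ) ⊤ :=
    { toFun := fun ν => ⟨fun g : K => (g.1 ν : ℝ), hmem ν⟩
      map_add' := fun x y => by
        ext g
        exact map_add g.1 x y
      map_smul' := fun c x => by
        ext g
        simp }
  have hT : ∀ ν (g : K), T ν g = g.1 ν := fun _ _ => rfl
  let B : Submodule ℝ (lp (fun _ : K => ℝ) ⊤) := (LinearMap.range T).topologicalClosure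
  have hTB : ∀ ν, T ν ∈ B := fun ν =>
    Submodule.le_topologicalClosure _ (LinearMap.mem_range_self T ν)
  refine ⟨B, inferInstance, inferInstance, T.codRestrict B hTB, ?_, ?_, ?_, ?_⟩
  · exact (Submodule.isClosed_topologicalClosure _).completeSpace_coe
  · intro x
    rw [closure_subtype]
    have hx : (x : lp (fun _ : K => ℝ) ⊤) ∈ closure (LinearMap.range T : Set _) := x.2
    refine closure_mono ?_ hx
    rintro _ ⟨ν, rfl⟩
    exact ⟨_, ⟨ν, rfl⟩, rfl⟩
  · intro g hg ν
    have h := lp.norm_apply_le_norm (by simp) (T ν) ⟨g, hg⟩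
    rw [hT, Real.norm_eq_abs] at h
    exact (le_abs_self _).trans h
  · intro ν r h
    obtain ⟨g0, hg0⟩ := hne
    have h0 : 0 ≤ r := (abs_nonneg _).trans (habs ν r h g0 hg0)
    show ‖T ν‖ ≤ r
    exact lp.norm_le_of_forall_le h0 fun g => habs ν r h g.1 g.2

theorem preNoC0 : PreNoC0 := by
  intro V _ _ K B _ _ emb hP hF x ⟨C, hC⟩
  have hex : ∀ j : ℕ, ∃ ν : V, ‖emb ν - x j‖ ≤ (1 / 2 : ℝ) ^ j := by
    intro j
    obtain ⟨ν, hν⟩ := hP.dense.exists_dist_lt (x j) (by positivity : (0 : ℝ) < (1 / 2 : ℝ) ^ j)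
    exact ⟨ν, by rw [← dist_eq_norm, dist_comm]; exact hν.le⟩
  choose ν hν using hex
  have hW : Wuc K ν := by
    refine ⟨C + 2, fun s ε hε g hg => (hP.le g hg _).trans ?_⟩
    have e : emb (∑ i ∈ s, ε i • ν i) =
        ∑ i ∈ s, ε i • x i + ∑ i ∈ s, ε i • (emb (ν i) - x i) := by
      rw [map_sum, ← sum_add_distrib]
      exact sum_congr rfl fun i _ => by rw [map_smul, smul_sub]; abel
    rw [e]
    refine (norm_add_le _ _).trans (add_le_add (hC s ε hε) ((norm_sum_le _ _).trans ?_))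
    have h1 : ∑ i ∈ s, ‖ε i • (emb (ν i) - x i)‖ ≤ ∑ i ∈ s, (1 / 2 : ℝ) ^ i := by
      refine sum_le_sum fun i _ => ?_
      rw [norm_smul, Real.norm_eq_abs]
      calc |ε i| * ‖emb (ν i) - x i‖ ≤ 1 * (1 / 2 : ℝ) ^ i :=
            mul_le_mul (hε i) (hν i) (norm_nonneg _) zero_le_one
        _ = _ := one_mul _
    refine h1.trans ?_
    have h2 := summable_geometric_two.sum_le_tsum s (fun i _ => by positivity)
    rwa [tsum_geometric_two] at h2
  have hN := hF ν hW
  have h1 : Tendsto (fun j => emb (ν j)) atTop (𝓝 0) := by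
    rw [NormedAddGroup.tendsto_nhds_zero]
    intro η hη
    filter_upwards [hN (η / 2) (by linarith)] with j hj
    exact (hP.ge _ _ hj).trans_lt (by linarith)
  have h2 : Tendsto (fun j => emb (ν j) - x j) atTop (𝓝 0) :=
    squeeze_zero_norm hν (tendsto_pow_atTop_nhds_zero_of_lt_one (by norm_num) (by norm_num))
  have h3 := h1.sub h2
  simpa using h3

end

end Crest.Agent.R91
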