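import Crest.Agent.R91.Defs

/-!
# Row 91, task A: elementary facts on `BdAt`, `Bd`
-/

set_option autoImplicit false

open Finset Filter Topology Function

namespace Crest.Agent.R91

noncomputable section

open Classical

namespace Basic1

theorem nonneg {m : ℕ} {φ : Fn} {v : ℕ → ℕ → ℝ} {r : ℝ} (h : BdAt m φ v r) : 0 ≤ r := by
  have := h (fun _ _ => 0) 0 (by simp)
  simpa using this

theorem mono {m : ℕ} {φ : Fn} {v : ℕ → ℕ → ℝ} {r r' : ℝ} (h : BdAt m φ v r) (hr : r ≤ r') :
    BdAt m φ v r' := fun d L hd => (h d L hd).trans hr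

theorem scale {m : ℕ} {φ : Fn} {v : ℕ → ℕ → ℝ} {r : ℝ} (d : ℕ → ℕ → ℝ) (L : ℕ) (D : ℝ)
    (h : BdAt m φ v r) (hD : 0 ≤ D) (hd : ∀ n < m, ∑ l ∈ range L, d n l ^ 2 ≤ D ^ 2) :
    ∑ n ∈ range m, ∑ l ∈ range L, φ n l (v n l) * d n l ≤ r * D := by
  rcases hD.eq_or_lt with h0 | h0
  · subst h0
    have hz : ∀ n ∈ range m, ∀ l ∈ range L, d n l = 0 := by
      intro n hn l hl
      have h1 := hd n (mem_range.1 hn)
      have h2 : d n l ^ 2 ≤ ∑ l ∈ range L, d n l ^ 2 :=
        single_le_sum (f := fun l => d n l ^ 2) (fun _ _ => sq_nonneg _) hl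
      have h3 : d n l ^ 2 ≤ 0 := by nlinarith
      exact pow_eq_zero_iff (two_ne_zero) |>.1 (le_antisymm h3 (sq_nonneg _))
    rw [mul_zero]
    refine le_of_eq (sum_eq_zero fun n hn => sum_eq_zero fun l hl => ?_)
    rw [hz n hn l hl, mul_zero]
  · have key := h (fun n l => if n < m then d n l / D else 0) L (by
      intro n
      by_cases hn : n < m
      · simp only [hn, if_true, div_pow]
        rw [← sum_div, div_le_one (by positivity)]
        exact hd n hn
      · simp [hn])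
    have e : ∑ n ∈ range m, ∑ l ∈ range L, φ n l (v n l) * d n l =
        (∑ n ∈ range m, ∑ l ∈ range L,
          φ n l (v n l) * (if n < m then d n l / D else 0)) * D := by
      rw [sum_mul]
      refine sum_congr rfl fun n hn => ?_
      rw [sum_mul]
      refine sum_congr rfl fun l _ => ?_
      rw [if_pos (mem_range.1 hn)]
      field_simp
    rw [e]
    exact mul_le_mul_of_nonneg_right key hD

theorem anti {m m' : ℕ} {φ : Fn} {v : ℕ → ℕ → ℝ} {r : ℝ} (h : BdAt m φ v r) (hm : m' ≤ m) :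
    BdAt m' φ v r := by
  intro d L hd
  have key := h (fun n l => if n < m' then d n l else 0) L (by
    intro n
    by_cases hn : n < m'
    · simpa [hn] using hd n
    · simp [hn])
  refine le_trans (le_of_eq ?_) key
  have hsub : range m' ⊆ range m := range_subset_range.2 hm
  rw [← sum_subset hsub (f := fun n => ∑ l ∈ range L,
    φ n l (v n l) * (if n < m' then d n l else 0))]
  · refine sum_congr rfl fun n hn => sum_congr rfl fun l _ => ?_
    rw [if_pos (mem_range.1 hn)]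
  · intro n _ hn
    have : ¬ n < m' := fun h => hn (mem_range.2 h)
    simp [this]

theorem zero {m : ℕ} {φ : Fn} {v : ℕ → ℕ → ℝ} {r : ℝ}
    (h : ∀ n < m, ∀ l, φ n l (v n l) = 0) (hr : 0 ≤ r) : BdAt m φ v r := by
  intro d L _
  refine le_trans (le_of_eq ?_) hr
  refine sum_eq_zero fun n hn => sum_eq_zero fun l _ => ?_
  rw [h n (mem_range.1 hn) l, zero_mul]

theorem congr {m : ℕ} {φ φ' : Fn} {v : ℕ → ℕ → ℝ} {r : ℝ} (h : BdAt m φ v r)
    (he : ∀ n < m, ∀ l, φ' n l (v n l) = φ n l (v n l)) : BdAt m φ' v r := by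
  intro d L hd
  refine le_trans (le_of_eq ?_) (h d L hd)
  refine sum_congr rfl fun n hn => sum_congr rfl fun l _ => ?_
  rw [he n (mem_range.1 hn) l]

theorem add {m : ℕ} {φ φ' : Fn} {v : ℕ → ℕ → ℝ} {r r' : ℝ} (h : BdAt m φ v r)
    (h' : BdAt m φ' v r') : BdAt m (φ + φ') v (r + r') := by
  intro d L hd
  refine le_trans (le_of_eq ?_) (add_le_add (h d L hd) (h' d L hd))
  simp only [Pi.add_apply, add_mul, sum_add_distrib]

theorem neg {m : ℕ} {φ : Fn} {v : ℕ → ℕ → ℝ} {r : ℝ} (h : BdAt m φ v r) :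
    BdAt m (-φ) v r := by
  intro d L hd
  refine le_trans (le_of_eq ?_) (h (fun n l => -d n l) L (by simpa using hd))
  simp only [Pi.neg_apply, neg_mul, mul_neg]

theorem sub {m : ℕ} {φ φ' : Fn} {v : ℕ → ℕ → ℝ} {r r' : ℝ} (h : BdAt m φ v r)
    (h' : BdAt m φ' v r') : BdAt m (φ - φ') v (r + r') := by
  rw [sub_eq_add_neg]
  exact add h (neg h')

theorem smul_nonneg {m : ℕ} {φ : Fn} {v : ℕ → ℕ → ℝ} {r : ℝ} (c : ℝ) (hc : 0 ≤ c)
    (h : BdAt m φ v r) : BdAt m (c • φ) v (c * r) := by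
  intro d L hd
  refine le_trans (le_of_eq ?_) (mul_le_mul_of_nonneg_left (h d L hd) hc)
  simp only [Pi.smul_apply, smul_eq_mul, mul_sum, mul_assoc]

theorem smul {m : ℕ} {φ : Fn} {v : ℕ → ℕ → ℝ} {r : ℝ} (c : ℝ)
    (h : BdAt m φ v r) : BdAt m (c • φ) v (|c| * r) := by
  rcases le_total 0 c with hc | hc
  · rw [abs_of_nonneg hc]
    exact smul_nonneg c hc h
  · rw [abs_of_nonpos hc]
    have := smul_nonneg (-c) (by linarith) (neg h)
    rwa [smul_neg, neg_smul, neg_neg] at this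

theorem sum {m : ℕ} {v : ℕ → ℕ → ℝ} (s : Finset ℕ) (φ : ℕ → Fn) (r : ℕ → ℝ)
    (h : ∀ j ∈ s, BdAt m (φ j) v (r j)) : BdAt m (∑ j ∈ s, φ j) v (∑ j ∈ s, r j) := by
  induction s using Finset.induction_on with
  | empty =>
    rw [sum_empty, sum_empty]
    exact zero (fun _ _ _ => rfl) le_rfl
  | insert a s ha ih =>
    rw [sum_insert ha, sum_insert ha]
    exact add (h a (mem_insert_self _ _)) (ih fun j hj => h j (mem_insert_of_mem hj))

theorem mask' {m : ℕ} {φ : Fn} {v : ℕ → ℕ → ℝ} {r : ℝ} (A : ℕ → ℕ → ℝ → Prop)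
    (h : BdAt m φ v r) : BdAt m (mask A φ) v r := by
  intro d L hd
  have key := h (fun n l => if A n l (v n l) then d n l else 0) L (by
    intro n
    refine le_trans (sum_le_sum fun l _ => ?_) (hd n)
    split_ifs
    · exact le_rfl
    · simpa using sq_nonneg (d n l))
  refine le_trans (le_of_eq ?_) key
  refine sum_congr rfl fun n _ => sum_congr rfl fun l _ => ?_
  unfold mask
  split_ifs <;> simp

/-- testing one block -/
theorem blk {m : ℕ} {φ : Fn} {v : ℕ → ℕ → ℝ} {r : ℝ} (n L : ℕ) (d : ℕ → ℝ) (D : ℝ)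
    (h : BdAt m φ v r) (hn : n < m) (hD : 0 ≤ D) (hd : ∑ l ∈ range L, d l ^ 2 ≤ D ^ 2) :
    ∑ l ∈ range L, φ n l (v n l) * d l ≤ r * D := by
  have key := scale (fun n' l => if n' = n then d l else 0) L D h hD (by
    intro n' _
    by_cases h' : n' = n
    · simpa [h'] using hd
    · simp only [h', if_false]
      simpa using sq_nonneg D)
  refine le_trans (le_of_eq (Eq.symm ?_)) key
  rw [sum_eq_single n]
  · simp
  · intro n' _ h'
    simp [h']
  · intro h'
    exact absurd (mem_range.2 hn) h'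

theorem sq {m : ℕ} {φ : Fn} {v : ℕ → ℕ → ℝ} {r : ℝ} (n L : ℕ) (h : BdAt m φ v r) (hn : n < m) :
    ∑ l ∈ range L, φ n l (v n l) ^ 2 ≤ r ^ 2 := by
  set s := ∑ l ∈ range L, φ n l (v n l) ^ 2 with hs
  have hs0 : 0 ≤ s := sum_nonneg fun _ _ => sq_nonneg _
  have key := blk n L (fun l => φ n l (v n l)) (Real.sqrt s) h hn (Real.sqrt_nonneg _)
    (by rw [Real.sq_sqrt hs0])
  have e : ∑ l ∈ range L, φ n l (v n l) * φ n l (v n l) = s :=
    sum_congr rfl fun l _ => by ring
  rw [e] at key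
  have h1 := Real.sq_sqrt hs0
  have h2 := Real.sqrt_nonneg s
  have h3 := nonneg h
  nlinarith [sq_nonneg (r - Real.sqrt s)]

theorem pt {m : ℕ} {φ : Fn} {r : ℝ} (n l : ℕ) (t : ℝ) (h : Bd m φ r) (hn : n < m) :
    |φ n l t| ≤ r := by
  have h1 := sq n (l + 1) (h fun _ _ => t) hn
  have h2 : φ n l t ^ 2 ≤ ∑ l' ∈ range (l + 1), φ n l' t ^ 2 :=
    single_le_sum (f := fun l' => φ n l' t ^ 2) (fun _ _ => sq_nonneg _)
      (mem_range.2 (Nat.lt_succ_self l))
  exact abs_le_of_sq_le_sq' (h2.trans h1) (nonneg (h fun _ _ => t)) |> abs_le.2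

theorem of_sq {m : ℕ} {v : ℕ → ℕ → ℝ} {r : ℝ} (n : ℕ) (φ : Fn) (hr : 0 ≤ r)
    (h0 : ∀ n', n' ≠ n → ∀ l, φ n' l (v n' l) = 0)
    (h : ∀ L, ∑ l ∈ range L, φ n l (v n l) ^ 2 ≤ r ^ 2) : BdAt m φ v r := by
  intro d L hd
  have hb : ∑ l ∈ range L, φ n l (v n l) * d n l ≤ r := by
    have cs := sum_mul_sq_le_sq_mul_sq (range L) (fun l => φ n l (v n l)) (fun l => d n l)
    have h1 : (∑ l ∈ range L, φ n l (v n l) ^ 2) * ∑ l ∈ range L, d n l ^ 2 ≤ r ^ 2 * 1 :=
      mul_le_mul (h L) (hd n) (sum_nonneg fun _ _ => sq_nonneg _) (sq_nonneg _)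
    exact (abs_le_of_sq_le_sq' (by linarith) hr).2
  by_cases hn : n ∈ range m
  · rw [sum_eq_single n]
    · exact hb
    · intro n' _ h'
      exact sum_eq_zero fun l _ => by rw [h0 n' h' l, zero_mul]
    · intro h'
      exact absurd hn h'
  · refine le_trans (le_of_eq (sum_eq_zero fun n' hn' => sum_eq_zero fun l _ => ?_)) hr
    rw [h0 n' (fun e => hn (e ▸ hn')) l, zero_mul]

theorem itg_of_bdd {f : ℝ → ℝ} (r a b : ℝ) (hm : Measurable f) (h : ∀ t, |f t| ≤ r) :
    IntervalIntegrable f MeasureTheory.volume a b := by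
  refine IntervalIntegrable.mono_fun' (g := fun _ => r) intervalIntegrable_const
    hm.aestronglyMeasurable (Filter.Eventually.of_forall fun t => ?_)
  simpa using h t

theorem itg {m : ℕ} {φ : Fn} {r : ℝ} (n l : ℕ) (a b : ℝ) (hm : Measurable (φ n l))
    (h : Bd m φ r) (hn : n < m) : IntervalIntegrable (φ n l) MeasureTheory.volume a b :=
  itg_of_bdd r a b hm fun t => pt n l t h hn

theorem content {m : ℕ} {φ : Fn} {r : ℝ} (x y c : ℕ → ℕ → ℝ) (L : ℕ) (D : ℝ)
    (hm : ∀ n l, Measurable (φ n l)) (h : Bd m φ r) (hD : 0 ≤ D)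
    (hd : ∀ n < m, ∑ l ∈ range L, (c n l * (y n l - x n l)) ^ 2 ≤ D ^ 2) :
    ∑ n ∈ range m, ∑ l ∈ range L, c n l * ∫ s in x n l..y n l, φ n l s ≤ r * D := by
  set g : ℕ → ℕ → ℝ → ℝ := fun n l s =>
    φ n l ((y n l - x n l) * s + x n l) * (c n l * (y n l - x n l)) with hg
  have hgi : ∀ n ∈ range m, ∀ l, IntervalIntegrable (g n l) MeasureTheory.volume 0 1 := by
    intro n hn l
    refine IntervalIntegrable.mul_const ?_ _
    refine itg_of_bdd r 0 1 ((hm n l).comp (by fun_prop)) fun t => ?_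
    exact pt n l _ h (mem_range.1 hn)
  have e1 : ∀ n l, c n l * ∫ s in x n l..y n l, φ n l s = ∫ s in (0 : ℝ)..1, g n l s := by
    intro n l
    have := intervalIntegral.smul_integral_comp_mul_add (a := 0) (b := 1) (φ n l)
      (y n l - x n l) (x n l)
    simp only [mul_zero, zero_add, mul_one, sub_add_cancel, smul_eq_mul] at this
    rw [← this, hg]
    simp only []
    rw [intervalIntegral.integral_mul_const]
    ring
  have e2 : ∑ n ∈ range m, ∑ l ∈ range L, c n l * ∫ s in x n l..y n l, φ n l s =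
      ∫ s in (0 : ℝ)..1, ∑ n ∈ range m, ∑ l ∈ range L, g n l s := by
    rw [intervalIntegral.integral_finsetSum]
    · refine sum_congr rfl fun n hn => ?_
      rw [intervalIntegral.integral_finsetSum fun l _ => hgi n hn l]
      exact sum_congr rfl fun l _ => e1 n l
    · intro n hn
      have := IntervalIntegrable.sum (range L) fun l _ => hgi n hn l
      have e : (fun s => ∑ l ∈ range L, g n l s) = ∑ l ∈ range L, g n l := by
        ext s
        simp
      rw [e]
      exact this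
  rw [e2]
  have hI : IntervalIntegrable (fun s => ∑ n ∈ range m, ∑ l ∈ range L, g n l s)
      MeasureTheory.volume 0 1 := by
    have := IntervalIntegrable.sum (range m) fun n hn =>
      IntervalIntegrable.sum (range L) fun l _ => hgi n hn l
    have e : (fun s => ∑ n ∈ range m, ∑ l ∈ range L, g n l s) =
        ∑ n ∈ range m, ∑ l ∈ range L, g n l := by
      ext s
      simp
    rw [e]
    exact this
  have := intervalIntegral.integral_mono_on (zero_le_one) hI
    (intervalIntegrable_const (c := r * D)) fun s _ =>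
      scale (fun n l => c n l * (y n l - x n l)) L D
        (h fun n l => (y n l - x n l) * s + x n l) hD hd
  simpa using this

end Basic1

theorem basicBd : BasicBd where
  nonneg := Basic1.nonneg
  mono := Basic1.mono
  anti := Basic1.anti
  zero := Basic1.zero
  congr := Basic1.congr
  add := Basic1.add
  neg := Basic1.neg
  sub := Basic1.sub
  smul := Basic1.smul
  sum := Basic1.sum
  mask := Basic1.mask'
  scale := Basic1.scale
  pt := Basic1.pt
  sq := Basic1.sq
  of_sq := Basic1.of_sq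
  itg := Basic1.itg
  content := Basic1.content

end

end Crest.Agent.R91
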