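import Crest.Agent.R91.Defs

/-!
# Row 91, task B: elementary facts on `Var`, `InE`, `pairE`
-/

set_option autoImplicit false

open Finset Filter Topology Function

namespace Crest.Agent.R91

noncomputable section

open Classical

namespace Basic2

theorem good_top {m : ℕ} {τ : Tag} (J : ℕ) (h : Good m τ) : Good m (top J τ) := by
  refine ⟨fun a b hab => ?_, ?_⟩
  · unfold top
    by_cases hb : b < J
    · rw [if_pos hb, if_pos (lt_of_le_of_lt hab hb)]
      exact h.1 hab
    · rw [if_neg hb]
      exact le_top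
  · unfold top
    split_ifs
    · exact h.2
    · exact le_top

theorem top_top (J J' : ℕ) (τ : Tag) : top J (top J' τ) = top (min J J') τ := by
  funext i
  unfold top
  by_cases h1 : i < J <;> by_cases h2 : i < J' <;> simp [h1, h2]

theorem top_update_lt {J i : ℕ} (τ : Tag) (s : ℕ∞) (h : i < J) :
    top J (update τ i s) = update (top J τ) i s := by
  funext k
  by_cases hk : k = i
  · subst hk
    simp [top, h]
  · simp [top, update_of_ne hk]

theorem top_update_ge {J i : ℕ} (τ : Tag) (s : ℕ∞) (h : J ≤ i) :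
    top J (update τ i s) = top J τ := by
  funext k
  unfold top
  by_cases hk : k < J
  · rw [if_pos hk, if_pos hk, update_of_ne (by omega)]
  · rw [if_neg hk, if_neg hk]

theorem var_nonneg {m : ℕ} {τ : Tag} {i : ℕ} {F : Fam} {W : ℝ} (h : Var m τ i F W) : 0 ≤ W := by
  obtain ⟨P, -, hP, -⟩ := h
  exact (hP 0).1.trans (hP 0).2

theorem var_mono {m : ℕ} {τ : Tag} {i : ℕ} {F : Fam} {W W' : ℝ} (h : Var m τ i F W)
    (hW : W ≤ W') : Var m τ i F W' := by
  obtain ⟨P, h1, h2, h3⟩ := h
  exact ⟨P, h1, fun s => ⟨(h2 s).1, (h2 s).2.trans hW⟩, h3⟩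

theorem var_congr {m : ℕ} {τ : Tag} {i : ℕ} {F F' : Fam} {W : ℝ} (h : Var m τ i F W)
    (he : ∀ s, Good m (update τ i s) → F' (update τ i s) = F (update τ i s)) :
    Var m τ i F' W := by
  obtain ⟨P, h1, h2, h3⟩ := h
  refine ⟨P, h1, h2, fun s s' hs g g' => ?_⟩
  rw [he s g, he s' g']
  exact h3 s s' hs g g'

variable (hb : BasicBd)
include hb

theorem bd_zero {m : ℕ} {r : ℝ} (hr : 0 ≤ r) : Bd m 0 r :=
  fun _ => hb.zero (fun _ _ _ => rfl) hr

theorem var_const {m : ℕ} {τ : Tag} {i : ℕ} {W : ℝ} (F : Fam) (hW : 0 ≤ W)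
    (he : ∀ s s', Good m (update τ i s) → Good m (update τ i s') →
      F (update τ i s) = F (update τ i s')) : Var m τ i F W := by
  refine ⟨fun _ => 0, monotone_const, fun _ => ⟨le_rfl, hW⟩, fun s s' _ g g' => ?_⟩
  rw [he s s' g g', sub_self, sub_self]
  exact bd_zero hb le_rfl

theorem var_add {m : ℕ} {τ : Tag} {i : ℕ} {F F' : Fam} {W W' : ℝ} (h : Var m τ i F W)
    (h' : Var m τ i F' W') : Var m τ i (F + F') (W + W') := by
  obtain ⟨P, h1, h2, h3⟩ := h
  obtain ⟨P', h1', h2', h3'⟩ := h'
  refine ⟨fun s => P s + P' s, h1.add h1',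
    fun s => ⟨add_nonneg (h2 s).1 (h2' s).1, add_le_add (h2 s).2 (h2' s).2⟩,
    fun s s' hs g g' v => ?_⟩
  have := hb.add (h3 s s' hs g g' v) (h3' s s' hs g g' v)
  have e : (F + F') (update τ i s') - (F + F') (update τ i s) =
      F (update τ i s') - F (update τ i s) + (F' (update τ i s') - F' (update τ i s)) := by
    simp only [Pi.add_apply]
    abel
  rw [e]
  exact hb.mono this (le_of_eq (by ring))

theorem var_smul {m : ℕ} {τ : Tag} {i : ℕ} {F : Fam} {W : ℝ} (c : ℝ) (h : Var m τ i F W) :
    Var m τ i (c • F) (|c| * W) := by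
  obtain ⟨P, h1, h2, h3⟩ := h
  refine ⟨fun s => |c| * P s, h1.const_mul (abs_nonneg c),
    fun s => ⟨mul_nonneg (abs_nonneg c) (h2 s).1,
      mul_le_mul_of_nonneg_left (h2 s).2 (abs_nonneg c)⟩,
    fun s s' hs g g' v => ?_⟩
  have := hb.smul c (h3 s s' hs g g' v)
  have e : (c • F) (update τ i s') - (c • F) (update τ i s) =
      c • (F (update τ i s') - F (update τ i s)) := by
    simp only [Pi.smul_apply, smul_sub]
  rw [e]
  exact hb.mono this (le_of_eq (by ring))

theorem var_sub {m : ℕ} {τ : Tag} {i : ℕ} {F F' : Fam} {W W' : ℝ} (h : Var m τ i F W)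
    (h' : Var m τ i F' W') : Var m τ i (F - F') (W + W') := by
  have := var_add hb h (var_smul hb (-1) h')
  rw [neg_one_smul, ← sub_eq_add_neg] at this
  simpa using this

theorem var_sum {m : ℕ} {τ : Tag} {i : ℕ} (s : Finset ℕ) (F : ℕ → Fam) (W : ℕ → ℝ)
    (h : ∀ j ∈ s, Var m τ i (F j) (W j)) : Var m τ i (∑ j ∈ s, F j) (∑ j ∈ s, W j) := by
  induction s using Finset.induction_on with
  | empty =>
    rw [sum_empty, sum_empty]
    exact var_const hb 0 le_rfl fun _ _ _ _ => rfl
  | insert a s ha ih =>
    rw [sum_insert ha, sum_insert ha]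
    exact var_add hb (h a (mem_insert_self _ _)) (ih fun j hj => h j (mem_insert_of_mem hj))

theorem var_cut {m : ℕ} {τ : Tag} {i : ℕ} {F : Fam} {W S : ℝ} (A : Tag → Prop)
    (h : Var m τ i F W) (hS : 0 ≤ S)
    (hc : ∀ s, Good m (update τ i s) → Bd m (F (update τ i s)) S)
    (hA : (∀ s s', s ≤ s' → A (update τ i s') → A (update τ i s)) ∨
      (∀ s s', s ≤ s' → A (update τ i s) → A (update τ i s'))) :
    Var m τ i (cut A F) (W + S) := by
  obtain ⟨P, h1, h2, h3⟩ := h
  rcases hA with hA | hA
  · refine ⟨fun s => P s + if A (update τ i s) then 0 else S, fun s s' hs => ?_, fun s => ?_,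
      fun s s' hs g g' v => ?_⟩
    · have := h1 hs
      by_cases a' : A (update τ i s')
      · simp only [a', hA s s' hs a', if_true]
        linarith
      · by_cases a : A (update τ i s) <;> simp only [a, a', if_true, if_false] <;> linarith
    · have := h2 s
      by_cases a : A (update τ i s) <;> simp only [a, if_true, if_false] <;>
        constructor <;> linarith [this.1, this.2]
    · have hP := h1 hs
      unfold cut
      by_cases a' : A (update τ i s')
      · simp only [a', hA s s' hs a', if_true, add_zero]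
        exact h3 s s' hs g g' v
      · by_cases a : A (update τ i s)
        · simp only [a, a', if_true, if_false, zero_sub]
          exact hb.mono (hb.neg (hc s g v)) (by linarith)
        · simp only [a, a', if_false, sub_self]
          exact bd_zero hb (by linarith) v
  · refine ⟨fun s => P s + if A (update τ i s) then S else 0, fun s s' hs => ?_, fun s => ?_,
      fun s s' hs g g' v => ?_⟩
    · have := h1 hs
      by_cases a : A (update τ i s)
      · simp only [a, hA s s' hs a, if_true]
        linarith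
      · by_cases a' : A (update τ i s') <;> simp only [a, a', if_true, if_false] <;> linarith
    · have := h2 s
      by_cases a : A (update τ i s) <;> simp only [a, if_true, if_false] <;>
        constructor <;> linarith [this.1, this.2]
    · have hP := h1 hs
      unfold cut
      by_cases a : A (update τ i s)
      · simp only [a, hA s s' hs a, if_true]
        exact hb.mono (h3 s s' hs g g' v) (by linarith)
      · by_cases a' : A (update τ i s')
        · simp only [a, a', if_true, if_false, sub_zero]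
          exact hb.mono (hc s' g' v) (by linarith)
        · simp only [a, a', if_false, sub_self]
          exact bd_zero hb (by linarith) v

theorem var_tiny {m : ℕ} {τ : Tag} {i : ℕ} {S : ℝ} (F : Fam) (M : ℕ) (hS : 0 ≤ S)
    (hc : ∀ s, Good m (update τ i s) → Bd m (F (update τ i s)) S ∧ s ≤ (M : ℕ∞)) :
    Var m τ i F (2 * S * M) := by
  have hfin : ∀ s : ℕ∞, min s (M : ℕ∞) ≠ ⊤ := fun s =>
    ne_top_of_le_ne_top (ENat.natCast_ne_top M) (min_le_right _ _)
  refine ⟨fun s => 2 * S * ((min s (M : ℕ∞)).toNat : ℝ), fun s s' hs => ?_, fun s => ⟨?_, ?_⟩,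
    fun s s' hs g g' v => ?_⟩
  · refine mul_le_mul_of_nonneg_left ?_ (by linarith)
    exact_mod_cast ENat.toNat_le_toNat (min_le_min_right _ hs) (hfin s')
  · positivity
  · refine mul_le_mul_of_nonneg_left ?_ (by linarith)
    have : (min s (M : ℕ∞)).toNat ≤ M := ENat.toNat_le_of_le_natCast (min_le_right _ _)
    exact_mod_cast this
  · rcases hs.eq_or_lt with rfl | hlt
    · rw [sub_self, sub_self]
      exact bd_zero hb le_rfl v
    · obtain ⟨b, hM⟩ := hc s g
      obtain ⟨b', hM'⟩ := hc s' g'
      refine hb.mono (hb.sub (b' v) (b v)) ?_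
      simp only [min_eq_left hM, min_eq_left hM']
      have h1 : s' ≠ ⊤ := ne_top_of_le_ne_top (ENat.natCast_ne_top M) hM'
      have h2 : s ≠ ⊤ := ne_top_of_le_ne_top (ENat.natCast_ne_top M) hM
      lift s to ℕ using h2
      lift s' to ℕ using h1
      have h3 : s < s' := by exact_mod_cast hlt
      have h4 : (s : ℝ) + 1 ≤ s' := by exact_mod_cast h3
      simp only [ENat.toNat_natCast]
      nlinarith

omit hb in
theorem wt_nonneg {ω : ℝ} (hω : 0 ≤ ω) (i : ℕ) : 0 ≤ wt ω i := by
  unfold wt
  positivity

omit hb in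
theorem wt_succ (ω : ℝ) (i : ℕ) : wt ω (i + 1) = wt ω i / 4 := by
  unfold wt
  rw [pow_succ, div_div]

theorem mono {ω S C S' C' : ℝ} {F : Fam} (h : InE ω S C F) (hω : 0 ≤ ω) (hS : S ≤ S')
    (hC : C ≤ C') : InE ω S' C' F where
  meas := h.meas
  cap := fun m τ g v => hb.mono (h.cap m τ g v) hS
  var := fun m τ i => var_mono (h.var m τ i) (mul_le_mul_of_nonneg_right hC (wt_nonneg hω i))
  tail := fun m τ J g v => hb.mono (h.tail m τ J g v)
    (mul_le_mul_of_nonneg_right hC (by linarith [wt_nonneg hω J]))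

theorem const {ω S C : ℝ} (φ : Fn) (hω : 0 ≤ ω) (hC : 0 ≤ C) (hm : ∀ n l, Measurable (φ n l))
    (hc : ∀ m, Bd m φ S) : InE ω S C (fun _ => φ) where
  meas := fun _ => hm
  cap := fun m _ _ => hc m
  var := fun _ _ i => var_const hb _ (mul_nonneg hC (wt_nonneg hω i)) fun _ _ _ _ => rfl
  tail := fun _ _ J _ => by
    rw [sub_self]
    exact bd_zero hb (mul_nonneg hC (by linarith [wt_nonneg hω J]))

theorem zero {ω S C : ℝ} (hω : 0 ≤ ω) (hS : 0 ≤ S) (hC : 0 ≤ C) : InE ω S C 0 :=
  const hb 0 hω hC (fun _ _ => measurable_const) fun _ => bd_zero hb hS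

theorem smul {ω S C : ℝ} {F : Fam} (c : ℝ) (h : InE ω S C F) :
    InE ω (|c| * S) (|c| * C) (c • F) where
  meas := fun τ n l => (h.meas τ n l).const_smul c
  cap := fun m τ g v => hb.smul c (h.cap m τ g v)
  var := fun m τ i => by
    rw [mul_assoc]
    exact var_smul hb c (h.var m τ i)
  tail := fun m τ J g v => by
    have := hb.smul c (h.tail m τ J g v)
    rw [smul_sub, ← mul_assoc] at this
    exact this

theorem add {ω S C S' C' : ℝ} {F F' : Fam} (h : InE ω S C F) (h' : InE ω S' C' F') :
    InE ω (S + S') (C + C') (F + F') where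
  meas := fun τ n l => (h.meas τ n l).add (h'.meas τ n l)
  cap := fun m τ g v => hb.add (h.cap m τ g v) (h'.cap m τ g v)
  var := fun m τ i => by
    rw [add_mul]
    exact var_add hb (h.var m τ i) (h'.var m τ i)
  tail := fun m τ J g v => by
    have := hb.add (h.tail m τ J g v) (h'.tail m τ J g v)
    have e : (F + F') τ - (F + F') (top J τ) =
        F τ - F (top J τ) + (F' τ - F' (top J τ)) := by
      simp only [Pi.add_apply]
      abel
    rw [e, add_mul]
    exact this

theorem top' {ω S C : ℝ} {F : Fam} (J : ℕ) (h : InE ω S C F) :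
    InE ω S C (fun τ => F (top J τ)) where
  meas := fun τ => h.meas _
  cap := fun m τ g => h.cap m _ (good_top J g)
  var := fun m τ i => by
    by_cases hi : i < J
    · obtain ⟨P, h1, h2, h3⟩ := h.var m (top J τ) i
      refine ⟨P, h1, h2, fun s s' hs g g' => ?_⟩
      have k := good_top J g
      have k' := good_top J g'
      simp only [top_update_lt τ _ hi] at k k' ⊢
      exact h3 s s' hs k k'
    · refine var_const hb _ (var_nonneg (h.var m τ i)) fun s s' _ _ => ?_
      simp only [top_update_ge τ _ (not_lt.1 hi)]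
  tail := fun m τ J' g => by
    have := h.tail m (top J τ) J' (good_top J g)
    rw [top_top, min_comm, ← top_top] at this
    exact this

omit hb in
theorem mask_sub (A : ℕ → ℕ → ℝ → Prop) (φ φ' : Fn) :
    mask A φ - mask A φ' = mask A (φ - φ') := by
  funext n l t
  simp only [mask, Pi.sub_apply]
  split_ifs <;> simp

theorem mask' {ω S C : ℝ} {F : Fam} (A : ℕ → ℕ → ℝ → Prop)
    (hA : ∀ n l, MeasurableSet {t | A n l t}) (h : InE ω S C F) :
    InE ω S C (fun τ => mask A (F τ)) where
  meas := fun τ n l => Measurable.ite (hA n l) (h.meas τ n l) measurable_const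
  cap := fun m τ g v => hb.mask A (h.cap m τ g v)
  var := fun m τ i => by
    obtain ⟨P, h1, h2, h3⟩ := h.var m τ i
    refine ⟨P, h1, h2, fun s s' hs g g' v => ?_⟩
    simp only [mask_sub]
    exact hb.mask A (h3 s s' hs g g' v)
  tail := fun m τ J g v => by
    simp only [mask_sub]
    exact hb.mask A (h.tail m τ J g v)

omit hb in
theorem top_succ (i : ℕ) (τ : Tag) : top (i + 1) τ = update (top i τ) i (τ i) := by
  funext k
  by_cases hk : k = i
  · subst hk
    simp [top]
  · rw [update_of_ne hk]
    unfold top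
    have : k < i + 1 ↔ k < i := by omega
    simp only [this]

omit hb in
theorem top_self (i : ℕ) (τ : Tag) : update (top i τ) i ⊤ = top i τ := by
  funext k
  by_cases hk : k = i
  · subst hk
    simp [top]
  · rw [update_of_ne hk]

theorem of_fin {ω S C : ℝ} (F : Fam) (R : ℕ) (hm : ∀ τ n l, Measurable (F τ n l))
    (hc : ∀ m τ, Good m τ → Bd m (F τ) S) (hv : ∀ m τ i, Var m τ i F (C * wt ω i))
    (hR : ∀ τ, F (top R τ) = F τ) : InE ω S C F where
  meas := hm
  cap := hc
  var := hv
  tail := fun m τ J g v => by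
    have step : ∀ i, BdAt m (F (top (i + 1) τ) - F (top i τ)) v (C * wt ω i) := by
      intro i
      obtain ⟨P, -, h2, h3⟩ := hv m (top i τ) i
      have g1 : Good m (update (top i τ) i (τ i)) := by
        rw [← top_succ]
        exact good_top _ g
      have g2 : Good m (update (top i τ) i ⊤) := by
        rw [top_self]
        exact good_top _ g
      have := hb.neg (h3 (τ i) ⊤ le_top g1 g2 v)
      rw [top_self, ← top_succ, neg_sub] at this
      exact hb.mono this (by linarith [(h2 ⊤).2, (h2 (τ i)).1])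
    have key : ∀ k, BdAt m (F (top (J + k) τ) - F (top J τ)) v
        (C * (2 * wt ω J) - C * (2 * wt ω (J + k))) := by
      intro k
      induction k with
      | zero =>
        rw [Nat.add_zero, sub_self, sub_self]
        exact bd_zero hb le_rfl v
      | succ k ih =>
        have := hb.add (step (J + k)) ih
        rw [sub_add_sub_cancel] at this
        rw [← Nat.add_assoc]
        refine hb.mono this ?_
        rw [wt_succ]
        have := var_nonneg (hv m τ (J + k))
        linarith
    have k := key R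
    have e : F (top (J + R) τ) = F τ := by
      rw [← hR (top (J + R) τ), top_top, min_eq_left (Nat.le_add_left R J), hR]
    rw [e] at k
    refine hb.mono k ?_
    have := var_nonneg (hv m τ (J + R))
    linarith

omit hb in
theorem good_of_act {τ : Tag} {n : ℕ} (ha : Act τ) (hn : (n : ℕ∞) < τ 0) : Good (n + 1) τ :=
  ⟨ha.1, by
    push_cast
    exact Order.add_one_le_of_lt hn⟩

theorem itg {ω S C : ℝ} {F : Fam} (h : InE ω S C F) : Itg F := fun τ n l ha hn a b =>
  hb.itg n l a b (h.meas τ n l) (h.cap _ τ (good_of_act ha hn)) (Nat.lt_succ_self n)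

theorem cap_nonneg {ω S C : ℝ} {F : Fam} (h : InE ω S C F) : 0 ≤ S :=
  hb.nonneg (h.cap 0 (fun _ => ⊤) ⟨monotone_const, le_top⟩ fun _ _ => 0)

theorem val_le {ω S C : ℝ} {F : Fam} (i : IE) (h : InE ω S C F) :
    |valE F i| ≤ S * |i.2.2.2| := by
  unfold valE
  split_ifs with hv
  · have := intervalIntegral.norm_integral_le_of_norm_le_const (a := 0) (b := i.2.2.2)
      (f := F i.1 i.2.1 i.2.2.1) (C := S) fun t _ =>
        hb.pt _ _ t (h.cap _ _ (good_of_act hv.1 hv.2)) (Nat.lt_succ_self _)
    simpa using this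
  · rw [abs_zero]
    exact mul_nonneg (cap_nonneg hb h) (abs_nonneg _)

theorem val_tail {ω S C : ℝ} {F : Fam} (J : ℕ) (i : IE) (h : InE ω S C F) :
    |valE F i - valE (fun τ => F (top J τ)) i| ≤ C * (2 * wt ω J) * |i.2.2.2| := by
  unfold valE
  split_ifs with hv
  · rw [← intervalIntegral.integral_sub (itg hb h _ _ _ hv.1 hv.2 _ _)
      (itg hb (top' hb J h) _ _ _ hv.1 hv.2 _ _)]
    have := intervalIntegral.norm_integral_le_of_norm_le_const (a := 0) (b := i.2.2.2)
      (f := fun t => F i.1 i.2.1 i.2.2.1 t - F (top J i.1) i.2.1 i.2.2.1 t)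
      (C := C * (2 * wt ω J)) fun t _ =>
        hb.pt (φ := F i.1 - F (top J i.1)) _ _ t (h.tail _ _ J (good_of_act hv.1 hv.2))
          (Nat.lt_succ_self _)
    simpa using this
  · rw [sub_self, abs_zero]
    have := var_nonneg (h.var 0 i.1 J)
    exact mul_nonneg (by linarith) (abs_nonneg _)

omit hb in
theorem pair_smul (c : ℝ) (F : Fam) : pairE (c • F) = c • pairE F := by
  refine Finsupp.lhom_ext fun i a => ?_
  simp only [pairE, Finsupp.linearCombination_single, LinearMap.smul_apply, smul_eq_mul]
  unfold valE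
  split_ifs
  · simp only [Pi.smul_apply, smul_eq_mul, intervalIntegral.integral_const_mul]
    ring
  · simp

omit hb in
theorem pair_add {F F' : Fam} (h : Itg F) (h' : Itg F') :
    pairE (F + F') = pairE F + pairE F' := by
  refine Finsupp.lhom_ext fun i a => ?_
  simp only [pairE, Finsupp.linearCombination_single, LinearMap.add_apply, smul_eq_mul]
  unfold valE
  split_ifs with hv
  · simp only [Pi.add_apply]
    rw [intervalIntegral.integral_add (h _ _ _ hv.1 hv.2 _ _) (h' _ _ _ hv.1 hv.2 _ _)]
    ring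
  · simp

omit hb in
theorem pair_sub {F F' : Fam} (h : Itg F) (h' : Itg F') :
    pairE (F - F') = pairE F - pairE F' := by
  refine Finsupp.lhom_ext fun i a => ?_
  simp only [pairE, Finsupp.linearCombination_single, LinearMap.sub_apply, smul_eq_mul]
  unfold valE
  split_ifs with hv
  · simp only [Pi.sub_apply]
    rw [intervalIntegral.integral_sub (h _ _ _ hv.1 hv.2 _ _) (h' _ _ _ hv.1 hv.2 _ _)]
    ring
  · simp

omit hb in
theorem itg_zero : Itg 0 := fun _ _ _ _ _ _ _ => intervalIntegrable_const (c := (0 : ℝ))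

omit hb in
theorem itg_add {F F' : Fam} (h : Itg F) (h' : Itg F') : Itg (F + F') :=
  fun τ n l ha hn a b => (h τ n l ha hn a b).add (h' τ n l ha hn a b)

omit hb in
theorem itg_sum (s : Finset ℕ) (F : ℕ → Fam) (h : ∀ j ∈ s, Itg (F j)) : Itg (∑ j ∈ s, F j) := by
  induction s using Finset.induction_on with
  | empty =>
    rw [sum_empty]
    exact itg_zero
  | insert a s ha ih =>
    rw [sum_insert ha]
    exact itg_add (h a (mem_insert_self _ _)) (ih fun j hj => h j (mem_insert_of_mem hj))

omit hb in
theorem pair_zero : pairE 0 = 0 := by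
  have := pair_smul 0 0
  rwa [zero_smul, zero_smul] at this

omit hb in
theorem pair_sum (s : Finset ℕ) (F : ℕ → Fam) (h : ∀ j ∈ s, Itg (F j)) :
    pairE (∑ j ∈ s, F j) = ∑ j ∈ s, pairE (F j) := by
  induction s using Finset.induction_on with
  | empty =>
    rw [sum_empty, sum_empty]
    exact pair_zero
  | insert a s ha ih =>
    rw [sum_insert ha, sum_insert ha, pair_add (h a (mem_insert_self _ _))
      (itg_sum s F fun j hj => h j (mem_insert_of_mem hj)),
      ih fun j hj => h j (mem_insert_of_mem hj)]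

omit hb in
theorem itg_cut {F : Fam} (A : Tag → Prop) (h : Itg F) : Itg (cut A F) := by
  intro τ n l ha hn a b
  unfold cut
  split_ifs
  · exact h τ n l ha hn a b
  · exact intervalIntegrable_const (c := (0 : ℝ))

theorem mem {ω S C C' : ℝ} {F : Fam} (h : InE ω S C F) (hω : 0 ≤ ω) (hS : S ≤ C') (hC : C ≤ C')
    (h0 : 0 < C') : ∃ g ∈ EE ω, pairE F = C' • g := by
  have h1 := smul hb C'⁻¹ (mono hb h hω hS hC)
  rw [abs_of_pos (inv_pos.2 h0), inv_mul_cancel₀ h0.ne'] at h1
  refine ⟨pairE (C'⁻¹ • F), ⟨_, h1, rfl⟩, ?_⟩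
  rw [pair_smul, smul_smul, mul_inv_cancel₀ h0.ne', one_smul]

end Basic2

theorem basicE (h : BasicBd) : BasicE where
  good_top := Basic2.good_top
  top_top := Basic2.top_top
  top_update_lt := Basic2.top_update_lt
  top_update_ge := Basic2.top_update_ge
  var_mono := Basic2.var_mono
  var_congr := Basic2.var_congr
  var_const := Basic2.var_const h
  var_add := Basic2.var_add h
  var_sub := Basic2.var_sub h
  var_smul := Basic2.var_smul h
  var_sum := Basic2.var_sum h
  var_cut := Basic2.var_cut h
  var_tiny := Basic2.var_tiny h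
  mono := Basic2.mono h
  zero := Basic2.zero h
  smul := Basic2.smul h
  add := Basic2.add h
  top := Basic2.top' h
  mask := Basic2.mask' h
  const := Basic2.const h
  of_fin := Basic2.of_fin h
  itg := Basic2.itg h
  val_le := Basic2.val_le h
  val_tail := Basic2.val_tail h
  pair_smul := Basic2.pair_smul
  pair_add := Basic2.pair_add
  pair_sub := Basic2.pair_sub
  pair_sum := Basic2.pair_sum
  itg_cut := Basic2.itg_cut
  mem := Basic2.mem h

end

end Crest.Agent.R91
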