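import Crest.Agent.R91.Defs

/-! R91-H: elementary facts on `KK`, separability. -/

set_option autoImplicit false

open Finset Filter Topology Function

namespace Crest.Agent.R91

noncomputable section

open Classical

namespace BK

variable {ε : ℝ} (P : Par ε)

theorem pairK_single (ψ : ℕ → Cell → Fam) (i : IK) (c : ℝ) :
    pairK P ψ (Finsupp.single i c) = c * valK P ψ i := by
  simp [pairK]

theorem blk_single (n : ℕ) (i : IK) (c : ℝ) :
    blk n (Finsupp.single i c) = if i.2.2.2.1 = n then Finsupp.single i c else 0 := by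
  simp only [blk, Finsupp.linearCombination_single]
  split_ifs <;> simp

theorem valE_smul (c : ℝ) (F : Fam) (i : IE) : valE (c • F) i = c * valE F i := by
  unfold valE
  split_ifs
  · simp [intervalIntegral.integral_const_mul]
  · simp

theorem pairK_smul (c : ℝ) (ψ : ℕ → Cell → Fam) : pairK P (c • ψ) = c • pairK P ψ := by
  refine Finsupp.lhom_ext fun i b => ?_
  simp only [pairK_single, LinearMap.smul_apply, smul_eq_mul, valK, Pi.smul_apply, valE_smul]
  split_ifs <;> ring

variable {P}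

theorem inK_smul (hB : BasicBd) (hE : BasicE) {C : ℝ} {ψ : ℕ → Cell → Fam} (c : ℝ) (h : InK P C ψ) :
    InK P (|c| * C) (c • ψ) := by
  obtain ⟨S, h1, h2, h3, h4⟩ := h
  refine ⟨fun k q => |c| * S k q, fun k q => hE.smul c (h1 k q),
    fun k q => mul_le_mul_of_nonneg_left (h2 k q) (abs_nonneg c), fun k => ?_, fun v => ?_⟩
  · rw [← mul_sum, mul_assoc]
    exact mul_le_mul_of_nonneg_left (h3 k) (abs_nonneg c)
  · obtain ⟨b, b1, b2, b3⟩ := h4 v
    refine ⟨fun k => |c| * b k, fun k => mul_nonneg (abs_nonneg c) (b1 k), fun K => ?_,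
      fun k q hq hc m τ hτ => hB.smul c (b3 k q hq hc m τ hτ)⟩
    rw [← mul_sum]
    exact mul_le_mul_of_nonneg_left (b2 K) (abs_nonneg c)

theorem good_of {τ : Tag} {n : ℕ} (h : Act τ ∧ (n : ℕ∞) < τ 0) : Good (n + 1) τ :=
  ⟨h.1.1, by push_cast; exact Order.add_one_le_of_lt h.2⟩

theorem valK_le (hE : BasicE) {C : ℝ} {ψ : ℕ → Cell → Fam} (h : InK P C ψ) (hC : 0 ≤ C) (i : IK) :
    |valK P ψ i| ≤ C * |i.2.2.2.2.2| := by
  obtain ⟨S, h1, h2, -⟩ := h
  unfold valK
  split_ifs
  · exact (hE.val_le _ (h1 _ _)).trans (mul_le_mul_of_nonneg_right (h2 _ _) (abs_nonneg _))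
  · simp only [abs_zero]; positivity

theorem act_countable : {τ : Tag | Act τ}.Countable := by
  refine (Set.countable_range fun x : Σ N : ℕ, Fin (N + 1) → ℕ∞ =>
    (fun i => x.2 ⟨min i x.1, Nat.lt_succ_of_le (min_le_right _ _)⟩ : Tag)).mono ?_
  rintro τ ⟨hm, M, hM⟩
  obtain ⟨N, hN⟩ := ENat.exists_eq_iSup_of_lt_top (f := τ) ((iSup_le hM).trans_lt (ENat.natCast_lt_top M))
  refine ⟨⟨N, fun i => τ i⟩, funext fun i => ?_⟩
  rcases le_total i N with h | h
  · simp [h]
  · simp only [min_eq_right h]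
    exact le_antisymm (hm h) (hN ▸ le_iSup τ i)

end BK

open BK

theorem basicK (hB : BasicBd) (hE : BasicE) {ε : ℝ} (P : Par ε) : BasicK P where
  nonempty := ⟨_, 0, ⟨fun _ _ => 0, fun k _ => hE.zero (P.ω_pos k).le le_rfl zero_le_one,
    fun _ _ => zero_le_one, fun k => by simpa using zero_le_one.trans (P.one_le_Cn k),
    fun v => ⟨fun _ => 0, fun _ => le_rfl, fun _ => by simp,
      fun _ _ _ _ _ _ _ => hB.zero (fun _ _ _ => rfl) le_rfl⟩⟩, rfl⟩
  neg := by
    rintro _ ⟨ψ, h, rfl⟩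
    exact ⟨(-1 : ℝ) • ψ, by simpa using inK_smul hB hE (-1) h, by rw [pairK_smul]; ext; simp⟩
  bdd := fun ν => ⟨∑ i ∈ ν.support, |ν i| * |i.2.2.2.2.2|, by
    rintro _ ⟨ψ, h, rfl⟩
    rw [pairK, Finsupp.linearCombination_apply, Finsupp.sum]
    refine sum_le_sum fun i _ => (le_abs_self _).trans ?_
    rw [smul_eq_mul, abs_mul]
    exact mul_le_mul_of_nonneg_left (by simpa using valK_le hE h zero_le_one i) (abs_nonneg _)⟩
  mem := fun {C ψ} h hC => by
    refine ⟨_, ⟨C⁻¹ • ψ, ?_, rfl⟩, by rw [pairK_smul, smul_smul, mul_inv_cancel₀ hC.ne', one_smul]⟩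
    have := inK_smul hB hE C⁻¹ h
    rwa [abs_of_pos (inv_pos.2 hC), inv_mul_cancel₀ hC.ne'] at this
  mono := by
    rintro C C' ψ ⟨S, h1, h2, h3, h4⟩ hC
    refine ⟨S, fun k q => hE.mono (h1 k q) (P.ω_pos k).le le_rfl hC, fun k q => (h2 k q).trans hC,
      fun k => (h3 k).trans (mul_le_mul_of_nonneg_right hC (zero_le_one.trans (P.one_le_Cn k))), fun v => ?_⟩
    obtain ⟨b, b1, b2, b3⟩ := h4 v
    exact ⟨b, b1, fun K => (b2 K).trans hC, b3⟩
  mask := by
    rintro C ψ A hA ⟨S, h1, h2, h3, h4⟩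
    refine ⟨S, fun k q => hE.mask _ (hA k q) (h1 k q), h2, h3, fun v => ?_⟩
    obtain ⟨b, b1, b2, b3⟩ := h4 v
    exact ⟨b, b1, b2, fun k q hq hc m τ hτ => hB.mask _ (b3 k q hq hc m τ hτ)⟩
  blk_mem := by
    rintro _ ⟨ψ, ⟨S, h1, h2, h3, h4⟩, rfl⟩ n
    refine ⟨fun k q τ => mask (fun n' _ _ => n' = n) (ψ k q τ),
      ⟨S, fun k q => hE.mask _ (fun _ _ => MeasurableSet.const _) (h1 k q), h2, h3, fun v => ?_⟩, ?_⟩
    · obtain ⟨b, b1, b2, b3⟩ := h4 v
      exact ⟨b, b1, b2, fun k q hq hc m τ hτ => hB.mask _ (b3 k q hq hc m τ hτ)⟩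
    · refine Finsupp.lhom_ext fun i c => ?_
      rw [LinearMap.comp_apply, blk_single, pairK_single]
      split_ifs with h
      · rw [pairK_single]
        simp [valK, valE, mask, h]
      · simp [valK, valE, mask, h]
  single := fun k q F hF => by
    refine ⟨fun k' q' => if k' = k ∧ q' = q then 1 else 0, fun k' q' => ?_, fun k' q' => ?_, fun k' => ?_,
      fun v => ⟨fun k' => if k' = k then 1 else 0, fun k' => ?_, fun K => ?_, fun k' q' _ _ m τ hτ => ?_⟩⟩
    · dsimp only
      split_ifs with h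
      · exact h.1 ▸ hF
      · exact hE.zero (P.ω_pos k').le le_rfl zero_le_one
    · dsimp only
      split_ifs <;> norm_num
    · rw [one_mul]
      refine le_trans (sum_le_sum (g := fun q' => if q' = q then (1 : ℝ) else 0) fun q' _ => ?_)
        (le_trans ?_ (P.one_le_Cn k'))
      · dsimp only
        split_ifs with h1 h2 h2
        · exact le_rfl
        · exact absurd h1.2 h2
        · exact zero_le_one
        · exact le_rfl
      · rw [sum_ite_eq']
        split_ifs <;> norm_num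
    · dsimp only
      split_ifs <;> norm_num
    · rw [sum_ite_eq']
      split_ifs <;> norm_num
    · dsimp only
      split_ifs with h1 h2 h2
      · exact hF.cap m τ hτ v
      · exact absurd h1.1 h2
      · exact hB.zero (fun _ _ _ => rfl) zero_le_one
      · exact hB.zero (fun _ _ _ => rfl) le_rfl

theorem kSep (hB : BasicBd) (hE : BasicE) {ε : ℝ} (P : Par ε) : KSep P := by
  intro B _ _ emb hP
  have lip : ∀ k q τ n l, LipschitzWith 1 fun t : ℝ => emb (Finsupp.single ((k, q, τ, n, l, t) : IK) 1) := by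
    intro k q τ n l
    refine LipschitzWith.of_dist_le_mul fun t t' => ?_
    rw [dist_eq_norm, ← map_sub, NNReal.coe_one, one_mul, Real.dist_eq]
    refine hP.ge _ _ ?_
    rintro _ ⟨ψ, ⟨S, h1, h2, -⟩, rfl⟩
    simp only [map_sub, pairK_single, one_mul, valK, valE]
    split_ifs with hq hv
    · have hi := hE.itg (h1 k q) τ n l hv.1 hv.2
      rw [intervalIntegral.integral_interval_sub_left (hi _ _) (hi _ _)]
      have := intervalIntegral.norm_integral_le_of_norm_le_const (a := t') (b := t) (C := 1) (f := ψ k q τ n l)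
        fun s _ => (hB.pt n l s ((h1 k q).cap _ τ (good_of hv)) n.lt_succ_self).trans (h2 k q)
      rw [one_mul] at this
      exact (le_abs_self _).trans this
    · simp
    · simp
  have := act_countable.to_subtype
  set s : Set B := {0} ∪ ⋃ x : Σ k : ℕ, P.Q k × {τ : Tag | Act τ} × ℕ × ℕ,
    Set.range fun t : ℝ => emb (Finsupp.single ((x.1, x.2.1, x.2.2.1, x.2.2.2.1, x.2.2.2.2, t) : IK) 1) with hs
  have h1 : TopologicalSpace.IsSeparable s :=
    (Set.finite_singleton _).isSeparable.union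
      (.iUnion fun x => TopologicalSpace.isSeparable_range (lip _ _ _ _ _).continuous)
  have h2 : ∀ ν, emb ν ∈ Submodule.span ℝ s := by
    intro ν
    induction ν using Finsupp.induction_linear with
    | zero => simp
    | add a b ha hb => rw [map_add]; exact add_mem ha hb
    | single i c =>
      rw [← Finsupp.smul_single_one, map_smul]
      refine Submodule.smul_mem _ _ (Submodule.subset_span ?_)
      obtain ⟨k, q, τ, n, l, t⟩ := i
      by_cases h : q ∈ P.Q k ∧ Act τ
      · exact .inr (Set.mem_iUnion.2 ⟨⟨k, ⟨q, h.1⟩, ⟨τ, h.2⟩, n, l⟩, t, rfl⟩)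
      · refine .inl (norm_le_zero_iff.1 (hP.ge _ _ ?_))
        rintro _ ⟨ψ, -, rfl⟩
        simp only [pairK_single, one_mul, valK, valE]
        split_ifs with hq hv
        · exact absurd ⟨hq, hv.1⟩ h
        · rfl
        · rfl
  refine TopologicalSpace.isSeparable_univ_iff.1 ((h1.span (R := ℝ)).closure.mono fun c _ => ?_)
  exact closure_mono (Set.range_subset_iff.2 h2) (hP.dense c)

end

end Crest.Agent.R91
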