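import Crest.Agent.R91.Defs

/-! Row 91, task F: bounded depth. -/

set_option autoImplicit false

open Finset Filter Topology Function

namespace Crest.Agent.R91

namespace CASEI

open Classical

theorem wt_pos {ω : ℝ} (hω : 0 < ω) (i : ℕ) : 0 < wt ω i := by unfold wt; positivity

theorem wt_anti {ω : ℝ} (hω : 0 < ω) {i j : ℕ} (h : i ≤ j) : wt ω j ≤ wt ω i :=
  div_le_div_of_nonneg_left hω.le (by positivity) (pow_le_pow_right₀ (by norm_num) h)

theorem bd_cut (B : BasicBd) {m : ℕ} {F : Fam} {τ : Tag} {S : ℝ} (A : Tag → Prop)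
    (h : Bd m (F τ) S) : Bd m (cut A F τ) S := by
  unfold cut
  split_ifs
  · exact h
  · exact fun v => B.zero (fun _ _ _ => rfl) (B.nonneg (h v))

/-- One window. -/
noncomputable def win (J M M' : ℕ) (G : Fam) : Fam :=
  cut (fun τ => τ (J + 1) ≤ (M' : ℕ∞)) (cut (fun τ => (M : ℕ∞) < τ J) fun τ => G (top (J + 1) τ))

theorem win_zero {J M M' : ℕ} (G : Fam) {τ : Tag} (h : ¬ ((M : ℕ∞) < τ J ∧ τ (J + 1) ≤ M')) :
    win J M M' G τ = 0 := by
  unfold win cut
  split_ifs with h1 h2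
  exacts [absurd ⟨h2, h1⟩ h, rfl, rfl]

theorem exists_bound (x : IE →₀ ℝ) (M : ℕ) :
    ∃ M' ≥ M, ∀ i ∈ x.support, Act i.1 → ∀ k, i.1 k ≤ (M' : ℕ∞) := by
  have : ∀ i : IE, ∃ b : ℕ, Act i.1 → ∀ k, i.1 k ≤ (b : ℕ∞) := fun i => by
    by_cases h : Act i.1
    · obtain ⟨b, hb⟩ := h.2
      exact ⟨b, fun _ => hb⟩
    · exact ⟨0, fun h' => absurd h' h⟩
  choose b hb using this
  refine ⟨max M (x.support.sup b), le_max_left _ _, fun i hi ha k => (hb i ha k).trans ?_⟩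
  exact_mod_cast (le_sup (f := b) hi).trans (le_max_right _ _)

theorem step (E : BasicE) {ω η : ℝ} (hη : 0 < η) {ν : ℕ → IE →₀ ℝ} {J : ℕ}
    (hF : ∀ M : ℕ, Null {g | ∃ G, InE ω 1 1 G ∧
      g = pairE (cut (fun τ => τ J ≤ (M : ℕ∞)) (fun τ => G (top (J + 1) τ)))} ν)
    (hfr : ∃ᶠ j in atTop, ∃ G, InE ω 1 1 G ∧ η < pairE (fun τ => G (top (J + 1) τ)) (ν j))
    (a : ℕ × ℕ) : ∃ j ≥ a.2, ∃ M' ≥ a.1, ∃ G, InE ω 1 1 G ∧
      η / 2 ≤ pairE (win J a.1 M' G) (ν j) := by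
  obtain ⟨j, ⟨G, hG, hlt⟩, h1, h2⟩ :=
    (hfr.and_eventually ((hF a.1 _ (half_pos hη)).and (eventually_ge_atTop a.2))).exists
  obtain ⟨M', hM', hb⟩ := exists_bound (ν j) a.1
  refine ⟨j, h2, M', hM', G, hG, ?_⟩
  have h3 := h1 _ ⟨G, hG, rfl⟩
  have hi := E.itg (E.top (J + 1) hG)
  have h4 : (fun τ => G (top (J + 1) τ)) =
      cut (fun τ => τ J ≤ (a.1 : ℕ∞)) (fun τ => G (top (J + 1) τ)) +
        cut (fun τ => (a.1 : ℕ∞) < τ J) fun τ => G (top (J + 1) τ) := by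
    funext τ
    simp only [cut, Pi.add_apply, ← not_le]
    split_ifs <;> simp
  rw [h4, E.pair_add (E.itg_cut _ hi) (E.itg_cut _ hi), LinearMap.add_apply] at hlt
  have h5 : pairE (win J a.1 M' G) (ν j) =
      pairE (cut (fun τ => (a.1 : ℕ∞) < τ J) fun τ => G (top (J + 1) τ)) (ν j) := by
    simp only [pairE, Finsupp.linearCombination_apply]
    refine Finsupp.sum_congr fun i hi => ?_
    unfold valE
    split_ifs with hv
    · rw [win, cut, if_pos (hb i hi hv.1 _)]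
    · rfl
  linarith

theorem inE (B : BasicBd) (E : BasicE) {ω : ℝ} (hω : 0 < ω) (J : ℕ) {M : ℕ → ℕ} (hM : Monotone M)
    {G : ℕ → Fam} (hG : ∀ s, InE ω 1 1 (G s)) {ε : ℕ → ℝ} (hε : ∀ s, |ε s| = 1) (N : ℕ) :
    InE ω 1 (1 + 2 / wt ω (J + 1)) (∑ s ∈ range N, ε s • win J (M s) (M (s + 1)) (G s)) := by
  have hw := wt_pos hω (J + 1)
  have huniq : ∀ (x : ℕ∞) (s s' : ℕ), (M s : ℕ∞) < x ∧ x ≤ M (s + 1) →
      (M s' : ℕ∞) < x ∧ x ≤ M (s' + 1) → s = s' := by
    have : ∀ (x : ℕ∞) (s s' : ℕ), x ≤ M (s + 1) → (M s' : ℕ∞) < x → s' ≤ s := by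
      intro x s s' h1 h2
      by_contra h
      have h3 : (M (s + 1) : ℕ∞) ≤ M s' := by exact_mod_cast hM (by omega)
      exact absurd (h2.trans_le (h1.trans h3)) (lt_irrefl _)
    exact fun x s s' h h' => le_antisymm (this x s' s h'.2 h.1) (this x s s' h.2 h'.1)
  have hone : ∀ x : ℕ∞, (∃ s₀, ∀ τ : Tag, τ J ≤ x → x ≤ τ (J + 1) →
      (∑ s ∈ range N, ε s • win J (M s) (M (s + 1)) (G s)) τ =
        (ε s₀ • win J (M s₀) (M (s₀ + 1)) (G s₀)) τ) ∨
      ∀ τ : Tag, τ J ≤ x → x ≤ τ (J + 1) →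
        (∑ s ∈ range N, ε s • win J (M s) (M (s + 1)) (G s)) τ = 0 := by
    intro x
    have hz : ∀ s (τ : Tag), τ J ≤ x → x ≤ τ (J + 1) → ¬ ((M s : ℕ∞) < x ∧ x ≤ M (s + 1)) →
        (ε s • win J (M s) (M (s + 1)) (G s)) τ = 0 := by
      intro s τ h1 h2 h
      rw [Pi.smul_apply, win_zero _ fun h' => h ⟨h'.1.trans_le h1, h2.trans h'.2⟩, smul_zero]
    by_cases h : ∃ s₀ ∈ range N, (M s₀ : ℕ∞) < x ∧ x ≤ M (s₀ + 1)
    · obtain ⟨s₀, hs₀, h⟩ := h
      refine Or.inl ⟨s₀, fun τ h1 h2 => ?_⟩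
      rw [Finset.sum_apply]
      exact sum_eq_single_of_mem s₀ hs₀ fun s _ hne =>
        hz s τ h1 h2 fun h' => hne (huniq x s s₀ h' h)
    · refine Or.inr fun τ h1 h2 => ?_
      rw [Finset.sum_apply]
      exact sum_eq_zero fun s hs => hz s τ h1 h2 fun h' => h ⟨s, hs, h'⟩
  have hcap : ∀ s m τ, Good m τ → Bd m (G s (top (J + 1) τ)) 1 := fun s m τ h =>
    (hG s).cap m _ (E.good_top _ h)
  refine E.of_fin _ (J + 2) (fun τ n l => ?_) (fun m τ hτ v => ?_) (fun m τ i => ?_) fun τ => ?_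
  · have : (∑ s ∈ range N, ε s • win J (M s) (M (s + 1)) (G s)) τ n l =
        fun t => ∑ s ∈ range N, ε s * win J (M s) (M (s + 1)) (G s) τ n l t := by
      funext t; simp [Finset.sum_apply]
    rw [this]
    refine Finset.measurable_sum _ fun s _ => Measurable.const_mul ?_ _
    unfold win cut
    split_ifs
    exacts [(hG s).meas _ _ _, measurable_const, measurable_const]
  · rcases hone (τ J) with ⟨s₀, h⟩ | h <;> rw [h τ le_rfl (hτ.1 (Nat.le_succ J))]
    · simpa [hε, win] using B.smul (ε s₀) (bd_cut B (F := cut (fun τ => (M s₀ : ℕ∞) < τ J)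
        fun τ => G s₀ (top (J + 1) τ)) (fun τ => τ (J + 1) ≤ (M (s₀ + 1) : ℕ∞))
        (bd_cut B _ (hcap s₀ m τ hτ)) v)
    · exact B.zero (fun _ _ _ => rfl) zero_le_one
  · have h0 : 0 ≤ (1 + 2 / wt ω (J + 1)) * wt ω i := by have := wt_pos hω i; positivity
    rcases le_or_gt (J + 2) i with hi | hi
    · refine E.var_const _ h0 fun s s' _ _ => ?_
      simp only [Finset.sum_apply, Pi.smul_apply, win, cut,
        E.top_update_ge τ _ (show J + 1 ≤ i by omega), update_of_ne (show J ≠ i by omega),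
        update_of_ne (show J + 1 ≠ i by omega)]
    have hx : ∀ s, Good m (update τ i s) →
        update τ i s J ≤ (if i = J then τ (J + 1) else τ J) ∧
          (if i = J then τ (J + 1) else τ J) ≤ update τ i s (J + 1) := by
      intro s hs
      have := hs.1 (Nat.le_succ J)
      split_ifs with h
      · subst h
        rw [update_of_ne (Nat.succ_ne_self i)] at this ⊢
        exact ⟨this, le_rfl⟩
      · rw [update_of_ne (Ne.symm h)] at this ⊢
        exact ⟨le_rfl, this⟩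
    rcases hone (if i = J then τ (J + 1) else τ J) with ⟨s₀, h⟩ | h
    · have v0 := (E.top (J + 1) (hG s₀)).var m τ i
      have v1 := E.var_cut (fun τ => (M s₀ : ℕ∞) < τ J) v0 zero_le_one
        (fun _ hs => hcap s₀ m _ hs)
        (Or.inr fun s s' hs h => h.trans_le (update_mono hs J))
      have v2 := E.var_cut (fun τ => τ (J + 1) ≤ (M (s₀ + 1) : ℕ∞)) v1 zero_le_one
        (fun _ hs => bd_cut B _ (hcap s₀ m _ hs))
        (Or.inl fun s s' hs h => (update_mono hs (J + 1)).trans h)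
      refine E.var_mono (E.var_congr (E.var_smul (ε s₀) v2) fun s hs =>
        h _ (hx s hs).1 (hx s hs).2) ?_
      have h2 : 2 ≤ 2 / wt ω (J + 1) * wt ω i := by
        rw [div_mul_eq_mul_div, le_div_iff₀ hw]
        linarith [wt_anti hω (Nat.lt_succ_iff.1 hi)]
      rw [hε, add_mul]
      linarith
    · exact E.var_const _ h0 fun s s' hs hs' => by
        rw [h _ (hx s hs).1 (hx s hs).2, h _ (hx s' hs').1 (hx s' hs').2]
  · have e1 : top (J + 2) τ J = τ J := if_pos (by omega)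
    have e2 : top (J + 2) τ (J + 1) = τ (J + 1) := if_pos (by omega)
    simp only [Finset.sum_apply, Pi.smul_apply, win, cut, E.top_top, e1, e2,
      min_eq_left (Nat.le_succ (J + 1))]

end CASEI

open CASEI in
theorem caseI (B : BasicBd) (E : BasicE) (hS : Sel) {ω : ℝ} (hω : 0 < ω) (hF : FinP ω) :
    CaseI ω := by
  intro ν hW J η hη
  by_contra hcon
  rw [not_eventually] at hcon
  have hfr : ∃ᶠ j in atTop, ∃ G, InE ω 1 1 G ∧ η < pairE (fun τ => G (top (J + 1) τ)) (ν j) := by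
    refine hcon.mono fun j hj => ?_
    simp only [not_forall, not_le] at hj
    obtain ⟨g, ⟨G, hG, rfl⟩, h⟩ := hj
    refine ⟨_, E.top J hG, ?_⟩
    simpa only [E.top_top, min_eq_left (Nat.le_succ J)] using h
  choose j hj M hM G hG hv using step E hη (hF ν hW J) hfr
  let a : ℕ → ℕ × ℕ := fun s => Nat.rec (0, 0) (fun _ x => (M x, j x + 1)) s
  have ha : ∀ s, a (s + 1) = (M (a s), j (a s) + 1) := fun _ => rfl
  have hj' : StrictMono fun s => j (a s) := strictMono_nat_of_lt_succ fun s => hj (a (s + 1))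
  have hM' : Monotone fun s => (a s).1 := monotone_nat_of_le_succ fun s => hM (a s)
  have hw := wt_pos hω (J + 1)
  refine hS _ _ ν (fun s => j (a s)) (η / 2) (1 + 2 / wt ω (J + 1)) hW hj'.injective (half_pos hη)
    (by positivity) fun N => ⟨fun s => pairE (win J (a s).1 (a (s + 1)).1 (G (a s))),
      fun s _ => hv (a s), fun ε hε => ?_⟩
  have hε' : ∀ s, |ε s| = 1 := fun s => by rcases hε s with h | h <;> simp [h]
  obtain ⟨g, hg, h⟩ := E.mem (C' := 1 + 2 / wt ω (J + 1))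
    (inE B E hω J hM' (fun s => hG (a s)) hε' N) hω.le
    (le_add_of_nonneg_right (by positivity)) le_rfl (by positivity)
  refine ⟨g, hg, ?_⟩
  rw [← h, E.pair_sum]
  · simp only [E.pair_smul]
  · intro s _ τ n l h1 h2 x y
    exact (E.itg_cut _ (E.itg_cut _ (E.itg (E.top (J + 1) (hG (a s))))) τ n l h1 h2 x y).smul (ε s)

end Crest.Agent.R91
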