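import Crest.Agent.R91.Defs

set_option autoImplicit false
set_option linter.unusedSectionVars false

open Finset Filter Topology Function

namespace Crest.Agent.R91

namespace C2

theorem wt_pos {ω : ℝ} (hω : 0 < ω) (i : ℕ) : 0 < wt ω i := by
  unfold wt; positivity

theorem wt_anti {ω : ℝ} (hω : 0 < ω) {i j : ℕ} (h : i ≤ j) : wt ω j ≤ wt ω i := by
  unfold wt
  exact div_le_div_of_nonneg_left hω.le (by positivity) (pow_le_pow_right₀ (by norm_num) h)

theorem wt_le {ω : ℝ} (hω : 0 < ω) {i j : ℕ} (h : i ≤ j) : wt ω j ≤ ω / 2 ^ i := by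
  refine (wt_anti hω h).trans ?_
  unfold wt
  exact div_le_div_of_nonneg_left hω.le (by positivity) (pow_le_pow_left₀ (by norm_num) (by norm_num) i)

theorem exists_wt {ω : ℝ} (c η : ℝ) (hη : 0 < η) (q : ℕ) : ∃ r, q < r ∧ wt ω r * c ≤ η := by
  have h1 : Tendsto (fun r : ℕ => wt ω r * c) atTop (𝓝 0) := by
    have h0 : Tendsto (fun r : ℕ => ((1 : ℝ) / 4) ^ r) atTop (𝓝 0) :=
      tendsto_pow_atTop_nhds_zero_of_lt_one (by norm_num) (by norm_num)
    have := (h0.const_mul ω).mul_const c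
    simp only [mul_zero, zero_mul] at this
    refine this.congr (fun r => ?_)
    unfold wt; rw [one_div, inv_pow, div_eq_mul_inv]
  obtain ⟨r, hr⟩ := ((h1.eventually (ge_mem_nhds hη)).and (eventually_gt_atTop q)).exists
  exact ⟨r, hr.2, hr.1⟩

theorem sum_half (c : ℝ) (hc : 0 ≤ c) (J : ℕ) : ∑ s ∈ range J, c / 2 ^ s ≤ 2 * c := by
  have : ∀ J : ℕ, ∑ s ∈ range J, c / 2 ^ s = 2 * c - 2 * c / 2 ^ J := by
    intro J
    induction J with
    | zero => simp
    | succ J ih => rw [sum_range_succ, ih]; field_simp; ring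
  rw [this]
  have : 0 ≤ 2 * c / 2 ^ J := by positivity
  linarith

theorem sum_unique (p : ℕ → Prop) [DecidablePred p] (hp : ∀ s s', p s → p s' → s = s') (c : ℝ)
    (hc : 0 ≤ c) (J : ℕ) : ∑ s ∈ range J, (if p s then c else 0) ≤ c := by
  rw [← sum_filter, sum_const, nsmul_eq_mul]
  have : ((range J).filter p).card ≤ 1 := by
    rw [card_le_one]
    intro a ha b hb
    exact hp a b (mem_filter.1 ha).2 (mem_filter.1 hb).2
  have h2 : (((range J).filter p).card : ℝ) ≤ 1 := by exact_mod_cast this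
  nlinarith

theorem exists_M (ν : IE →₀ ℝ) (M0 : ℕ) :
    ∃ M : ℕ, M0 ≤ M ∧ ∀ i ∈ ν.support, Act i.1 → ∀ t, i.1 t ≤ (M : ℕ∞) := by
  classical
  have : ∀ i : IE, ∃ M : ℕ, Act i.1 → ∀ t, i.1 t ≤ (M : ℕ∞) := by
    intro i
    by_cases h : Act i.1
    · obtain ⟨M, hM⟩ := h.2
      exact ⟨M, fun _ => hM⟩
    · exact ⟨0, fun h' => absurd h' h⟩
  choose f hf using this
  refine ⟨max M0 (ν.support.sup f), le_max_left _ _, fun i hi ha t => (hf i ha t).trans ?_⟩
  exact_mod_cast (Finset.le_sup hi).trans (le_max_right _ _)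

theorem pair_congr {F F' : Fam} {ν : IE →₀ ℝ}
    (h : ∀ i ∈ ν.support, valE F i = valE F' i) : pairE F ν = pairE F' ν := by
  unfold pairE
  rw [Finsupp.linearCombination_apply, Finsupp.linearCombination_apply, Finsupp.sum, Finsupp.sum]
  exact sum_congr rfl fun i hi => by rw [h i hi]

theorem pair_diff {F F' : Fam} {ν : IE →₀ ℝ} {c : ℝ}
    (h : ∀ i, |valE F i - valE F' i| ≤ c * |i.2.2.2|) :
    pairE F ν - pairE F' ν ≤ c * ∑ i ∈ ν.support, |ν i| * |i.2.2.2| := by
  unfold pairE
  rw [Finsupp.linearCombination_apply, Finsupp.linearCombination_apply, Finsupp.sum, Finsupp.sum,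
    ← sum_sub_distrib, mul_sum]
  refine sum_le_sum fun i _ => ?_
  simp only [smul_eq_mul]
  rw [← mul_sub]
  refine (le_abs_self _).trans ?_
  rw [abs_mul]
  have := mul_le_mul_of_nonneg_left (h i) (abs_nonneg (ν i))
  linarith

/-- difference of two truncations -/
noncomputable def DD (G : Fam) (q r : ℕ) : Fam := (fun τ => G (top r τ)) - (fun τ => G (top q τ))

/-- the cut pieces -/
noncomputable def hh (G : Fam) (q r M : ℕ) : Fam := cut (fun τ => τ q ≤ (M : ℕ∞)) (DD G q r)

section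
variable (hB : BasicBd) (hE : BasicE) {ω : ℝ} (hω : 0 < ω) {G : Fam} (hG : InE ω 1 1 G)
include hB hE hω hG

theorem DD_cap {q r : ℕ} (hqr : q < r) {m : ℕ} {τ : Tag} (h : Good m τ) :
    Bd m (DD G q r τ) (2 * wt ω q) := by
  have := hG.tail m (top r τ) q (hE.good_top r h)
  rw [hE.top_top, min_eq_left hqr.le, one_mul] at this
  exact this

theorem hh_cap {q r M : ℕ} (hqr : q < r) {m : ℕ} {τ : Tag} (h : Good m τ) :
    Bd m (hh G q r M τ) (2 * wt ω q) := by
  unfold hh cut
  split_ifs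
  · exact DD_cap hB hE hω hG hqr h
  · intro v
    exact hB.zero (fun _ _ _ => rfl) (by have := wt_pos hω q; positivity)

theorem DD_var (q r m : ℕ) (τ : Tag) (i : ℕ) : Var m τ i (DD G q r) (2 * wt ω i) := by
  have := hE.var_sub ((hE.top r hG).var m τ i) ((hE.top q hG).var m τ i)
  exact hE.var_mono this (by linarith)

theorem hh_var_ne {q r M m : ℕ} {τ : Tag} {i : ℕ} (hi : i ≠ q) :
    Var m τ i (hh G q r M) (2 * wt ω i) := by
  by_cases hc : τ q ≤ (M : ℕ∞)
  · refine hE.var_congr (DD_var hB hE hω hG q r m τ i) fun s _ => ?_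
    unfold hh cut
    rw [if_pos (by simp only [update_of_ne hi.symm]; exact hc)]
  · refine hE.var_const _ (by have := wt_pos hω i; positivity) fun s s' _ _ => ?_
    unfold hh cut
    rw [if_neg (by simp only [update_of_ne hi.symm]; exact hc),
      if_neg (by simp only [update_of_ne hi.symm]; exact hc)]

theorem hh_var_eq {q r M m : ℕ} (hqr : q < r) {τ : Tag} :
    Var m τ q (hh G q r M) (4 * wt ω q) := by
  have := hE.var_cut (S := 2 * wt ω q) (fun τ => τ q ≤ (M : ℕ∞)) (DD_var hB hE hω hG q r m τ q)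
    (by have := wt_pos hω q; positivity) (fun s hs => DD_cap hB hE hω hG hqr hs)
    (Or.inl fun s s' hss h => by
      simp only [update_self] at h ⊢
      exact hss.trans h)
  exact hE.var_mono this (by linarith)

theorem hh_var_ge {q r M m : ℕ} (hqr : q < r) {τ : Tag} {i : ℕ} (hi : r ≤ i) {W : ℝ}
    (hW : 0 ≤ W) : Var m τ i (hh G q r M) W := by
  refine hE.var_const _ hW fun s s' _ _ => ?_
  have hne : q ≠ i := by omega
  unfold hh cut DD
  simp only [update_of_ne hne, Pi.sub_apply, hE.top_update_ge τ _ hi,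
    hE.top_update_ge τ _ (hqr.le.trans hi)]

theorem hh_var_tiny {q r M M' m : ℕ} (hqr : q < r) {τ : Tag} {i : ℕ}
    (h : τ (i + 1) ≤ (M' : ℕ∞)) : Var m τ i (hh G q r M) (2 * (2 * wt ω q) * M') := by
  refine hE.var_tiny _ M' (by have := wt_pos hω q; positivity) fun s hs =>
    ⟨hh_cap hB hE hω hG hqr hs, ?_⟩
  have := hs.1 (Nat.le_succ i)
  rw [update_self, update_of_ne (Nat.succ_ne_self i)] at this
  exact this.trans h

theorem hh_var_dead {q r M m : ℕ} {τ : Tag} {i : ℕ} (hi : i < q)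
    (h : ¬ τ (i + 1) ≤ (M : ℕ∞)) {W : ℝ} (hW : 0 ≤ W) : Var m τ i (hh G q r M) W := by
  have key : ∀ s, Good m (update τ i s) → hh G q r M (update τ i s) = 0 := by
    intro s hs
    unfold hh cut
    rw [if_neg]
    intro hc
    apply h
    have := hs.1 (show i + 1 ≤ q from hi)
    rw [update_of_ne (Nat.succ_ne_self i)] at this
    exact this.trans hc
  exact hE.var_const _ hW fun s s' hs hs' => by rw [key s hs, key s' hs']

theorem hh_meas (q r M : ℕ) (τ : Tag) (n l : ℕ) : Measurable (hh G q r M τ n l) := by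
  unfold hh cut
  split_ifs
  · exact (hG.meas _ n l).sub (hG.meas _ n l)
  · exact measurable_const

theorem hh_itg (q r M : ℕ) : Itg (hh G q r M) := by
  refine hE.itg_cut _ fun τ n l ha hn a b => ?_
  exact (hE.itg (hE.top r hG) τ n l ha hn a b).sub (hE.itg (hE.top q hG) τ n l ha hn a b)

theorem hh_top {q r M R : ℕ} (hqr : q < r) (hR : r ≤ R) (τ : Tag) :
    hh G q r M (top R τ) = hh G q r M τ := by
  unfold hh cut DD
  have h1 : top R τ q = τ q := by unfold top; rw [if_pos (by omega)]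
  simp only [h1, Pi.sub_apply, hE.top_top, min_eq_left hR, min_eq_left (hqr.le.trans hR)]

end

theorem key (hB : BasicBd) (hE : BasicE) {ω : ℝ} (hω : 0 < ω) (q r M : ℕ → ℕ) (G : ℕ → Fam)
    (hG : ∀ s, InE ω 1 1 (G s)) (hqr : ∀ s, q s < r s) (hrq : ∀ s, r s < q (s + 1))
    (hM : Monotone M)
    (hw : ∀ s, 2 * (2 * wt ω (q (s + 1))) * M s ≤ wt ω (r s) / 2 ^ (s + 1))
    (J : ℕ) (ε : ℕ → ℝ) (hε : ∀ s, |ε s| = 1) :
    InE ω (4 * ω) 10 (∑ s ∈ range J, ε s • hh (G s) (q s) (r s) (M s)) := by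
  classical
  have hq : StrictMono q := strictMono_nat_of_lt_succ fun s => (hqr s).trans (hrq s)
  refine hE.of_fin _ (q J) ?_ ?_ ?_ ?_
  · intro τ n l
    have : (∑ s ∈ range J, ε s • hh (G s) (q s) (r s) (M s)) τ n l =
        fun t => ∑ s ∈ range J, ε s * hh (G s) (q s) (r s) (M s) τ n l t := by
      funext t; simp [Finset.sum_apply]
    rw [this]
    exact Finset.measurable_sum _ fun s _ => (hh_meas hB hE hω (hG s) _ _ _ τ n l).const_mul _
  · intro m τ h v
    have h1 := hB.sum (range J) (fun s => ε s • hh (G s) (q s) (r s) (M s) τ)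
      (fun s => |ε s| * (2 * wt ω (q s)))
      (fun s _ => hB.smul (ε s) (hh_cap hB hE hω (hG s) (hqr s) h v))
    have h2 : (∑ s ∈ range J, ε s • hh (G s) (q s) (r s) (M s)) τ =
        ∑ s ∈ range J, ε s • hh (G s) (q s) (r s) (M s) τ := by
      simp [Finset.sum_apply]
    rw [h2]
    refine hB.mono h1 ?_
    calc ∑ s ∈ range J, |ε s| * (2 * wt ω (q s)) ≤ ∑ s ∈ range J, (2 * ω) / 2 ^ s := by
          refine sum_le_sum fun s _ => ?_
          rw [hε s, one_mul, mul_div_assoc]
          have := wt_le hω (hq.id_le s)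
          simp only [id] at this
          linarith
      _ ≤ 2 * (2 * ω) := sum_half _ (by positivity) J
      _ = 4 * ω := by ring
  · intro m τ i
    have hwi := wt_pos hω i
    let p1 : ℕ → Prop := fun s => q s ≤ i ∧ i < r s
    let p2 : ℕ → Prop := fun s => i < q s ∧ ∀ s', s' < s → q s' ≤ i
    let p3 : ℕ → Prop := fun s => τ (i + 1) ≤ (M s : ℕ∞) ∧ ∀ s', s' < s → ¬ τ (i + 1) ≤ (M s' : ℕ∞)
    let W : ℕ → ℝ := fun s => (if p1 s then 4 * wt ω i else 0) + (if p2 s then 2 * wt ω i else 0) +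
      (if p3 s then 2 * wt ω i else 0) + wt ω i / 2 ^ s
    have a1 : ∀ s, 0 ≤ (if p1 s then 4 * wt ω i else 0) := fun s => by split_ifs <;> positivity
    have a2 : ∀ s, 0 ≤ (if p2 s then 2 * wt ω i else 0) := fun s => by split_ifs <;> positivity
    have a3 : ∀ s, 0 ≤ (if p3 s then 2 * wt ω i else 0) := fun s => by split_ifs <;> positivity
    have a4 : ∀ s, 0 ≤ wt ω i / 2 ^ s := fun s => by positivity
    have hW0 : ∀ s, 0 ≤ W s := fun s => by
      have := a1 s; have := a2 s; have := a3 s; have := a4 s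
      simp only [W]; linarith
    have hv : ∀ s, Var m τ i (hh (G s) (q s) (r s) (M s)) (W s) := by
      intro s
      have b1 := a1 s; have b2 := a2 s; have b3 := a3 s; have b4 := a4 s
      by_cases h1 : r s ≤ i
      · exact hh_var_ge hB hE hω (hG s) (hqr s) h1 (hW0 s)
      by_cases h2 : q s ≤ i
      · have hp : p1 s := ⟨h2, by omega⟩
        have hle : 4 * wt ω i ≤ W s := by
          simp only [W, if_pos hp]; linarith
        rcases h2.eq_or_lt with h3 | h3
        · subst h3
          exact hE.var_mono (hh_var_eq hB hE hω (hG s) (hqr s)) hle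
        · exact hE.var_mono (hh_var_ne hB hE hω (hG s) (by omega)) (by linarith)
      have hi : i < q s := by omega
      by_cases h3 : p2 s
      · refine hE.var_mono (hh_var_ne hB hE hω (hG s) (by omega)) ?_
        simp only [W, if_pos h3]; linarith
      by_cases h4 : p3 s
      · refine hE.var_mono (hh_var_ne hB hE hω (hG s) (by omega)) ?_
        simp only [W, if_pos h4]; linarith
      by_cases h5 : τ (i + 1) ≤ (M s : ℕ∞)
      · -- tiny
        have h6 : ∃ s', s' < s ∧ τ (i + 1) ≤ (M s' : ℕ∞) := by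
          by_contra hc
          exact h4 ⟨h5, fun s' hs' h => hc ⟨s', hs', h⟩⟩
        have h7 : ∃ s', s' < s ∧ i < q s' := by
          by_contra hc
          exact h3 ⟨hi, fun s' hs' => by
            by_contra h; exact hc ⟨s', hs', by omega⟩⟩
        obtain ⟨s1, hs1, h8⟩ := h6
        obtain ⟨s2, hs2, h9⟩ := h7
        obtain ⟨t, rfl⟩ : ∃ t, s = t + 1 := ⟨s - 1, by omega⟩
        have h10 : τ (i + 1) ≤ (M t : ℕ∞) :=
          h8.trans (by exact_mod_cast hM (show s1 ≤ t by omega))
        refine hE.var_mono (hh_var_tiny hB hE hω (hG _) (hqr _) h10) ?_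
        have h11 : i ≤ r t := by
          have := hq.monotone (show s2 ≤ t by omega)
          have := hqr t
          omega
        have h12 : wt ω (r t) / 2 ^ (t + 1) ≤ wt ω i / 2 ^ (t + 1) :=
          div_le_div_of_nonneg_right (wt_anti hω h11) (by positivity)
        have := hw t
        simp only [W]; linarith
      · exact hh_var_dead hB hE hω (hG s) hi h5 (hW0 s)
    have h1 := hE.var_sum (range J) (fun s => ε s • hh (G s) (q s) (r s) (M s))
      (fun s => |ε s| * W s) (fun s _ => hE.var_smul (ε s) (hv s))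
    refine hE.var_mono h1 ?_
    simp only [hε, one_mul, W, sum_add_distrib]
    have c1 := sum_unique p1 (fun s s' h h' => by
      by_contra hne
      rcases lt_or_gt_of_ne hne with hlt | hlt
      · have := hq.monotone (show s + 1 ≤ s' from hlt)
        have := hrq s
        have := h.2; have := h'.1; omega
      · have := hq.monotone (show s' + 1 ≤ s from hlt)
        have := hrq s'
        have := h.1; have := h'.2; omega) (4 * wt ω i) (by positivity) J
    have c2 := sum_unique p2 (fun s s' h h' => by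
      by_contra hne
      rcases lt_or_gt_of_ne hne with hlt | hlt
      · have := h'.2 s hlt; have := h.1; omega
      · have := h.2 s' hlt; have := h'.1; omega) (2 * wt ω i) (by positivity) J
    have c3 := sum_unique p3 (fun s s' h h' => by
      by_contra hne
      rcases lt_or_gt_of_ne hne with hlt | hlt
      · exact h'.2 s hlt h.1
      · exact h.2 s' hlt h'.1) (2 * wt ω i) (by positivity) J
    have c4 := sum_half (wt ω i) hwi.le J
    linarith
  · intro τ
    simp only [Finset.sum_apply, Pi.smul_apply]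
    refine sum_congr rfl fun s hs => ?_
    rw [hh_top hB hE hω (hG s) (hqr s)]
    have := hq.monotone (show s + 1 ≤ J from mem_range.1 hs)
    have := hrq s
    omega

end C2

open C2 in
theorem eFree (hB : BasicBd) (hE : BasicE) (hS : Sel) {ω : ℝ} (hω : 0 < ω) (hI : CaseI ω) :
    EFree ω := by
  intro ν hW
  by_contra hN
  unfold Null at hN
  push Not at hN
  obtain ⟨η, hη, hfr⟩ := hN
  have step : ∀ (s q j0 M0 : ℕ), ∃ (j : ℕ) (G : Fam) (r M q' : ℕ), j0 ≤ j ∧ InE ω 1 1 G ∧ q < r ∧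
      M0 ≤ M ∧ r < q' ∧ 2 * (2 * wt ω q') * M ≤ wt ω r / 2 ^ (s + 1) ∧
      η / 2 ≤ pairE (hh G q r M) (ν j) := by
    intro s q j0 M0
    have h1 := hI ν hW q (η / 4) (by positivity)
    obtain ⟨j, ⟨g, ⟨G, hG, rfl⟩, hg⟩, hj1, hj2⟩ :=
      (hfr.and_eventually (h1.and (eventually_ge_atTop j0))).exists
    obtain ⟨r, hr, hr2⟩ := exists_wt (ω := ω) (2 * ∑ i ∈ (ν j).support, |ν j i| * |i.2.2.2|)
      (η / 4) (by positivity) q
    obtain ⟨M, hM0, hM⟩ := exists_M (ν j) M0
    obtain ⟨q', hq', hq2⟩ := exists_wt (ω := ω) (4 * M) (wt ω r / 2 ^ (s + 1))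
      (by have := wt_pos hω r; positivity) r
    refine ⟨j, G, r, M, q', hj2, hG, hr, hM0, hq', by linarith, ?_⟩
    have e1 : pairE (hh G q r M) (ν j) = pairE (DD G q r) (ν j) := by
      refine pair_congr fun i hi => ?_
      unfold valE
      split_ifs with hc
      · unfold hh cut
        rw [if_pos (hM i hi hc.1 q)]
      · rfl
    have e2 : pairE (DD G q r) = pairE (fun τ => G (top r τ)) - pairE (fun τ => G (top q τ)) :=
      hE.pair_sub (hE.itg (hE.top r hG)) (hE.itg (hE.top q hG))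
    have e3 := hj1 _ ⟨G, hG, rfl⟩
    have e4 := pair_diff (ν := ν j) (fun i => hE.val_tail r i hG)
    rw [e1, e2, LinearMap.sub_apply]
    linarith
  choose fj fG fr fM fq h1 h2 h3 h4 h5 h6 h7 using step
  let st : ℕ → ℕ × ℕ × ℕ := fun s => Nat.rec (0, 0, 0)
    (fun s x => (fq s x.1 x.2.1 x.2.2, fj s x.1 x.2.1 x.2.2 + 1, fM s x.1 x.2.1 x.2.2)) s
  let q : ℕ → ℕ := fun s => (st s).1
  let j : ℕ → ℕ := fun s => fj s (st s).1 (st s).2.1 (st s).2.2
  let G : ℕ → Fam := fun s => fG s (st s).1 (st s).2.1 (st s).2.2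
  let r : ℕ → ℕ := fun s => fr s (st s).1 (st s).2.1 (st s).2.2
  let M : ℕ → ℕ := fun s => fM s (st s).1 (st s).2.1 (st s).2.2
  have hj : StrictMono j := strictMono_nat_of_lt_succ fun s =>
    h1 (s + 1) (st (s + 1)).1 (st (s + 1)).2.1 (st (s + 1)).2.2
  have hM : Monotone M := monotone_nat_of_le_succ fun s =>
    h4 (s + 1) (st (s + 1)).1 (st (s + 1)).2.1 (st (s + 1)).2.2
  have hG : ∀ s, InE ω 1 1 (G s) := fun s => h2 _ _ _ _
  refine hS _ (EE ω) ν j (η / 2) (4 * ω + 10) hW hj.injective (by positivity) (by positivity)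
    fun J => ⟨fun s => pairE (hh (G s) (q s) (r s) (M s)), fun s _ => h7 _ _ _ _, fun ε hε => ?_⟩
  have hε' : ∀ s, |ε s| = 1 := fun s => by rcases hε s with h | h <;> simp [h]
  have hk := key hB hE hω q r M G hG (fun s => h3 _ _ _ _) (fun s => h5 _ _ _ _) hM
    (fun s => h6 _ _ _ _) J ε hε'
  obtain ⟨g, hg, hg2⟩ := hE.mem hk hω.le (C' := 4 * ω + 10) (by linarith) (by linarith)
    (by positivity)
  refine ⟨g, hg, ?_⟩
  rw [← hg2, hE.pair_sum]
  · exact sum_congr rfl fun s _ => (hE.pair_smul _ _).symm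
  · intro s _ τ n l ha hn a b
    exact (hh_itg hB hE hω (hG s) _ _ _ τ n l ha hn a b).const_mul (ε s)

end Crest.Agent.R91
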