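import Crest.Agent.R91.Defs

set_option autoImplicit false

open Finset

namespace Crest.Agent.R91

noncomputable section

namespace Cells

/-- clamp to `[0,1]` -/
def cl (t : ℝ) : ℝ := max 0 (min 1 t)
/-- tent -/
def tent (y : ℝ) : ℝ := max 0 (1 - |y|)
/-- plateau -/
def plat (y : ℝ) : ℝ := max 0 (min 1 (2 - |y|))

theorem tent_eq (y : ℝ) : tent y = cl (y + 1) - cl y := by
  unfold tent cl
  rcases abs_cases y with h | h <;> simp only [max_def, min_def] <;> split_ifs <;> linarith

theorem tent_mem (y : ℝ) : 0 ≤ tent y ∧ tent y ≤ 1 :=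
  ⟨le_max_left _ _, max_le zero_le_one (by linarith [abs_nonneg y])⟩

theorem plat_mem (y : ℝ) : 0 ≤ plat y ∧ plat y ≤ 1 :=
  ⟨le_max_left _ _, max_le zero_le_one (min_le_left _ _)⟩

theorem tent_lip (y y' : ℝ) : |tent y - tent y'| ≤ |y - y'| := by
  have h := abs_abs_sub_abs_le_abs_sub y y'
  rw [abs_le] at h ⊢
  unfold tent
  simp only [max_def]
  split_ifs <;> constructor <;> linarith [abs_nonneg (y - y')]

theorem plat_lip (y y' : ℝ) : |plat y - plat y'| ≤ |y - y'| := by
  have h := abs_abs_sub_abs_le_abs_sub y y'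
  rw [abs_le] at h ⊢
  unfold plat
  simp only [max_def, min_def]
  split_ifs <;> constructor <;> linarith [abs_nonneg (y - y')]

theorem sum_tent (G : ℕ) (y : ℝ) (hy : |y| ≤ G) :
    ∑ j ∈ range (2 * G + 1), tent (y - ((j : ℝ) - G)) = 1 := by
  have h := Finset.sum_range_sub' (fun j : ℕ => cl (y - ((j : ℝ) - G) + 1)) (2 * G + 1)
  rw [abs_le] at hy
  have e : ∀ j : ℕ, tent (y - ((j : ℝ) - G)) =
      cl (y - ((j : ℝ) - G) + 1) - cl (y - (((j + 1 : ℕ) : ℝ) - G) + 1) := by
    intro j; rw [tent_eq]; congr 2; push_cast; ring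
  simp only [e, h]
  unfold cl
  push_cast
  rw [min_eq_left (by linarith), max_eq_right zero_le_one,
    max_eq_left (min_le_of_right_le (by linarith)), sub_zero]

theorem card_plat (N : ℕ) (y c : ℝ) :
    ((range N).filter fun j : ℕ => plat (y - ((j : ℝ) - c)) ≠ 0).card ≤ 4 := by
  have : (Icc (⌊y + c⌋ - 1) (⌊y + c⌋ + 2)).card = 4 := by simp; omega
  rw [← this]
  refine card_le_card_of_injOn (fun j : ℕ => (j : ℤ)) (fun j hj => ?_)
    (fun a _ b _ h => Nat.cast_injective h)
  have h1 : |y - ((j : ℝ) - c)| < 2 := by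
    by_contra h
    refine (mem_filter.1 (mem_coe.1 hj)).2 (max_eq_left (min_le_of_right_le (by linarith)))
  rw [abs_lt] at h1
  have h2 := Int.floor_le (y + c)
  have h3 := Int.lt_floor_add_one (y + c)
  simp only [coe_Icc, Set.mem_Icc]
  constructor
  · have : ((⌊y + c⌋ - 2 : ℤ) : ℝ) < (j : ℤ) := by push_cast; linarith
    have := Int.cast_lt.1 this
    omega
  · have : (((j : ℤ) : ℤ) : ℝ) < (⌊y + c⌋ + 3 : ℤ) := by push_cast; linarith
    have := Int.cast_lt.1 this
    omega

theorem prod_lip {ι : Type} (s : Finset ι) (a b : ι → ℝ) (δ : ℝ) (ha : ∀ i, 0 ≤ a i ∧ a i ≤ 1)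
    (hb : ∀ i, 0 ≤ b i ∧ b i ≤ 1) (h : ∀ i, |a i - b i| ≤ δ) :
    |∏ i ∈ s, a i - ∏ i ∈ s, b i| ≤ s.card * δ := by
  classical
  induction s using Finset.induction_on with
  | empty => simp
  | insert i s hi ih =>
    rw [prod_insert hi, prod_insert hi, card_insert_of_notMem hi]
    have h1 : 0 ≤ ∏ i ∈ s, b i := prod_nonneg fun i _ => (hb i).1
    have h2 : ∏ i ∈ s, b i ≤ 1 := prod_le_one (fun i _ => (hb i).1) fun i _ => (hb i).2
    have e : a i * ∏ i ∈ s, a i - b i * ∏ i ∈ s, b i =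
        a i * (∏ i ∈ s, a i - ∏ i ∈ s, b i) + (a i - b i) * ∏ i ∈ s, b i := by ring
    rw [e]
    refine (abs_add_le _ _).trans ?_
    rw [abs_mul, abs_mul, abs_of_nonneg (ha i).1, abs_of_nonneg h1]
    push_cast
    have h3 := mul_le_of_le_one_left (abs_nonneg (∏ i ∈ s, a i - ∏ i ∈ s, b i)) (ha i).2
    have h4 := mul_le_of_le_one_right (abs_nonneg (a i - b i)) h2
    have := h i
    linarith

/-- coordinates -/
abbrev Co (k : ℕ) := Fin k × Fin k × Bool

/-- restriction to the coordinates -/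
def co {k : ℕ} (z : Cell) (i : Co k) : ℝ := z i.1 i.2.1 i.2.2

/-- grid cells -/
def cell (k G : ℕ) (ρ : ℝ) (f : Co k → ℕ) : Cell := fun n l b =>
  if h : n < k ∧ l < k then ((f (⟨n, h.1⟩, ⟨l, h.2⟩, b) : ℝ) - G) * ρ else 0

theorem co_cell {k : ℕ} (G : ℕ) (ρ : ℝ) (f : Co k → ℕ) (i : Co k) :
    co (cell k G ρ f) i = ((f i : ℝ) - G) * ρ := by
  simp [co, cell]

end Cells

open Cells Classical in
theorem cellsEx : CellsEx := by
  intro k ρ hρ
  obtain ⟨G, hG⟩ := exists_nat_ge (4 / ρ)
  have hinj : Function.Injective (cell k G ρ) := fun f f' h => funext fun i => by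
    have := congrArg (fun z => co z i) h
    simp only [co_cell, mul_left_inj' hρ.ne', sub_left_inj] at this
    exact_mod_cast this
  have hq : ∀ (z : Cell) (f : Co k → ℕ) (i : Co k),
      (co z i - co (cell k G ρ f) i) / ρ = co z i / ρ - ((f i : ℝ) - G) := by
    intro z f i; rw [co_cell]; field_simp
  have hcard : Fintype.card (Co k) = 2 * k ^ 2 := by simp; ring
  refine ⟨(Fintype.piFinset fun _ : Co k => range (2 * G + 1)).image (cell k G ρ),
    fun q z => ∏ i : Co k, tent ((co z i - co q i) / ρ),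
    fun q z => ∏ i : Co k, plat ((co z i - co q i) / ρ),
    fun q z => prod_nonneg fun i _ => (tent_mem _).1, fun z hz => ?_, fun q z h => ?_,
    fun q z => ⟨prod_nonneg fun i _ => (plat_mem _).1,
      prod_le_one (fun i _ => (plat_mem _).1) fun i _ => (plat_mem _).2⟩, fun z => ?_,
    fun q z z' δ h => ?_⟩
  · rw [sum_image fun f _ f' _ h => hinj h]
    simp only [hq]
    rw [← Finset.prod_univ_sum (fun _ : Co k => range (2 * G + 1))
      (fun i j => tent (co z i / ρ - ((j : ℝ) - G)))]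
    refine prod_eq_one fun i _ => sum_tent G _ ?_
    rw [abs_div, abs_of_pos hρ]
    exact (div_le_div_of_nonneg_right (hz _ _ _) hρ.le).trans hG
  · have h1 : ∀ i : Co k, |(co z i - co q i) / ρ| < 1 := fun i => by
      by_contra hc
      exact (prod_ne_zero_iff.1 h i (mem_univ _)) (max_eq_left (by linarith))
    refine ⟨prod_eq_one fun i _ => ?_, fun n hn l hl b => ?_⟩
    · have := h1 i
      unfold plat
      rw [min_eq_left (by linarith), max_eq_right zero_le_one]
    · have := h1 (⟨n, hn⟩, ⟨l, hl⟩, b)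
      rw [abs_div, abs_of_pos hρ, div_lt_one hρ] at this
      exact this.le
  · have h1 : ((Fintype.piFinset fun _ : Co k => range (2 * G + 1)).image (cell k G ρ)).filter
        (fun q => ∏ i : Co k, plat ((co z i - co q i) / ρ) ≠ 0) ⊆
        (Fintype.piFinset fun i : Co k => (range (2 * G + 1)).filter
          fun j : ℕ => plat (co z i / ρ - ((j : ℝ) - G)) ≠ 0).image (cell k G ρ) := by
      intro q hq'
      obtain ⟨h2, h3⟩ := mem_filter.1 hq'
      obtain ⟨f, hf, rfl⟩ := mem_image.1 h2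
      refine mem_image.2 ⟨f, Fintype.mem_piFinset.2 fun i => mem_filter.2
        ⟨Fintype.mem_piFinset.1 hf i, ?_⟩, rfl⟩
      rw [← hq]
      exact prod_ne_zero_iff.1 h3 i (mem_univ _)
    have h2 := (card_le_card h1).trans card_image_le
    rw [Fintype.card_piFinset] at h2
    have h3 := h2.trans (prod_le_pow_card _ _ 4 fun i _ => card_plat _ _ _)
    rw [card_univ, hcard] at h3
    exact_mod_cast h3
  · have h1 : ∀ i : Co k, |(co z i - co q i) / ρ - (co z' i - co q i) / ρ| ≤ δ / ρ := fun i => by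
      rw [← sub_div, abs_div, abs_of_pos hρ, sub_sub_sub_cancel_right]
      exact div_le_div_of_nonneg_right (h _ _ _) hρ.le
    have e : (2 * k ^ 2 / ρ * δ : ℝ) = (univ : Finset (Co k)).card * (δ / ρ) := by
      rw [card_univ, hcard]; push_cast; ring
    rw [e]
    exact ⟨prod_lip _ _ _ _ (fun _ => tent_mem _) (fun _ => tent_mem _)
      fun i => (tent_lip _ _).trans (h1 i), prod_lip _ _ _ _ (fun _ => plat_mem _)
      (fun _ => plat_mem _) fun i => (plat_lip _ _).trans (h1 i)⟩

end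

end Crest.Agent.R91
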