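import Crest.Agent.R91.Defs

/-! Row 91, task D: cotype 2 of `ℓ₂(L₁)` by Riesz products. -/

set_option autoImplicit false
set_option linter.unusedSectionVars false

open Finset Filter Topology Function

namespace Crest.Agent.R91

namespace COT

variable {ι : Type} [Fintype ι] [DecidableEq ι]

/-- The Riesz product. -/
noncomputable def riesz (ε b : ι → ℝ) : ℝ :=
  Real.sqrt (∑ s, b s ^ 2) *
    (∏ s, (1 + Complex.I * (ε s * (b s / Real.sqrt (∑ s, b s ^ 2)) : ℝ) : ℂ)).im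

theorem riesz_sq {ε : ι → ℝ} (hε : ∀ s, ε s = 1 ∨ ε s = -1) (b : ι → ℝ) :
    riesz ε b ^ 2 ≤ 4 * ∑ s, b s ^ 2 := by
  have hS : 0 ≤ ∑ s, b s ^ 2 := sum_nonneg fun _ _ => sq_nonneg _
  unfold riesz
  set α := Real.sqrt (∑ s, b s ^ 2) with hα
  have hα2 : α ^ 2 = ∑ s, b s ^ 2 := Real.sq_sqrt hS
  set z : ℂ := ∏ s, (1 + Complex.I * (ε s * (b s / α) : ℝ) : ℂ) with hz
  have h1 : z.im ^ 2 ≤ Complex.normSq z := by
    rw [Complex.normSq_apply]; nlinarith [mul_self_nonneg z.re]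
  have h2 : Complex.normSq z = ∏ s, (1 + (b s / α) ^ 2) := by
    rw [hz, map_prod]
    refine prod_congr rfl fun s _ => ?_
    rw [Complex.normSq_apply]
    rcases hε s with h | h <;> simp [h, -Complex.ofReal_div, sq]
  have h3 : ∏ s, (1 + (b s / α) ^ 2) ≤ Real.exp (∑ s, (b s / α) ^ 2) := by
    rw [Real.exp_sum]
    exact prod_le_prod (fun _ _ => by positivity) fun s _ => by
      linarith [Real.add_one_le_exp ((b s / α) ^ 2)]
  have h4 : ∑ s, (b s / α) ^ 2 ≤ 1 := by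
    simp only [div_pow]
    rw [← sum_div, hα2]
    exact div_self_le_one _
  have h5 := Real.exp_le_exp.2 h4
  have h6 := Real.exp_one_lt_d9
  rw [mul_pow, hα2, mul_comm]
  exact mul_le_mul_of_nonneg_right (by linarith) hS

/-- The sign patterns. -/
noncomputable def signs (ι : Type) [Fintype ι] [DecidableEq ι] : Finset (ι → ℝ) :=
  Fintype.piFinset fun _ => {1, -1}

theorem mem_signs {ε : ι → ℝ} (h : ε ∈ signs ι) (s : ι) : ε s = 1 ∨ ε s = -1 := by
  simpa using Fintype.mem_piFinset.1 h s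

theorem card_signs : (signs ι).card = 2 ^ Fintype.card ι := by
  rw [signs, Fintype.card_piFinset, prod_const, card_pair (by norm_num), card_univ]

theorem riesz_avg (b : ι → ℝ) (s₀ : ι) :
    ∑ ε ∈ signs ι, ε s₀ * riesz ε b = 2 ^ Fintype.card ι * b s₀ := by
  unfold riesz
  set α := Real.sqrt (∑ s, b s ^ 2) with hα
  have h1 : ∑ ε ∈ signs ι, (ε s₀ : ℂ) * ∏ s, (1 + Complex.I * (ε s * (b s / α) : ℝ) : ℂ) =
      2 ^ Fintype.card ι * (Complex.I * (b s₀ / α : ℝ)) := by
    have h2 := prod_univ_sum (fun _ : ι => ({1, -1} : Finset ℝ))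
      (fun s (e : ℝ) => (if s = s₀ then (e : ℂ) else 1) * (1 + Complex.I * (e * (b s / α) : ℝ)))
    simp only [prod_mul_distrib, prod_ite_eq', mem_univ, if_true] at h2
    rw [signs, ← h2]
    have h3 : ∀ s : ι, ∑ e ∈ ({1, -1} : Finset ℝ), (if s = s₀ then (e : ℂ) else 1) *
        (1 + Complex.I * (e * (b s / α) : ℝ)) =
        2 * (if s = s₀ then Complex.I * (b s / α : ℝ) else 1) := by
      intro s
      rw [sum_pair (by norm_num)]
      split_ifs <;> push_cast <;> ring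
    simp only [h3, prod_mul_distrib, prod_const, card_univ, prod_ite_eq', mem_univ, if_true]
  have h4 := congrArg Complex.im h1
  have h5 : (2 : ℂ) ^ Fintype.card ι = ((2 ^ Fintype.card ι : ℝ) : ℂ) := by push_cast; rfl
  rw [Complex.im_sum, h5, Complex.im_ofReal_mul] at h4
  simp only [Complex.im_ofReal_mul, Complex.I_mul_im, Complex.ofReal_re] at h4
  have h6 : α * (b s₀ / α) = b s₀ := by
    rcases eq_or_ne α 0 with h | h
    · have hS : ∑ s, b s ^ 2 ≤ 0 := Real.sqrt_eq_zero'.1 h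
      have := single_le_sum (f := fun s => b s ^ 2) (fun _ _ => sq_nonneg _) (mem_univ s₀)
      have : b s₀ = 0 := pow_eq_zero_iff two_ne_zero |>.1 (le_antisymm (by linarith) (sq_nonneg _))
      simp [this]
    · field_simp
  calc _ = α * ∑ ε ∈ signs ι, ε s₀ *
        (∏ s, (1 + Complex.I * (ε s * (b s / α) : ℝ) : ℂ)).im := by
        rw [mul_sum]; exact sum_congr rfl fun _ _ => by ring
    _ = _ := by rw [h4, mul_left_comm, h6]

theorem riesz_meas (ε : ι → ℝ) {b : ι → ℝ → ℝ} (hb : ∀ s, Measurable (b s)) :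
    Measurable fun t => riesz ε fun s => b s t := by
  unfold riesz
  fun_prop

theorem wuc_fin {V : Type} [AddCommGroup V] [Module ℝ V] {K : Set (V →ₗ[ℝ] ℝ)} {ν : ℕ → V} {C : ℝ}
    (h : ∀ (s : Finset ℕ) (ε : ℕ → ℝ), (∀ i, |ε i| ≤ 1) → ∀ g ∈ K, g (∑ i ∈ s, ε i • ν i) ≤ C)
    {j : ι → ℕ} (hj : Injective j) {ε : ι → ℝ} (hε : ∀ s, |ε s| ≤ 1) {g : V →ₗ[ℝ] ℝ} (hg : g ∈ K) :
    g (∑ s, ε s • ν (j s)) ≤ C := by
  have := h (univ.image j) (extend j ε 0) (fun i => by
    by_cases hi : ∃ s, j s = i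
    · obtain ⟨s, rfl⟩ := hi
      rw [hj.extend_apply]; exact hε s
    · rw [extend_apply' _ _ _ hi]; simp) g hg
  rw [sum_image fun a _ b _ h => hj h] at this
  simpa only [hj.extend_apply] using this

theorem itg {φ : ℕ → ℝ → ℝ} (hm : ∀ l, Measurable (φ l))
    (hb : ∀ (v : ℕ → ℝ) (L : ℕ), ∑ l ∈ range L, φ l (v l) ^ 2 ≤ 1) (l : ℕ) (a b : ℝ) :
    IntervalIntegrable (φ l) MeasureTheory.volume a b := by
  refine (intervalIntegrable_const (c := (1 : ℝ))).mono_fun (hm l).aestronglyMeasurable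
    (Eventually.of_forall fun t => ?_)
  have h1 := single_le_sum (f := fun l => φ l t ^ 2) (fun _ _ => sq_nonneg _)
    (self_mem_range_succ l)
  have h2 := hb (fun _ => t) (l + 1)
  simpa using (sq_le_one_iff_abs_le_one _).1 (h1.trans h2)

end COT

open COT in
theorem cot : Cot := by
  rintro ν ⟨C, hC⟩ η hη
  by_contra hcon
  rw [not_eventually] at hcon
  obtain ⟨j, hj, hjs⟩ := extraction_of_frequently_atTop hcon
  simp only [not_forall, not_le] at hjs
  choose g hg hlt using hjs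
  choose h hm hb hgh using hg
  obtain ⟨N, hN⟩ := exists_nat_gt (max 0 (2 * C / η))
  have hN0 : (0 : ℝ) < N := (le_max_left _ _).trans_lt hN
  have hN1 : 2 * C < N * η := (div_lt_iff₀ hη).1 ((le_max_right _ _).trans_lt hN)
  set f : (Fin (N ^ 2) → ℝ) → ℕ → ℝ → ℝ := fun ε l t =>
    riesz ε fun s => 1 / (2 * N) * h s l t with hf
  have hfm : ∀ ε l, Measurable (f ε l) := fun ε l =>
    riesz_meas ε fun s => (hm s l).const_mul _
  have hfb : ∀ ε ∈ signs (Fin (N ^ 2)), ∀ (v : ℕ → ℝ) (L : ℕ),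
      ∑ l ∈ range L, f ε l (v l) ^ 2 ≤ 1 := by
    intro ε hε v L
    refine (sum_le_sum fun l _ => riesz_sq (mem_signs hε) _).trans ?_
    simp only [mul_pow]
    rw [← mul_sum, sum_comm]
    simp only [← mul_sum]
    have : ∑ s : Fin (N ^ 2), ∑ l ∈ range L, h s l (v l) ^ 2 ≤ N ^ 2 := by
      refine (sum_le_sum fun (s : Fin (N ^ 2)) _ => hb s v L).trans ?_
      simp
    calc _ ≤ 4 * ((1 / (2 * (N : ℝ))) ^ 2 * N ^ 2) := by gcongr
      _ = 1 := by field_simp; norm_num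
  have h1 : ∀ ε ∈ signs (Fin (N ^ 2)),
      pairC (f ε) (∑ s : Fin (N ^ 2), ε s • ν (j s)) ≤ C := fun ε hε =>
    wuc_fin hC (j := fun s : Fin (N ^ 2) => j s) (hj.injective.comp Fin.val_injective)
      (fun s => by rcases mem_signs hε s with h | h <;> simp [h]) ⟨f ε, hfm ε, hfb ε hε, rfl⟩
  have h2 : ∀ s : Fin (N ^ 2), ∑ ε ∈ signs (Fin (N ^ 2)), ε s • pairC (f ε) =
      (2 ^ (N ^ 2) * (1 / (2 * N)) : ℝ) • pairC (h s) := by
    intro s
    refine Finsupp.lhom_ext' fun i => LinearMap.ext_ring ?_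
    simp only [pairC, LinearMap.comp_apply, Finsupp.lsingle_apply, LinearMap.sum_apply,
      LinearMap.smul_apply, Finsupp.linearCombination_single, smul_eq_mul, one_mul]
    simp only [← intervalIntegral.integral_const_mul]
    rw [← intervalIntegral.integral_finsetSum fun ε hε =>
      (itg (hfm ε) (hfb ε hε) _ _ _).const_mul _]
    congr 1
    ext t
    rw [hf]
    simp only [riesz_avg, Fintype.card_fin]
    ring
  have h3 := sum_le_sum h1
  simp only [map_sum, map_smul] at h3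
  rw [sum_comm, sum_const, card_signs, Fintype.card_fin] at h3
  have h4 : ∀ s : Fin (N ^ 2), (2 ^ (N ^ 2) * (1 / (2 * N)) : ℝ) * η ≤
      ∑ ε ∈ signs (Fin (N ^ 2)), ε s • pairC (f ε) (ν (j s)) := by
    intro s
    have := congrArg (fun L : (ℕ × ℝ →₀ ℝ) →ₗ[ℝ] ℝ => L (ν (j s))) (h2 s)
    simp only [LinearMap.sum_apply, LinearMap.smul_apply] at this
    rw [this, smul_eq_mul, ← hgh s]
    exact mul_le_mul_of_nonneg_left (hlt s).le (by positivity)
  have h5 := (sum_le_sum fun s _ => h4 s).trans h3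
  simp only [sum_const, card_univ, Fintype.card_fin, nsmul_eq_mul] at h5
  push_cast at h5
  have h6 : (N : ℝ) ^ 2 * (2 ^ (N ^ 2) * (1 / (2 * N)) * η) = 2 ^ (N ^ 2) * (N * η / 2) := by
    field_simp
  rw [h6] at h5
  have := le_of_mul_le_mul_left h5 (by positivity)
  linarith

end Crest.Agent.R91
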