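import Crest.Agent.R91.Defs

/-! Row 91, task O: `ErrTh`, `ErrPi`, `JSize`, `JBlk`. -/

set_option autoImplicit false

open Finset Filter Topology Function

namespace Crest.Agent.R91

noncomputable section

open Classical

namespace Err1

theorem coord_le (a : H) (l : ℕ) : |a l| ≤ ‖a‖ := by
  have := lp.norm_apply_le_norm (by norm_num : (2 : ENNReal) ≠ 0) a l
  simpa using this

theorem sum_sq_le (a : H) (L : ℕ) : ∑ l ∈ range L, (a l) ^ 2 ≤ ‖a‖ ^ 2 := by
  have h := lp.sum_rpow_le_norm_rpow (p := 2) (by norm_num) a (range L)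
  simpa using h

/-- the content bound at a single good active tag -/
theorem tag_bound (hB : BasicBd) {ω S C : ℝ} {F : Fam} (hF : InE ω S C F) {m0 N : ℕ} {τ : Tag}
    (hg : Good m0 τ) (ha : Act τ) (hm : m0 ≤ N) (c : ℕ → ℝ) (hc : ∀ n, m0 ≤ n → c n = 0)
    (a : ℕ → H) {D : ℝ} (hD : 0 ≤ D) (hcD : ∀ n, |c n| * ‖a n‖ ≤ D) :
    ∑ n ∈ range N, ∑ l ∈ range N, c n * valE F (τ, n, l, a n l) ≤ S * D := by
  have h1 : ∑ n ∈ range N, ∑ l ∈ range N, c n * valE F (τ, n, l, a n l) =
      ∑ n ∈ range m0, ∑ l ∈ range N, c n * ∫ s in (0 : ℝ)..(a n l), F τ n l s := by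
    symm
    rw [← Finset.sum_subset (range_subset_range.2 hm)]
    · refine Finset.sum_congr rfl fun n hn => Finset.sum_congr rfl fun l _ => ?_
      have hlt : (n : ℕ∞) < τ 0 :=
        lt_of_lt_of_le (by exact_mod_cast (mem_range.1 hn)) hg.2
      simp [valE, ha, hlt]
    · intro n _ hn
      have : c n = 0 := hc n (by simpa using hn)
      simp [this]
  rw [h1]
  have := hB.content (m := m0) (φ := F τ) (r := S) (fun _ _ => 0) (fun n l => a n l)
    (fun n _ => c n) N D (hF.meas τ) (hF.cap m0 τ hg) hD ?_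
  · simpa using this
  · intro n _
    have h2 : ∑ l ∈ range N, (c n * (a n l - 0)) ^ 2 = c n ^ 2 * ∑ l ∈ range N, (a n l) ^ 2 := by
      rw [Finset.mul_sum]
      refine Finset.sum_congr rfl fun l _ => by ring
    rw [h2]
    have h3 := sum_sq_le (a n) N
    have h4 : c n ^ 2 * ‖a n‖ ^ 2 ≤ D ^ 2 := by
      have h5 : (|c n| * ‖a n‖) ^ 2 ≤ D ^ 2 :=
        pow_le_pow_left₀ (by positivity) (hcD n) 2
      rw [mul_pow, sq_abs] at h5
      exact h5
    calc c n ^ 2 * ∑ l ∈ range N, (a n l) ^ 2 ≤ c n ^ 2 * ‖a n‖ ^ 2 :=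
          mul_le_mul_of_nonneg_left h3 (sq_nonneg _)
      _ ≤ D ^ 2 := h4

variable {ε : ℝ}

/-- the averaged content bound; the law comes from `z`, `w` is a nearby configuration -/
theorem law_bound (hB : BasicBd) (hM : MuB) (hL : LawB) (P : Par ε) {k N : ℕ} {z : Cfg}
    {σ' : ℕ → ℝ} {δ : ℝ} (hz : Tendsto z.σ atTop (𝓝 0)) (hw : Tendsto σ' atTop (𝓝 0))
    (hnear : ∀ n, |z.σ n - σ' n| ≤ δ) (hδ : δ ≤ P.T' k / (64 * 2 ^ N))
    (hD : Dm z.σ N ≤ P.T' k / 16) {S C : ℝ} {F : Fam} (hF : InE (P.ω k) S C F) (c : ℕ → ℝ)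
    (hc : ∀ n, z.σ n ≤ P.T' k → σ' n ≤ P.T' k → c n = 0)
    (a : ℕ → H) {D : ℝ} (hD0 : 0 ≤ D) (hcD : ∀ n, |c n| * ‖a n‖ ≤ D) :
    Finsupp.linearCombination ℝ
      (fun τ : Tag => ∑ n ∈ range N, ∑ l ∈ range N, c n * valE F (τ, n, l, a n l))
      (muP P z k N) ≤ S * D := by
  have hT := P.T'_pos k
  obtain ⟨lo, hi, m0, h1, h2, h3, h4⟩ := hL.box N hT hz hw hnear hδ hD
  have hlaw : IsLaw (law (P.T' k) z.σ) N N := (hL.isLaw N N hT hz (by linarith)).1
  refine hM.le _ _ _ hlaw fun τ hτ => ?_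
  have hbox := hM.supp (lo := lo) (hi := hi) _ τ (fun i hi' m hm => h1 i hi' m (Or.inl hm)) hτ
  obtain ⟨hg, ha⟩ := h4 τ hbox
  exact tag_bound hB hF hg ha h2 c (fun n hn => hc n (h3 n hn).1 (h3 n hn).2) a hD0 hcD

theorem lc_mul (r : ℝ) (G : Tag → ℝ) (μ : Tag →₀ ℝ) :
    r * Finsupp.linearCombination ℝ G μ = Finsupp.linearCombination ℝ (fun τ => r * G τ) μ := by
  simp only [Finsupp.linearCombination_apply, Finsupp.sum, smul_eq_mul, Finset.mul_sum]
  exact Finset.sum_congr rfl fun τ _ => by ring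

theorem lc_sub (G G' : Tag → ℝ) (μ : Tag →₀ ℝ) :
    Finsupp.linearCombination ℝ G μ - Finsupp.linearCombination ℝ G' μ =
      Finsupp.linearCombination ℝ (fun τ => G τ - G' τ) μ := by
  simp only [Finsupp.linearCombination_apply, Finsupp.sum, smul_eq_mul, ← Finset.sum_sub_distrib]
  exact Finset.sum_congr rfl fun τ _ => by ring

theorem pos_le (P : Par ε) {x : Cfg} (hx : Dom P.Λ x) (n l : ℕ) (b : Bool) :
    |pos x n l b| ≤ 4 * P.Λ := by
  have h1 : |x.a n l| ≤ 4 * P.Λ :=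
    (coord_le _ l).trans ((hx.1.1 n).1.trans (by linarith [hx.2 n]))
  have h2 : |x.a' n l| ≤ 4 * P.Λ :=
    (coord_le _ l).trans ((hx.1.1 n).2.trans (by linarith [hx.2 n]))
  unfold pos
  split_ifs
  · rcases max_cases (x.a n l) (x.a' n l) with h | h <;> rw [h.1] <;> assumption
  · rcases min_cases (x.a n l) (x.a' n l) with h | h <;> rw [h.1] <;> assumption

theorem pos_lip {x y : Cfg} {δ : ℝ} (h : Near x y δ) (n l : ℕ) (b : Bool) :
    |pos x n l b - pos y n l b| ≤ δ := by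
  have h1 : |x.a n l - y.a n l| ≤ δ := by
    have := coord_le (x.a n - y.a n) l
    simp only [lp.coeFn_sub, Pi.sub_apply] at this
    exact this.trans (h n).1
  have h2 : |x.a' n l - y.a' n l| ≤ δ := by
    have := coord_le (x.a' n - y.a' n) l
    simp only [lp.coeFn_sub, Pi.sub_apply] at this
    exact this.trans (h n).2.1
  unfold pos
  split_ifs
  · exact (abs_max_sub_max_le_max _ _ _ _).trans (max_le h1 h2)
  · exact (abs_min_sub_min_le_max _ _ _ _).trans (max_le h1 h2)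

theorem sigma_nonneg {x : Cfg} (hx : Valid x) (n : ℕ) : 0 ≤ x.σ n := by
  have := (hx.1 n).1
  have := norm_nonneg (x.a n)
  linarith

theorem theta_zero (P : Par ε) (k : ℕ) {s : ℝ} (hs : s ≤ P.T' k) : P.θ k s = 0 := by
  by_contra h
  have := (P.θ_supp k s h).1
  linarith

theorem theta_norm (P : Par ε) (k : ℕ) {x : Cfg} (hx : Valid x) (n : ℕ) :
    P.θ k (x.σ n) * ‖x.a n‖ ≤ 4 * P.T k := by
  by_cases h : P.θ k (x.σ n) = 0
  · rw [h, zero_mul]
    have := P.T_pos k
    linarith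
  · have h1 := (P.θ_supp k _ h).2
    have h2 := (hx.1 n).1
    have h3 := P.θ_le k (x.σ n)
    have h4 := norm_nonneg (x.a n)
    nlinarith

/-- convex combination over the cells -/
theorem conv (P : Par ε) {x : Cfg} (hx : Dom P.Λ x) (k : ℕ) (f : Cell → ℝ) (r : ℝ)
    (hf : ∀ q ∈ P.Q k, f q ≤ r) : ∑ q ∈ P.Q k, P.π k q (pos x) * f q ≤ r := by
  calc ∑ q ∈ P.Q k, P.π k q (pos x) * f q ≤ ∑ q ∈ P.Q k, P.π k q (pos x) * r :=
        Finset.sum_le_sum fun q hq => mul_le_mul_of_nonneg_left (hf q hq) (P.π_nonneg k q _)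
    _ = r := by rw [← Finset.sum_mul, P.π_sum k _ (pos_le P hx), one_mul]

end Err1

open Err1

variable {ε : ℝ}

theorem errTh (hB : BasicBd) (_hE : BasicE) (hM : MuB) (hL : LawB) (P : Par ε)
    (_hJ : JPair P) : ErrTh P := by
  intro ψ hψ x y δ k N hloc
  obtain ⟨S, hS, hS1, -, -⟩ := hψ
  have hδ0 : 0 ≤ δ := (norm_nonneg _).trans (hloc.near 0).1
  have hD0 : 0 ≤ 8 * P.e k * δ := by have := P.e_nonneg k; positivity
  have hT := P.T'_pos k
  have hδT : δ ≤ P.T' k / 2 := by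
    refine hloc.δT.trans ?_
    apply div_le_div_of_nonneg_left hT.le (by norm_num)
    have : (1 : ℝ) ≤ 2 ^ N := one_le_pow₀ (by norm_num)
    linarith
  unfold AA
  rw [← Finset.sum_sub_distrib]
  simp_rw [← mul_sub]
  refine conv P hloc.hx k _ _ fun q _ => ?_
  rw [lc_sub]
  have key := law_bound hB hM hL P (k := k) (N := N) hloc.hx.1.2 hloc.hy.1.2
    (fun n => (hloc.near n).2.2) hloc.δT hloc.Dx (hS k q)
    (fun n => P.θ k (x.σ n) - P.θ k (y.σ n))
    (fun n h1 h2 => by rw [theta_zero P k h1, theta_zero P k h2, sub_zero]) y.a hD0 ?_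
  · refine le_trans (le_of_eq ?_) (key.trans ?_)
    · congr 2
      funext τ
      rw [← Finset.sum_sub_distrib]
      refine Finset.sum_congr rfl fun n _ => ?_
      rw [← Finset.sum_sub_distrib]
      exact Finset.sum_congr rfl fun l _ => by ring
    · have := hS1 k q
      nlinarith
  · intro n
    by_cases h0 : P.θ k (x.σ n) - P.θ k (y.σ n) = 0
    · rw [h0]; simpa using hD0
    have hx0 := sigma_nonneg hloc.hx.1 n
    have hy0 := sigma_nonneg hloc.hy.1 n
    have hn := abs_le.1 (hloc.near n).2.2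
    have hmax : P.T' k < x.σ n ∨ P.T' k < y.σ n := by
      by_contra hcon
      push Not at hcon
      exact h0 (by rw [theta_zero P k hcon.1, theta_zero P k hcon.2, sub_zero])
    have hmin : y.σ n ≤ 2 * min (x.σ n) (y.σ n) := by
      rcases min_cases (x.σ n) (y.σ n) with h | h <;> rw [h.1] <;> rcases hmax with h' | h' <;>
        linarith [hn.1, hn.2]
    have hlip := P.θ_lip k _ _ hx0 hy0
    have hya := (hloc.hy.1.1 n).1
    have he := P.e_nonneg k
    have h5 : P.e k * |x.σ n - y.σ n| ≤ P.e k * δ :=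
      mul_le_mul_of_nonneg_left (hloc.near n).2.2 he
    have h6 : ‖y.a n‖ ≤ 8 * min (x.σ n) (y.σ n) := by linarith
    calc |P.θ k (x.σ n) - P.θ k (y.σ n)| * ‖y.a n‖
        ≤ |P.θ k (x.σ n) - P.θ k (y.σ n)| * (8 * min (x.σ n) (y.σ n)) :=
          mul_le_mul_of_nonneg_left h6 (abs_nonneg _)
      _ = 8 * (min (x.σ n) (y.σ n) * |P.θ k (x.σ n) - P.θ k (y.σ n)|) := by ring
      _ ≤ 8 * P.e k * δ := by linarith

theorem errPi (hB : BasicBd) (_hE : BasicE) (hM : MuB) (hL : LawB) (P : Par ε)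
    (_hJ : JPair P) : ErrPi P := by
  intro ψ hψ x y δ k N hloc
  obtain ⟨S, hS, -, hS2, -⟩ := hψ
  have hδ0 : 0 ≤ δ := (norm_nonneg _).trans (hloc.near 0).1
  have hT := P.T_pos k
  have hLc := P.Lc_nonneg k
  have hD0 : 0 ≤ P.Lc k * δ * (4 * P.T k) := by positivity
  unfold AA
  rw [← Finset.sum_sub_distrib]
  simp_rw [← sub_mul]
  calc _ ≤ ∑ q ∈ P.Q k, S k q * (P.Lc k * δ * (4 * P.T k)) := by
        refine Finset.sum_le_sum fun q _ => ?_
        rw [lc_mul]
        have key := law_bound hB hM hL P (k := k) (N := N) hloc.hy.1.2 hloc.hx.1.2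
          (fun n => by rw [abs_sub_comm]; exact (hloc.near n).2.2) hloc.δT hloc.Dy (hS k q)
          (fun n => (P.π k q (pos x) - P.π k q (pos y)) * P.θ k (y.σ n))
          (fun n h1 _ => by rw [theta_zero P k h1, mul_zero]) y.a hD0 ?_
        · refine le_trans (le_of_eq ?_) key
          congr 2
          funext τ
          rw [Finset.mul_sum]
          refine Finset.sum_congr rfl fun n _ => ?_
          rw [Finset.mul_sum]
          exact Finset.sum_congr rfl fun l _ => by ring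
        · intro n
          have h1 := P.π_lip k q (pos x) (pos y) δ (pos_lip hloc.near)
          have h2 := theta_norm P k hloc.hy.1 n
          have h3 := P.θ_nonneg k (y.σ n)
          rw [abs_mul, abs_of_nonneg h3, mul_assoc]
          exact mul_le_mul h1 h2 (by positivity) (by positivity)
    _ = (∑ q ∈ P.Q k, S k q) * (P.Lc k * δ * (4 * P.T k)) := by rw [Finset.sum_mul]
    _ ≤ (1 * P.Cn k) * (P.Lc k * δ * (4 * P.T k)) := mul_le_mul_of_nonneg_right (hS2 k) hD0
    _ = 4 * P.Lc k * P.Cn k * P.T k * δ := by ring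

theorem jSize (hB : BasicBd) (_hE : BasicE) (hM : MuB) (hL : LawB) (P : Par ε)
    (hJ : JPair P) : JSize P := by
  intro x k N hx hD g hg
  obtain ⟨ψ, hψ, rfl⟩ := hg
  obtain ⟨S, hS, hS1, -, -⟩ := hψ
  have hT := P.T_pos k
  have hT' := P.T'_pos k
  rw [hJ]
  unfold AA
  refine conv P hx k _ _ fun q _ => ?_
  have key := law_bound hB hM hL P (k := k) (N := N) (δ := 0) hx.1.2 hx.1.2
    (fun n => by simp) (by positivity) hD (hS k q) (fun n => P.θ k (x.σ n))
    (fun n h1 _ => theta_zero P k h1) x.a (D := 4 * P.T k) (by positivity) ?_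
  · refine key.trans ?_
    have := hS1 k q
    nlinarith
  · intro n
    rw [abs_of_nonneg (P.θ_nonneg k _)]
    exact theta_norm P k hx.1 n

theorem Err1.valE_blk (F : Fam) (n : ℕ) (i : IE) :
    valE (fun τ => mask (fun n' _ _ => n' = n) (F τ)) i = if i.2.1 = n then valE F i else 0 := by
  unfold valE mask
  by_cases h : i.2.1 = n <;> simp [h]

theorem Err1.pair_blk (P : Par ε) (ψ : ℕ → Cell → Fam) (n : ℕ) (ν : IK →₀ ℝ) :
    pairK P ψ (blk n ν) = pairK P (fun k q τ => mask (fun n' _ _ => n' = n) (ψ k q τ)) ν := by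
  have : (pairK P ψ) ∘ₗ blk n =
      pairK P (fun k q τ => mask (fun n' _ _ => n' = n) (ψ k q τ)) := by
    refine Finsupp.lhom_ext fun i c => ?_
    simp only [LinearMap.comp_apply, blk, pairK, Finsupp.linearCombination_single, map_smul,
      smul_eq_mul]
    congr 1
    unfold valK
    rw [Err1.valE_blk]
    by_cases h : i.2.2.2.1 = n
    · simp [h]
    · simp [h]
  exact LinearMap.congr_fun this ν

theorem jBlk (hB : BasicBd) (_hE : BasicE) (hM : MuB) (hL : LawB) (P : Par ε)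
    (hJ : JPair P) : JBlk P := by
  intro x k N n hx hD g hg
  obtain ⟨ψ, hψ, rfl⟩ := hg
  obtain ⟨S, hS, hS1, -, -⟩ := hψ
  have hT' := P.T'_pos k
  have hθ := P.θ_nonneg k (x.σ n)
  have hD0 : 0 ≤ P.θ k (x.σ n) * ‖x.a n‖ := by positivity
  rw [Err1.pair_blk, hJ]
  unfold AA
  refine conv P hx k _ _ fun q _ => ?_
  have key := law_bound hB hM hL P (k := k) (N := N) (δ := 0) hx.1.2 hx.1.2
    (fun n => by simp) (by positivity) hD (hS k q)
    (fun n' => if n' = n then P.θ k (x.σ n') else 0)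
    (fun n' h1 _ => by simp [theta_zero P k h1]) x.a hD0 ?_
  · refine le_trans (le_of_eq ?_) (key.trans ?_)
    · congr 2
      funext τ
      refine Finset.sum_congr rfl fun n' _ => Finset.sum_congr rfl fun l _ => ?_
      rw [Err1.valE_blk]
      by_cases h : n' = n <;> simp [h]
    · have := hS1 k q
      nlinarith
  · intro n'
    by_cases h : n' = n
    · simp [h, abs_of_nonneg hθ]
    · simpa [h] using hD0

end

end Crest.Agent.R91
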