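import Crest.Agent.R91.JLib

/-! Task Q of row 91: `errLaw`, `jCauchy`, `jExt`. -/

set_option autoImplicit false
set_option linter.unusedSectionVars false

open Finset Filter Topology Function

namespace Crest.Agent.R91

open Classical JL

variable {ε : ℝ}

namespace E2

theorem sum_geo (N : ℕ) : ∑ i ∈ range N, (1 : ℝ) / 2 ^ i ≤ 2 := by
  have : ∀ J : ℕ, ∑ s ∈ range J, (1 : ℝ) / 2 ^ s = 2 - 2 / 2 ^ J := by
    intro J
    induction J with
    | zero => simp
    | succ J ih => rw [sum_range_succ, ih]; field_simp; ring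
  rw [this]
  have : (0 : ℝ) ≤ 2 / 2 ^ N := by positivity
  linarith

theorem meas_sub {φ φ' : Fn} (h : ∀ n l, Measurable (φ n l)) (h' : ∀ n l, Measurable (φ' n l)) :
    ∀ n l, Measurable ((φ - φ') n l) := fun n l => (h n l).sub (h' n l)

theorem tail_small (a : H) (η : ℝ) (hη : 0 < η) :
    ∀ᶠ N in atTop, ∀ N', N ≤ N' →
      ∑ l ∈ range N', (if N ≤ l then a l ^ 2 else 0) ≤ η := by
  have hs := (summable_sq a).hasSum
  have ht := hs.tendsto_sum_nat
  have := ht.eventually (lt_mem_nhds (show ∑' l, a l ^ 2 - η < ∑' l, a l ^ 2 by linarith))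
  filter_upwards [this] with N hN N' hN'
  have h1 : ∑ l ∈ range N', a l ^ 2 ≤ ∑' l, a l ^ 2 :=
    sum_le_hasSum _ (fun _ _ => sq_nonneg _) hs
  have h2 : ∑ l ∈ range N', (if N ≤ l then a l ^ 2 else 0) =
      ∑ l ∈ range N', a l ^ 2 - ∑ l ∈ range N, a l ^ 2 := by
    rw [← sum_filter, ← sum_Ico_eq_sub _ hN']
    refine sum_congr ?_ fun _ _ => rfl
    ext l
    simp [and_comm]
  linarith

theorem II_tail {m N N' : ℕ} (c : ℕ → ℝ) (φ : Fn) (a : ℕ → ℕ → ℝ) (h : N ≤ N') :
    II m N' (fun n _ => c n) φ a - II m N (fun n _ => c n) φ a =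
      II m N' (fun n l => if N ≤ l then c n else 0) φ a := by
  unfold II
  rw [← sum_sub_distrib]
  refine sum_congr rfl fun n _ => ?_
  rw [← sum_Ico_eq_sub _ h]
  simp only [ite_mul, zero_mul]
  rw [← sum_filter]
  refine sum_congr ?_ fun _ _ => rfl
  ext l
  simp [and_comm]

end E2

open E2

theorem errLaw (hB : BasicBd) (_hE : BasicE) (hM : MuB) (hL : LawB) (P : Par ε)
    (_hJ : JPair P) : ErrLaw P := by
  intro ψ hψ x y δ k N L
  obtain ⟨S, hS, -, -, -⟩ := hψ
  have hδ := near_nonneg L.near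
  have hT := P.T_pos k
  have hT' := P.T'_pos k
  have hω := P.ω_pos k
  unfold AA
  rw [← sum_sub_distrib]
  simp only [← mul_sub]
  refine avg_le P L.hx k _ _ fun q hq _ => ?_
  obtain ⟨lo, hi, m0, h1, h2, h3, h4⟩ := hL.box (σ := x.σ) (σ' := y.σ) (δ := δ) N hT'
    L.hx.1.2 L.hy.1.2 (fun n => (L.near n).2.2) L.δT L.Dx
  have hθ : ∀ n, m0 ≤ n → P.θ k (y.σ n) = 0 := fun n hn => θ_zero P (h3 n hn).2
  refine (hM.diff lo hi (fun i => 32 * 2 ^ i / P.T' k * δ) (fun i => wt (P.ω k) i * (4 * P.T k))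
    _ _ (isLaw hL P L.hx.1 L.Dx).1 (isLaw hL P L.hy.1 L.Dy).1 h1
    (fun i _ m => hL.cdf i m hT' L.hx.1.2 L.hy.1.2 (fun n => (L.near n).2.2)) ?_).trans ?_
  · intro τ' hτ' i hi'
    obtain ⟨Pp, hP1, hP2, hP3⟩ := (hS k q).var m0 τ' i
    refine ⟨fun s => Pp s * (4 * P.T k), ?_, ?_, ?_⟩
    · intro s s' hs
      exact mul_le_mul_of_nonneg_right (hP1 (by exact_mod_cast hs)) (by positivity)
    · intro s
      refine ⟨mul_nonneg (hP2 s).1 (by positivity), ?_⟩
      have := (hP2 s).2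
      rw [one_mul] at this
      exact mul_le_mul_of_nonneg_right this (by positivity)
    · intro s hs1 hs2
      obtain ⟨g1, a1⟩ := h4 _ (hM.box_update i (s + 1) hτ' hi' (by omega) hs2)
      obtain ⟨g0, a0⟩ := h4 _ (hM.box_update i s hτ' hi' hs1 (by omega))
      rw [gsum_eq (fun n => P.θ k (y.σ n)) _ (fun n l => y.a n l) h2 hθ g1 a1,
        gsum_eq (fun n => P.θ k (y.σ n)) _ (fun n l => y.a n l) h2 hθ g0 a0,
        II_sub hB _ _ ((hS k q).meas _) ((hS k q).cap m0 _ g1) ((hS k q).meas _)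
          ((hS k q).cap m0 _ g0), ← sub_mul]
      exact II_abs_le hB (meas_sub ((hS k q).meas _) ((hS k q).meas _))
        (hP3 _ _ (by exact_mod_cast Nat.le_succ s) g0 g1) (by positivity)
        (fun n _ => θ_sq P L.hy.1 k n _)
  · have : ∀ i, 32 * 2 ^ i / P.T' k * δ * (wt (P.ω k) i * (4 * P.T k)) =
        128 * P.ω k * P.T k / P.T' k * δ * (1 / 2 ^ i) := by
      intro i
      unfold wt
      have : (4 : ℝ) ^ i = 2 ^ i * 2 ^ i := by rw [← mul_pow]; norm_num
      rw [this]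
      field_simp
      ring
    simp only [this]
    rw [← mul_sum]
    have h0 : 0 ≤ 128 * P.ω k * P.T k / P.T' k * δ := by positivity
    calc _ ≤ 128 * P.ω k * P.T k / P.T' k * δ * 2 := mul_le_mul_of_nonneg_left (sum_geo N) h0
      _ = _ := by ring

theorem jExt (_hB : BasicBd) (_hE : BasicE) (hM : MuB) (hL : LawB) (P : Par ε)
    (hJ : JPair P) : JExt P := by
  intro x k N n l hx hD hn hl
  rw [hJ]
  unfold AA
  obtain ⟨m0, hm0, hθ, hsupp⟩ := supp_good hM hL P hx.1 hD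
  have key : ∀ q, Finsupp.linearCombination ℝ
      (fun τ : Tag => ∑ n' ∈ range N, ∑ l' ∈ range N,
        P.θ k (x.σ n') * valE (ext P x n l k q) (τ, n', l', x.a n' l')) (muP P x k N) =
      P.θe k (x.σ n) * P.χ k q (pos x) * x.a n l := by
    intro q
    rw [LC_congr (G' := fun _ => P.θe k (x.σ n) * P.χ k q (pos x) * x.a n l), LC_eq, ← sum_mul]
    · have := hM.mass (fun _ => (N : ℕ∞)) (isLaw hL P hx.1 hD).1
      unfold muP
      rw [this, one_mul]
    · intro τ hτ
      obtain ⟨hg, ha⟩ := hsupp τ hτ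
      rw [gsum_eq (fun n => P.θ k (x.σ n)) _ (fun n l => x.a n l) hm0 hθ hg ha]
      unfold II ext
      by_cases h0 : P.θe k (x.σ n) = 0
      · simp [h0]
      · have h1 := P.θe_θ k _ h0
        have hn0 : n < m0 := by
          by_contra h
          rw [hθ n (by omega)] at h1
          exact zero_ne_one h1
        rw [sum_eq_single n, sum_eq_single l]
        · simp [h1]
          ring
        · intro l' _ hl'
          simp [hl']
        · intro h
          exact absurd (mem_range.2 hl) h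
        · intro n' _ hn'
          simp [hn']
        · intro h
          exact absurd (mem_range.2 hn0) h
  simp only [key]
  have : ∀ q ∈ P.Q k, P.π k q (pos x) * (P.θe k (x.σ n) * P.χ k q (pos x) * x.a n l) =
      P.π k q (pos x) * (P.θe k (x.σ n) * x.a n l) := by
    intro q _
    by_cases h0 : P.π k q (pos x) = 0
    · simp [h0]
    · rw [(P.π_supp k q _ h0).1, mul_one]
  rw [sum_congr rfl this, ← sum_mul, P.π_sum k _ (pos_le hx), one_mul]

theorem jCauchy (hB : BasicBd) (hE : BasicE) (hM : MuB) (hL : LawB) (P : Par ε)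
    (hJ : JPair P) : JCauchy P := by
  intro x k hx η hη
  have hT := P.T_pos k
  have hT' := P.T'_pos k
  have hω := P.ω_pos k
  have hex : ∃ m, ∀ n, m ≤ n → P.θ k (x.σ n) = 0 := by
    obtain ⟨m, hm⟩ := eventually_atTop.1 (hx.1.2.eventually (ge_mem_nhds hT'))
    exact ⟨m, fun n hn => θ_zero P (hm n hn)⟩
  set m := Nat.find hex with hmdef
  have hm : ∀ n, m ≤ n → P.θ k (x.σ n) = 0 := Nat.find_spec hex
  have e1 : ∀ᶠ N in atTop, Dm x.σ N ≤ P.T' k / 16 :=
    (hL.Dm_tend hx.1.2).eventually (ge_mem_nhds (by positivity))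
  have e2 : ∀ᶠ N in atTop, 2 * wt (P.ω k) N * (4 * P.T k) ≤ η / 3 := by
    have h0 : Tendsto (fun r : ℕ => ((1 : ℝ) / 4) ^ r) atTop (𝓝 0) :=
      tendsto_pow_atTop_nhds_zero_of_lt_one (by norm_num) (by norm_num)
    have h1 := ((h0.const_mul (P.ω k)).const_mul 2).mul_const (4 * P.T k)
    simp only [mul_zero, zero_mul] at h1
    have h2 : Tendsto (fun N => 2 * wt (P.ω k) N * (4 * P.T k)) atTop (𝓝 0) := by
      refine h1.congr (fun r => ?_)
      unfold wt; rw [one_div, inv_pow, div_eq_mul_inv]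
    exact h2.eventually (ge_mem_nhds (by positivity))
  have e3 : ∀ᶠ N in atTop, ∀ n ∈ range m, ∀ N', N ≤ N' →
      ∑ l ∈ range N', (if N ≤ l then x.a n l ^ 2 else 0) ≤ (η / 3) ^ 2 :=
    (eventually_all_finset _).2 fun n _ => tail_small (x.a n) _ (by positivity)
  obtain ⟨N0, hN0⟩ := eventually_atTop.1 (e1.and (e2.and e3))
  -- the support is good for `m`
  have hsupp : ∀ N, N0 ≤ N → m ≤ N ∧ ∀ τ ∈ (muP P x k N).support, Good m τ ∧ Act τ := by
    intro N hN
    obtain ⟨m0, hm0, hθ, hs⟩ := supp_good hM hL P hx.1 (hN0 N hN).1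
    have hmm : m ≤ m0 := Nat.find_min' hex hθ
    refine ⟨hmm.trans hm0, fun τ hτ => ⟨⟨(hs τ hτ).1.1, ?_⟩, (hs τ hτ).2⟩⟩
    exact le_trans (by exact_mod_cast hmm) (hs τ hτ).1.2
  have main : ∀ (F : Fam) (S : ℝ), InE (P.ω k) S 1 F → S ≤ 1 → ∀ N N', N0 ≤ N → N ≤ N' →
      |Finsupp.linearCombination ℝ (fun τ : Tag => ∑ n ∈ range N, ∑ l ∈ range N,
          P.θ k (x.σ n) * valE F (τ, n, l, x.a n l)) (muP P x k N) -
        Finsupp.linearCombination ℝ (fun τ : Tag => ∑ n ∈ range N', ∑ l ∈ range N',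
          P.θ k (x.σ n) * valE F (τ, n, l, x.a n l)) (muP P x k N')| ≤ η := by
    intro F S hF hS1 N N' hN hNN
    have hN' : N0 ≤ N' := hN.trans hNN
    set G : ℕ → Tag → ℝ := fun L t =>
      II m L (fun n _ => P.θ k (x.σ n)) (F t) (fun n l => x.a n l) with hG
    have c1 : ∀ N, N0 ≤ N → Finsupp.linearCombination ℝ (fun τ : Tag => ∑ n ∈ range N,
        ∑ l ∈ range N, P.θ k (x.σ n) * valE F (τ, n, l, x.a n l)) (muP P x k N) =
        Finsupp.linearCombination ℝ (G N) (muP P x k N) := fun N hN =>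
      LC_congr fun τ hτ => gsum_eq (fun n => P.θ k (x.σ n)) _ (fun n l => x.a n l)
        (hsupp N hN).1 hm ((hsupp N hN).2 τ hτ).1 ((hsupp N hN).2 τ hτ).2
    rw [c1 N hN, c1 N' hN']
    have htop : ∀ τ, Good m τ → |G N τ - G N (top N τ)| ≤ η / 3 := by
      intro τ hg
      simp only [hG]
      rw [II_sub hB _ _ (hF.meas _) (hF.cap m _ hg) (hF.meas _) (hF.cap m _ (hE.good_top N hg))]
      refine (II_abs_le hB (meas_sub (hF.meas _) (hF.meas _)) (hF.tail m τ N hg)
        (D := 4 * P.T k) (by positivity) (fun n _ => θ_sq P hx.1 k n _)).trans ?_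
      rw [one_mul]
      exact (hN0 N hN).2.1
    have htail : ∀ τ, Good m τ → |G N' τ - G N τ| ≤ η / 3 := by
      intro τ hg
      simp only [hG]
      rw [II_tail _ _ _ hNN]
      refine (II_abs_le hB (hF.meas _) (hF.cap m τ hg) (D := η / 3) (by positivity)
        (fun n hn => ?_)).trans ?_
      · refine le_trans (sum_le_sum fun l _ => ?_) ((hN0 N hN).2.2 n (mem_range.2 hn) N' hNN)
        split_ifs
        · have h3 := P.θ_nonneg k (x.σ n)
          have h4 := P.θ_le k (x.σ n)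
          have h7 : P.θ k (x.σ n) ^ 2 ≤ 1 := by nlinarith
          rw [mul_pow]
          nlinarith [sq_nonneg (x.a n l)]
        · simp
      · nlinarith
    have lawN := isLaw hL P hx.1 (hN0 N hN).1
    have lawN' := isLaw hL P hx.1 (hN0 N' hN').1
    have d1 := LC_abs_sub hM (fun _ => (N : ℕ∞)) (G N) (fun t => G N (top N t)) (η / 3) lawN.1
      (fun τ hτ => htop τ ((hsupp N hN).2 τ hτ).1)
    have d2 := hM.indep (fun _ => (N : ℕ∞)) (fun _ => (N' : ℕ∞)) (G N) hNN hNN lawN'.1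
      (fun i _ m hm => lawN.2 i m hm)
    have d3 := LC_abs_sub hM (fun _ => (N' : ℕ∞)) (G N') (fun t => G N (top N t)) (2 * η / 3)
      lawN'.1 (fun τ hτ => by
        have g := ((hsupp N' hN').2 τ hτ).1
        have a1 := abs_le.1 (htop τ g)
        have a2 := abs_le.1 (htail τ g)
        rw [abs_le]
        constructor <;> linarith [a1.1, a1.2, a2.1, a2.2])
    unfold muP
    rw [d2] at d3
    rw [abs_le] at d1 d3 ⊢
    constructor <;> linarith [d1.1, d1.2, d3.1, d3.2]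
  refine ⟨N0, fun N N' hN hN' g hg => ?_⟩
  obtain ⟨ψ, ⟨S, hS, hS1, -, -⟩, rfl⟩ := hg
  rw [map_sub, hJ, hJ]
  unfold AA
  rw [← sum_sub_distrib]
  simp only [← mul_sub]
  refine avg_le P hx k _ _ fun q _ _ => ?_
  rcases le_total N N' with h | h
  · exact (abs_le.1 (main _ _ (hS k q) (hS1 k q) N N' hN h)).2
  · have := (abs_le.1 (main _ _ (hS k q) (hS1 k q) N' N hN' h)).1
    linarith

end Crest.Agent.R91
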