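import Crest.Agent.R91.Defs

set_option autoImplicit false
set_option linter.unusedSectionVars false

open Finset Filter Topology Function

namespace Crest.Agent.R91

namespace EXT

open Classical

variable {ε : ℝ} (P : Par ε)

/-- families that do not depend on the tag and on the real variable -/
def cst (G : ℕ → Cell → ℕ → ℕ → ℝ) : ℕ → Cell → Fam := fun k q _ n l _ => G k q n l

/-- weight of an atom -/
noncomputable def W (i : IK) : ℝ :=
  if i.2.1 ∈ P.Q i.1 ∧ Act i.2.2.1 ∧ (i.2.2.2.1 : ℕ∞) < i.2.2.1 0 then i.2.2.2.2.2 else 0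

theorem valK_cst (G : ℕ → Cell → ℕ → ℕ → ℝ) (i : IK) :
    valK P (cst G) i = W P i * G i.1 i.2.1 i.2.2.2.1 i.2.2.2.2.1 := by
  unfold valK valE W cst
  by_cases h1 : i.2.1 ∈ P.Q i.1
  · by_cases h2 : Act i.2.2.1 ∧ (i.2.2.2.1 : ℕ∞) < i.2.2.1 0
    · simp [h1, h2]
    · simp [h1, h2]
  · simp [h1]

theorem pairK_single (ψ : ℕ → Cell → Fam) (i : IK) (a : ℝ) :
    pairK P ψ (Finsupp.single i a) = a * valK P ψ i := by
  simp [pairK]

/-- one coordinate -/
noncomputable def E (c : ℕ → Cell → ℝ) (n l : ℕ) : ℕ → Cell → Fam :=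
  cst (fun k q n' l' => if n' = n ∧ l' = l then c k q else 0)

/-- the combined family -/
noncomputable def fam (c : ℕ → Cell → ℝ) (n L : ℕ) (u : ℕ → ℝ) : ℕ → Cell → Fam :=
  cst (fun k q n' l' => if n' = n ∧ l' < L then u l' * c k q else 0)

theorem ext_eq (x : Cfg) (n l : ℕ) :
    ext P x n l = E (fun k q => P.θe k (x.σ n) * P.χ k q (pos x)) n l := rfl

theorem fam_pair (c : ℕ → Cell → ℝ) (n L : ℕ) (u : ℕ → ℝ) (ν : IK →₀ ℝ) :
    ∑ l ∈ range L, u l * pairK P (E c n l) ν = pairK P (fam c n L u) (blk n ν) := by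
  have : ∑ l ∈ range L, u l • pairK P (E c n l) = pairK P (fam c n L u) ∘ₗ blk n := by
    refine Finsupp.lhom_ext (fun i a => ?_)
    obtain ⟨k, q, τ, n', l', t⟩ := i
    rw [LinearMap.sum_apply, LinearMap.comp_apply]
    simp only [LinearMap.smul_apply, pairK_single, E, valK_cst, blk,
      Finsupp.linearCombination_single, smul_eq_mul]
    by_cases hn : n' = n
    · simp only [hn, true_and, if_true, map_smul, pairK_single, fam, valK_cst, smul_eq_mul]
      by_cases hl : l' < L
      · rw [Finset.sum_eq_single l']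
        · simp [hl]; ring
        · intro b _ hb
          simp [Ne.symm hb]
        · intro h; exact absurd (mem_range.2 hl) h
      · rw [Finset.sum_eq_zero]
        · simp [hl]
        · intro b hb
          have : l' ≠ b := by
            rintro rfl; exact hl (mem_range.1 hb)
          simp [this]
    · simp [hn]
  have h := LinearMap.congr_fun this ν
  simpa [LinearMap.sum_apply] using h

theorem fam_bd (hB : BasicBd) (c : ℕ → Cell → ℝ) (n L : ℕ) (u : ℕ → ℝ)
    (hu : ∑ l ∈ range L, u l ^ 2 ≤ 1) (k : ℕ) (q : Cell) (τ : Tag) (m : ℕ) :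
    Bd m (fam c n L u k q τ) |c k q| := by
  intro v
  refine hB.of_sq n _ (abs_nonneg _) (fun n' hn' l => by simp [fam, cst, hn']) (fun L' => ?_)
  simp only [fam, cst, true_and]
  have h1 : ∑ l ∈ range L', (if l < L then u l * c k q else 0) ^ 2 =
      (∑ l ∈ (range L').filter (· < L), u l ^ 2) * c k q ^ 2 := by
    rw [Finset.sum_mul, Finset.sum_filter]
    refine Finset.sum_congr rfl (fun l _ => ?_)
    split_ifs <;> ring
  have h2 : ∑ l ∈ (range L').filter (· < L), u l ^ 2 ≤ 1 := by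
    refine le_trans (Finset.sum_le_sum_of_subset_of_nonneg ?_ (fun _ _ _ => sq_nonneg _)) hu
    intro l hl
    exact mem_range.2 (mem_filter.1 hl).2
  rw [h1, sq_abs]
  nlinarith [sq_nonneg (c k q)]

theorem le_of_sum {β : ℕ → ℝ} {C : ℝ} (h0 : ∀ k, 0 ≤ β k) (h : ∀ K, ∑ k ∈ range K, β k ≤ C)
    (k : ℕ) : β k ≤ C :=
  le_trans (Finset.single_le_sum (fun j _ => h0 j) (mem_range.2 (Nat.lt_succ_self k))) (h (k + 1))

theorem key (hB : BasicBd) (hE : BasicE) (hK : BasicK P) {ν : IK →₀ ℝ} {r : ℝ} {n L : ℕ}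
    {u : ℕ → ℝ} (hu : ∑ l ∈ range L, u l ^ 2 ≤ 1) (hr : ∀ g ∈ KK P, g (blk n ν) ≤ r)
    (c : ℕ → Cell → ℝ) (β : ℕ → ℝ) {C : ℝ} (hC : 0 < C) (h1 : ∀ k q, |c k q| ≤ β k)
    (h2 : ∀ K, ∑ k ∈ range K, β k ≤ C) (h3 : ∀ k, ∑ q ∈ P.Q k, |c k q| ≤ C * P.Cn k) :
    ∑ l ∈ range L, u l * pairK P (E c n l) ν ≤ C * r := by
  have h0 : ∀ k, 0 ≤ β k := fun k => (abs_nonneg _).trans (h1 k 0)
  have hin : InK P C (fam c n L u) := by
    refine ⟨fun k q => |c k q|, fun k q => ?_, fun k q => (h1 k q).trans (le_of_sum h0 h2 k), h3,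
      fun v => ⟨β, h0, h2, fun k q _ _ m τ _ => hB.mono (fam_bd hB c n L u hu k q τ m v) (h1 k q)⟩⟩
    exact hE.const (fam c n L u k q 0) (P.ω_pos k).le hC.le
      (fun n' l => measurable_const) (fun m => fam_bd hB c n L u hu k q 0 m)
  obtain ⟨g, hg, he⟩ := hK.mem hin hC
  rw [fam_pair, he, LinearMap.smul_apply, smul_eq_mul]
  exact mul_le_mul_of_nonneg_left (hr g hg) hC.le

theorem θe_le (k : ℕ) (s : ℝ) : P.θe k s ≤ 1 :=
  le_of_sum (fun k => P.θe_nonneg k s) (fun K => P.θe_sum K s) k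

theorem coord_le (a b : H) (l : ℕ) : |a l - b l| ≤ ‖a - b‖ := by
  have := lp.norm_apply_le_norm (by norm_num : (2 : ENNReal) ≠ 0) (a - b) l
  simpa using this

theorem pos_lip {x y : Cfg} {δ : ℝ} (h : Near x y δ) (n l : ℕ) (b : Bool) :
    |pos x n l b - pos y n l b| ≤ δ := by
  have h1 := (coord_le (x.a n) (y.a n) l).trans (h n).1
  have h2 := (coord_le (x.a' n) (y.a' n) l).trans (h n).2.1
  unfold pos
  split_ifs
  · exact (abs_max_sub_max_le_max _ _ _ _).trans (max_le h1 h2)
  · exact (abs_min_sub_min_le_max _ _ _ _).trans (max_le h1 h2)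

theorem sum_eps (c : ℝ) (hc : 0 ≤ c) (K : ℕ) : ∑ k ∈ range K, c / 2 ^ (k + 1) ≤ c := by
  have : ∀ J : ℕ, ∑ s ∈ range J, c / 2 ^ (s + 1) = c - c / 2 ^ J := by
    intro J
    induction J with
    | zero => simp
    | succ J ih => rw [sum_range_succ, ih]; field_simp; ring
  rw [this]
  have : 0 ≤ c / 2 ^ K := by positivity
  linarith

theorem err' (k : ℕ) : P.e k + P.T k * P.Lc k ≤ ε / 2 ^ (k + 1) := by
  have h := P.err k
  have h1 := P.e_nonneg k
  have h2 := P.ω_pos k
  have h3 := P.T_pos k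
  have h4 := P.T'_pos k
  have h5 := P.Lc_nonneg k
  have h6 := P.one_le_Cn k
  have h7 : 0 ≤ 256 * P.ω k * P.T k / P.T' k := by positivity
  have h8 : 0 ≤ P.T k * P.Lc k := by positivity
  nlinarith [mul_le_mul_of_nonneg_left h6 h8]

include P in
theorem eps_nonneg : 0 ≤ ε := by
  have h := err' P 0
  have h1 := P.e_nonneg 0
  have h3 := P.T_pos 0
  have h5 := P.Lc_nonneg 0
  have h8 : 0 ≤ P.T 0 * P.Lc 0 := by positivity
  norm_num at h
  linarith

theorem sum_card {s t : Finset Cell} {f : Cell → ℝ} {b : ℝ} (hb : 0 ≤ b) (h1 : ∀ q, f q ≤ b)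
    (h2 : ∀ q ∈ s, q ∉ t → f q = 0) : ∑ q ∈ s, f q ≤ b * t.card := by
  calc ∑ q ∈ s, f q ≤ ∑ q ∈ s, (if q ∈ t then b else 0) := by
        refine Finset.sum_le_sum (fun q hq => ?_)
        split_ifs with h
        · exact h1 q
        · exact (h2 q hq h).le
    _ = ∑ q ∈ s.filter (· ∈ t), b := by rw [Finset.sum_filter]
    _ ≤ ∑ q ∈ t, b := Finset.sum_le_sum_of_subset_of_nonneg
        (fun q hq => (mem_filter.1 hq).2) (fun _ _ _ => hb)
    _ = b * t.card := by rw [Finset.sum_const, nsmul_eq_mul, mul_comm]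

theorem norm_le_of_dual (w : H) (r : ℝ)
    (h : ∀ (L : ℕ) (u : ℕ → ℝ), ∑ l ∈ range L, u l ^ 2 ≤ 1 → ∑ l ∈ range L, u l * w l ≤ r) :
    ‖w‖ ≤ r := by
  have hr : 0 ≤ r := by simpa using h 0 0 (by simp)
  have h1 : ∀ L, ∑ l ∈ range L, w l ^ 2 ≤ r ^ 2 := by
    intro L
    set S := ∑ l ∈ range L, w l ^ 2 with hS
    have hS0 : 0 ≤ S := Finset.sum_nonneg (fun _ _ => sq_nonneg _)
    rcases hS0.eq_or_lt with h0 | h0
    · rw [← h0]; positivity
    · have hs : 0 < Real.sqrt S := Real.sqrt_pos.2 h0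
      have hq : Real.sqrt S ^ 2 = S := Real.sq_sqrt hS0
      have a1 : ∑ l ∈ range L, (w l / Real.sqrt S) ^ 2 ≤ 1 := by
        simp only [div_pow]
        rw [← Finset.sum_div, ← hS, hq, div_self h0.ne']
      have a2 := h L _ a1
      have a3 : ∑ l ∈ range L, w l / Real.sqrt S * w l = Real.sqrt S := by
        have : ∀ l, w l / Real.sqrt S * w l = w l ^ 2 / Real.sqrt S := fun l => by ring
        simp only [this]
        rw [← Finset.sum_div, ← hS, div_eq_iff hs.ne', ← sq, hq]
      rw [a3] at a2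
      rw [← hq]
      exact pow_le_pow_left₀ hs.le a2 2
  refine lp.norm_le_of_forall_sum_le (by norm_num) hr (fun s => ?_)
  obtain ⟨L, hL⟩ := s.exists_nat_subset_range
  have : ∑ i ∈ s, w i ^ 2 ≤ r ^ 2 :=
    le_trans (Finset.sum_le_sum_of_subset_of_nonneg hL (fun _ _ _ => sq_nonneg _)) (h1 L)
  simpa using this

/-- the vector of extracted coordinates -/
noncomputable def pv (e : ℕ → ℕ → Cell → Fam) : (IK →₀ ℝ) →ₗ[ℝ] H :=
  Finsupp.linearCombination ℝ
    (fun i : IK => (lp.single 2 i.2.2.2.2.1 (valK P (e i.2.2.2.2.1) i) : H))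

theorem pv_apply (x : Cfg) (n : ℕ) (ν : IK →₀ ℝ) (l : ℕ) :
    pv P (ext P x n) ν l = pairK P (ext P x n l) ν := by
  induction ν using Finsupp.induction_linear with
  | zero => simp
  | add f g hf hg => simp [hf, hg]
  | single i a =>
    rw [pairK_single]
    simp only [pv, Finsupp.linearCombination_single, lp.coeFn_smul, Pi.smul_apply, smul_eq_mul]
    congr 1
    by_cases h : l = i.2.2.2.2.1
    · subst h; simp
    · rw [lp.single_apply_ne _ _ _ h, ext_eq, E, valK_cst]
      simp [Ne.symm h]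

theorem ext_swap (x : Cfg) : ext P x.swap = ext P x := by
  have : pos x.swap = pos x := by
    funext n l b
    simp only [pos, Cfg.swap]
    rw [max_comm, min_comm]
  funext n l k q τ n' l' t
  simp only [ext, this]
  rfl

end EXT

open EXT in
theorem extB {ε : ℝ} (hB : BasicBd) (hE : BasicE) (P : Par ε) (hK : BasicK P) : ExtB P := by
  classical
  intro ν r n L u hu hr
  refine ⟨fun x => ?_, fun x y δ hx hy hn => ?_⟩
  · have := key P hB hE hK hu hr (fun k q => P.θe k (x.σ n) * P.χ k q (pos x))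
      (fun k => P.θe k (x.σ n)) one_pos (fun k q => ?_) (fun K => P.θe_sum K _) (fun k => ?_)
    · simpa [ext_eq] using this
    · rw [abs_of_nonneg (mul_nonneg (P.θe_nonneg _ _) (P.χ_nonneg _ _ _))]
      exact mul_le_of_le_one_right (P.θe_nonneg _ _) (P.χ_le _ _ _)
    · have h1 := sum_card (s := P.Q k) (t := (P.Q k).filter (fun q => P.χ k q (pos x) ≠ 0))
        (f := fun q => |P.θe k (x.σ n) * P.χ k q (pos x)|) zero_le_one (fun q => ?_)
        (fun q hq hq' => ?_)
      · have h2 := P.χ_card k (pos x)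
        have h3 := P.one_le_Cn k
        linarith
      · rw [abs_of_nonneg (mul_nonneg (P.θe_nonneg _ _) (P.χ_nonneg _ _ _))]
        exact mul_le_one₀ (θe_le P _ _) (P.χ_nonneg _ _ _) (P.χ_le _ _ _)
      · have : P.χ k q (pos x) = 0 := by
          by_contra h; exact hq' (mem_filter.2 ⟨hq, h⟩)
        simp [this]
  · have hδ : 0 ≤ δ := (abs_nonneg _).trans (hn 0).2.2
    have hσx : 0 ≤ x.σ n := by have := (hx.1 n).1; have := norm_nonneg (x.a n); linarith
    have hσy : 0 ≤ y.σ n := by have := (hy.1 n).1; have := norm_nonneg (y.a n); linarith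
    set m := min (x.σ n) (y.σ n) with hm
    have hm0 : 0 ≤ m := le_min hσx hσy
    set c : ℕ → Cell → ℝ := fun k q => m * (P.θe k (x.σ n) * P.χ k q (pos x) -
      P.θe k (y.σ n) * P.χ k q (pos y)) with hc
    have hpair : ∀ l, pairK P (E c n l) ν =
        m * (pairK P (ext P x n l) ν - pairK P (ext P y n l) ν) := by
      intro l
      have : pairK P (E c n l) = m • (pairK P (ext P x n l) - pairK P (ext P y n l)) := by
        refine Finsupp.lhom_ext (fun i a => ?_)
        simp only [LinearMap.smul_apply, LinearMap.sub_apply, pairK_single, ext_eq, E, valK_cst,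
          smul_eq_mul, hc]
        split_ifs <;> ring
      rw [this]; simp
    have hβ : ∀ k q, |c k q| ≤ (P.e k + P.T k * P.Lc k) * δ := by
      intro k q
      have a1 := P.θe_lip k (x.σ n) (y.σ n) hσx hσy
      have a2 := P.χ_lip k q (pos x) (pos y) δ (pos_lip hn)
      have a3 : m * P.θe k (y.σ n) ≤ P.T k := by
        by_cases h : P.θe k (y.σ n) = 0
        · rw [h, mul_zero]; exact (P.T_pos k).le
        · have b1 := P.θe_θ k _ h
          have b2 := (P.θ_supp k (y.σ n) (by rw [b1]; exact one_ne_zero)).2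
          have b3 : m ≤ y.σ n := min_le_right _ _
          have b4 := mul_le_of_le_one_right hm0 (θe_le P k (y.σ n))
          linarith
      have a4 : c k q = m * (P.θe k (x.σ n) - P.θe k (y.σ n)) * P.χ k q (pos x) +
          m * P.θe k (y.σ n) * (P.χ k q (pos x) - P.χ k q (pos y)) := by
        simp only [hc]; ring
      have a5 : |m * (P.θe k (x.σ n) - P.θe k (y.σ n)) * P.χ k q (pos x)| ≤ P.e k * δ := by
        rw [abs_mul, abs_mul, abs_of_nonneg hm0, abs_of_nonneg (P.χ_nonneg _ _ _)]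
        have b1 := mul_le_mul_of_nonneg_left (hn n).2.2 (P.e_nonneg k)
        have b2 := mul_le_of_le_one_right (mul_nonneg hm0
          (abs_nonneg (P.θe k (x.σ n) - P.θe k (y.σ n)))) (P.χ_le k q (pos x))
        linarith
      have a6 : |m * P.θe k (y.σ n) * (P.χ k q (pos x) - P.χ k q (pos y))| ≤
          P.T k * (P.Lc k * δ) := by
        rw [abs_mul, abs_of_nonneg (mul_nonneg hm0 (P.θe_nonneg _ _))]
        exact mul_le_mul a3 a2 (abs_nonneg _) (P.T_pos k).le
      rw [a4]
      refine (abs_add_le _ _).trans ?_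
      linarith
    have hβ0 : ∀ k, 0 ≤ (P.e k + P.T k * P.Lc k) * δ := fun k => (abs_nonneg _).trans (hβ k 0)
    have hsum : ∀ K, ∑ k ∈ range K, (P.e k + P.T k * P.Lc k) * δ ≤ ε * δ := by
      intro K
      rw [← Finset.sum_mul]
      refine mul_le_mul_of_nonneg_right ?_ hδ
      exact (Finset.sum_le_sum (fun k _ => err' P k)).trans (sum_eps ε (eps_nonneg P) K)
    have hεδ : 0 ≤ ε * δ := mul_nonneg (eps_nonneg P) hδ
    have main : ∀ η : ℝ, 0 < η →
        ∑ l ∈ range L, u l * pairK P (E c n l) ν ≤ (ε * δ + η) * r := by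
      intro η hη
      refine key P hB hE hK hu hr c _ (by positivity) hβ
        (fun K => (hsum K).trans (by linarith)) (fun k => ?_)
      have h1 := sum_card (s := P.Q k) (t := (P.Q k).filter (fun q => P.χ k q (pos x) ≠ 0) ∪
          (P.Q k).filter (fun q => P.χ k q (pos y) ≠ 0))
        (f := fun q => |c k q|) (hβ0 k) (hβ k) (fun q hq hq' => ?_)
      · have h2 := P.χ_card k (pos x)
        have h3 := P.χ_card k (pos y)
        have h4 : ((((P.Q k).filter (fun q => P.χ k q (pos x) ≠ 0) ∪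
            (P.Q k).filter (fun q => P.χ k q (pos y) ≠ 0)).card : ℕ) : ℝ) ≤ P.Cn k := by
          have := Finset.card_union_le ((P.Q k).filter (fun q => P.χ k q (pos x) ≠ 0))
            ((P.Q k).filter (fun q => P.χ k q (pos y) ≠ 0))
          have h5 : ((((P.Q k).filter (fun q => P.χ k q (pos x) ≠ 0) ∪
            (P.Q k).filter (fun q => P.χ k q (pos y) ≠ 0)).card : ℕ) : ℝ) ≤
              (((P.Q k).filter (fun q => P.χ k q (pos x) ≠ 0)).card : ℝ) +
              (((P.Q k).filter (fun q => P.χ k q (pos y) ≠ 0)).card : ℝ) := by exact_mod_cast this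
          linarith
        have h5 := le_of_sum hβ0 hsum k
        refine h1.trans (mul_le_mul (by linarith) h4 (Nat.cast_nonneg _) (by positivity))
      · have b1 : P.χ k q (pos x) = 0 := by
          by_contra h; exact hq' (mem_union_left _ (mem_filter.2 ⟨hq, h⟩))
        have b2 : P.χ k q (pos y) = 0 := by
          by_contra h; exact hq' (mem_union_right _ (mem_filter.2 ⟨hq, h⟩))
        simp [hc, b1, b2]
    have heq : m * ∑ l ∈ range L, u l * (pairK P (ext P x n l) ν - pairK P (ext P y n l) ν) =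
        ∑ l ∈ range L, u l * pairK P (E c n l) ν := by
      rw [Finset.mul_sum]
      refine Finset.sum_congr rfl (fun l _ => ?_)
      rw [hpair]; ring
    rw [heq]
    refine le_of_forall_pos_le_add (fun η hη => ?_)
    have h1 := main (η / (|r| + 1)) (by positivity)
    have h2 : η / (|r| + 1) * r ≤ η := by
      rw [div_mul_eq_mul_div, div_le_iff₀ (by positivity)]
      have := le_abs_self r
      nlinarith
    linarith

theorem rEx {ε : ℝ} (P : Par ε) (hK : BasicK P) : REx P := by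
  classical
  intro B _ _ _ emb hpre
  have hn : ∀ n ν, ‖(emb ∘ₗ blk n) ν‖ ≤ 1 * ‖emb ν‖ := by
    intro n ν
    rw [one_mul]
    exact hpre.ge _ _ (fun g hg => hpre.le _ (hK.blk_mem g hg n) ν)
  have h1 : ∀ n ν, (emb ∘ₗ blk n).extendOfNorm emb (emb ν) = emb (blk n ν) :=
    fun n ν => LinearMap.extendOfNorm_eq hpre.dense ⟨1, hn n⟩ ν
  have h2 : ∀ n c, ‖(emb ∘ₗ blk n).extendOfNorm emb c‖ ≤ ‖c‖ := by
    intro n c
    simpa using LinearMap.norm_extendOfNorm_apply_le hpre.dense 1 (hn n) c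
  refine ⟨fun n => (emb ∘ₗ blk n).extendOfNorm emb, h1, h2, fun c => ?_⟩
  rw [Metric.tendsto_atTop]
  intro η hη
  obtain ⟨ν, hν⟩ := hpre.dense.exists_dist_lt c hη
  refine ⟨ν.support.sup (fun i => i.2.2.2.1) + 1, fun n hn' => ?_⟩
  have hz : blk n ν = 0 := by
    unfold blk
    rw [Finsupp.linearCombination_apply, Finsupp.sum]
    refine Finset.sum_eq_zero (fun i hi => ?_)
    have : i.2.2.2.1 ≤ ν.support.sup (fun i => i.2.2.2.1) :=
      Finset.le_sup (f := fun i : IK => i.2.2.2.1) hi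
    rw [if_neg (by omega), smul_zero]
  have h3 : (emb ∘ₗ blk n).extendOfNorm emb c = (emb ∘ₗ blk n).extendOfNorm emb (c - emb ν) := by
    rw [map_sub, h1, hz, map_zero, sub_zero]
  rw [dist_zero_right, h3]
  rw [dist_eq_norm] at hν
  exact (h2 n _).trans_lt hν

open EXT in
theorem pEx {ε : ℝ} (P : Par ε) (_hK : BasicK P) (hX : ExtB P) : PEx P := by
  intro B _ _ _ emb hpre R hR1 hR2
  have hb : ∀ x n ν, ‖pv P (ext P x n) ν‖ ≤ ‖R n (emb ν)‖ := by
    intro x n ν
    rw [hR1]
    refine norm_le_of_dual _ _ (fun L u hu => ?_)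
    simp only [pv_apply]
    exact (hX ν _ n L u hu (fun g hg => hpre.le g hg _)).1 x
  have h1 : ∀ x n ν, (pv P (ext P x n)).extendOfNorm emb (emb ν) = pv P (ext P x n) ν :=
    fun x n ν => LinearMap.extendOfNorm_eq hpre.dense
      ⟨1, fun ν => by simpa using (hb x n ν).trans (hR2 n _)⟩ ν
  refine ⟨fun x n => (pv P (ext P x n)).extendOfNorm emb, fun x n ν l => ?_, fun x n c => ?_,
    fun x y δ hx hy hn n c => ?_, fun x => ?_⟩
  · rw [h1, pv_apply]
  · refine hpre.dense.induction_on c (isClosed_le (by fun_prop) (by fun_prop)) (fun ν => ?_)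
    rw [h1]; exact hb x n ν
  · refine hpre.dense.induction_on c (isClosed_le (by fun_prop) (by fun_prop)) (fun ν => ?_)
    have hσx : 0 ≤ x.σ n := by have := (hx.1 n).1; have := norm_nonneg (x.a n); linarith
    have hσy : 0 ≤ y.σ n := by have := (hy.1 n).1; have := norm_nonneg (y.a n); linarith
    have hm0 : 0 ≤ min (x.σ n) (y.σ n) := le_min hσx hσy
    rw [h1, h1, hR1, ← Real.norm_of_nonneg hm0, ← norm_smul]
    refine norm_le_of_dual _ _ (fun L u hu => ?_)
    have := (hX ν _ n L u hu (fun g hg => hpre.le g hg _)).2 x y δ hx hy hn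
    refine le_trans (le_of_eq ?_) this
    rw [Finset.mul_sum]
    refine Finset.sum_congr rfl (fun l _ => ?_)
    simp only [lp.coeFn_smul, lp.coeFn_sub, Pi.smul_apply, Pi.sub_apply, pv_apply, smul_eq_mul]
    ring
  · simp only [ext_swap]

end Crest.Agent.R91
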