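import Crest.Agent.R91.C0

/-!
Row 91, task Y: from `Core` to the two statements.
-/

set_option autoImplicit false

open Finset Filter Topology Function TopologicalSpace

namespace Crest.Agent.R91

noncomputable section

namespace FIN

theorem hasSum_H (f : H) : HasSum (fun i => f i ^ 2) (‖f‖ ^ 2) := by
  simpa using lp.hasSum_norm (p := 2) (by simp) f

theorem mem_H {f : ℕ → ℝ} (h : Summable fun i => f i ^ 2) : Memℓp f 2 :=
  memℓp_gen (by simpa using h)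

/-- put a real number in front -/
def cns (t : ℝ) (h : ℕ → ℝ) : ℕ → ℝ
  | 0 => t
  | n + 1 => h n

/-- put a real number in front -/
def hcons (t : ℝ) (h : H) : H :=
  ⟨cns t h, mem_H ((summable_nat_add_iff (f := fun i => cns t h i ^ 2) 1).1
    (hasSum_H h).summable)⟩

/-- drop the first entry -/
def tl (h : H) : H :=
  ⟨fun n => h (n + 1), mem_H ((summable_nat_add_iff (f := fun i => h i ^ 2) 1).2
    (hasSum_H h).summable)⟩

theorem cons_tl (h : H) : hcons (h 0) (tl h) = h :=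
  lp.ext (funext fun n => by cases n <;> rfl)

theorem cons_sub (t t' : ℝ) (h h' : H) : hcons t h - hcons t' h' = hcons (t - t') (h - h') :=
  lp.ext (funext fun n => by cases n <;> rfl)

theorem norm_cons (t : ℝ) (h : H) : ‖hcons t h‖ ^ 2 = t ^ 2 + ‖h‖ ^ 2 := by
  have h1 := (hasSum_nat_add_iff' 1).2 (hasSum_H (hcons t h))
  have h2 : ‖hcons t h‖ ^ 2 - ∑ i ∈ range 1, hcons t h i ^ 2 = ‖h‖ ^ 2 := h1.unique (hasSum_H h)
  have h3 : ∑ i ∈ range 1, hcons t h i ^ 2 = t ^ 2 := by rw [sum_range_one]; rfl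
  linarith

theorem cons_bd (t : ℝ) (h : H) : ‖t‖ ≤ ‖hcons t h‖ ∧ ‖h‖ ≤ ‖hcons t h‖ ∧ ‖hcons t h‖ ≤ ‖h‖ + ‖t‖ := by
  have h1 := norm_cons t h
  have h2 : ‖t‖ ^ 2 = t ^ 2 := by simp
  have h3 := norm_nonneg t
  have h4 := norm_nonneg h
  refine ⟨abs_le_of_sq_le_sq' ?_ (norm_nonneg _) |>.2, abs_le_of_sq_le_sq' ?_ (norm_nonneg _) |>.2,
    abs_le_of_sq_le_sq' ?_ (by positivity) |>.2⟩ <;> nlinarith

/-- the bijection `c₀(H) × c₀ → c₀(H)` -/
def G (a : AA0) (u : ZeroAtInftyContinuousMap ℕ ℝ) : AA0 :=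
  C0.mk0 (fun n => hcons (u n) (a n)) (squeeze_zero_norm (fun n => (cons_bd _ _).2.2)
    (by simpa using (C0.tendsto_norm a).add (C0.tendsto_norm u)))

theorem G_surj (f : AA0) : ∃ a u, G a u = f := by
  have h : ∀ n, ‖f n 0‖ ≤ ‖f n‖ ∧ ‖tl (f n)‖ ≤ ‖f n‖ := fun n => by
    have := cons_bd (f n 0) (tl (f n))
    rw [cons_tl] at this
    exact ⟨this.1, this.2.1⟩
  refine ⟨C0.mk0 (fun n => tl (f n)) (squeeze_zero_norm (fun n => (h n).2) (C0.tendsto_norm f)),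
    C0.mk0 (fun n => f n 0) (squeeze_zero_norm (fun n => (h n).1) (C0.tendsto_norm f)), ?_⟩
  exact ZeroAtInftyContinuousMap.ext fun n => cons_tl _

theorem G_bd (a a' : AA0) (u u' : ZeroAtInftyContinuousMap ℕ ℝ) :
    ‖u - u'‖ ≤ ‖G a u - G a' u'‖ ∧ ‖a - a'‖ ≤ ‖G a u - G a' u'‖ ∧
      ‖G a u - G a' u'‖ ≤ ‖a - a'‖ + ‖u - u'‖ := by
  have e : ∀ n, (G a u - G a' u') n = hcons ((u - u') n) ((a - a') n) := fun n => cons_sub _ _ _ _
  refine ⟨C0.norm_le _ (norm_nonneg _) fun n => ?_, C0.norm_le _ (norm_nonneg _) fun n => ?_,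
    C0.norm_le _ (by positivity) fun n => ?_⟩
  · exact (cons_bd _ _).1.trans (e n ▸ C0.apply_le _ n)
  · exact (cons_bd _ _).2.1.trans (e n ▸ C0.apply_le _ n)
  · rw [e]
    exact (cons_bd _ _).2.2.trans (add_le_add (C0.apply_le _ n) (C0.apply_le _ n))

theorem e0_ne : (lp.single 2 0 (1 : ℝ) : H) ≠ 0 := fun h => by
  simpa using congrArg (fun f : H => f 0) h

/-- the first factor of an `ℓ₁` sum -/
def inl (A Z : Type) [NormedAddCommGroup A] [NormedSpace ℝ A] [NormedAddCommGroup Z]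
    [NormedSpace ℝ Z] : A →ₗᵢ[ℝ] WithLp 1 (A × Z) where
  toLinearMap := (WithLp.linearEquiv 1 ℝ (A × Z)).symm.toLinearMap ∘ₗ LinearMap.inl ℝ A Z
  norm_map' a := by simp

end FIN

open FIN

theorem st120 (hc : Core) (hs : SepB) : St120 := by
  obtain ⟨Z, _, _, h1, h2, h3, Ψ, hb, hΨ⟩ := hc
  have := hs.2
  refine ⟨WithLp 1 (AA0 × Z), inferInstance, inferInstance, Z, inferInstance, inferInstance,
    inferInstance, ?_, h1, h2, ⟨fun s => (3 / 4 : ℝ) • Ψ s.ofLp, ?_, fun s t => ?_⟩, ⟨inl AA0 Z⟩,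
    fun S _ => C0.not_sub h3 e0_ne S, ⟨fun φ => ?_⟩⟩
  · exact (WithLp.homeomorphProd 1 AA0 Z).symm.surjective.denseRange.separableSpace
      (WithLp.homeomorphProd 1 AA0 Z).symm.continuous
  · exact ((MulAction.bijective (Units.mk0 (3 / 4 : ℝ) (by norm_num))).comp hb).comp
      (WithLp.equiv 1 (AA0 × Z)).bijective
  · have h := hΨ s.ofLp t.ofLp
    have e : ‖s - t‖ = ‖s.ofLp.1 - t.ofLp.1‖ + ‖s.ofLp.2 - t.ofLp.2‖ := by
      rw [WithLp.prod_norm_eq_of_L1]; rfl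
    rw [← e] at h
    rw [← smul_sub, norm_smul, Real.norm_of_nonneg (by norm_num)]
    have := norm_nonneg (s - t)
    constructor <;> linarith [h.1, h.2]
  · refine C0.not_emb h3 e0_ne (φ.toContinuousLinearMap.comp (inl AA0 Z).toContinuousLinearMap)
      ‖φ.symm.toContinuousLinearMap‖ fun f => ?_
    simpa using φ.symm.toContinuousLinearMap.le_opNorm (φ (inl AA0 Z f))

theorem st121 (hc : Core) : St121 := by
  obtain ⟨Z, _, _, h1, h2, h3, Ψ, hb, hΨ⟩ := hc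
  obtain ⟨Φ, hl, hr⟩ := bijective_iff_has_inverse.1 hb
  refine ⟨Z, inferInstance, inferInstance, h1, h2, fun S _ => C0.not_sub h3 one_ne_zero S,
    fun w => Ψ (G (Φ w.1).1 w.2, (Φ w.1).2), fun z => ?_, 1 / 13, 17, by norm_num, fun u v => ?_⟩
  · obtain ⟨a, u, h⟩ := G_surj (Φ z).1
    refine ⟨(Ψ (a, (Φ z).2), u), ?_⟩
    simp only [hl _, h, hr _]
  · have a1 := hΨ (Φ u.1) (Φ v.1)
    rw [hr, hr] at a1
    have a2 := hΨ (G (Φ u.1).1 u.2, (Φ u.1).2) (G (Φ v.1).1 v.2, (Φ v.1).2)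
    have a3 := G_bd (Φ u.1).1 (Φ v.1).1 u.2 v.2
    have a4 : ‖u.1 - v.1‖ ≤ ‖u - v‖ := norm_fst_le (u - v)
    have a5 : ‖u.2 - v.2‖ ≤ ‖u - v‖ := norm_snd_le (u - v)
    have a6 := norm_nonneg ((Φ u.1).2 - (Φ v.1).2)
    have a7 := norm_nonneg (u - v)
    have a8 := norm_nonneg (Ψ (G (Φ u.1).1 u.2, (Φ u.1).2) - Ψ (G (Φ v.1).1 v.2, (Φ v.1).2))
    simp only at a2 ⊢
    refine ⟨?_, by linarith [a1.2, a2.1, a3.2.2]⟩
    rw [one_div_mul_eq_div, div_le_iff₀ (by norm_num), Prod.norm_def]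
    refine max_le ?_ ?_
    · show ‖u.1 - v.1‖ ≤ _
      linarith [a1.1, a2.2, a3.2.1]
    · show ‖u.2 - v.2‖ ≤ _
      linarith [a2.2, a3.1]

end

end Crest.Agent.R91
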