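import Crest.Agent.R91.Defs

/-! Row 91, task E: the finite part. -/

set_option autoImplicit false

open Finset Filter Topology Function

namespace Crest.Agent.R91

namespace FINP

open Classical

/-- The atoms with pattern `σ` and index `n`. -/
noncomputable def TT (J : ℕ) (σ : Tag) (n : ℕ) : (IE →₀ ℝ) →ₗ[ℝ] (ℕ × ℝ →₀ ℝ) :=
  Finsupp.linearCombination ℝ fun i : IE =>
    if (Act i.1 ∧ (i.2.1 : ℕ∞) < i.1 0) ∧ top (J + 1) i.1 = σ ∧ i.2.1 = n then
      Finsupp.single i.2.2 (1 : ℝ) else 0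

/-- A single block. -/
noncomputable def one (n : ℕ) (φ : ℕ → ℝ → ℝ) : Fn := fun n' => if n' = n then φ else 0

theorem pair_TT (J : ℕ) (σ : Tag) (n : ℕ) (φ : ℕ → ℝ → ℝ) :
    pairC φ ∘ₗ TT J σ n = pairE (cut (fun τ => top (J + 1) τ = σ) fun _ => one n φ) := by
  refine Finsupp.lhom_ext' fun i => LinearMap.ext_ring ?_
  obtain ⟨τ, n', l, t⟩ := i
  simp only [pairE, TT, LinearMap.comp_apply, Finsupp.lsingle_apply,
    Finsupp.linearCombination_single, one_smul, valE, cut]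
  by_cases h3 : n' = n
  · subst h3
    by_cases h1 : Act τ ∧ (n' : ℕ∞) < τ 0 <;> by_cases h2 : top (J + 1) τ = σ <;>
      simp [h1, h2, pairC, one]
  · by_cases h1 : Act τ ∧ (n' : ℕ∞) < τ 0 <;> by_cases h2 : top (J + 1) τ = σ <;>
      simp [h1, h2, h3, one]

theorem wt_pos {ω : ℝ} (hω : 0 < ω) (i : ℕ) : 0 < wt ω i := by unfold wt; positivity

theorem wt_anti {ω : ℝ} (hω : 0 < ω) {i j : ℕ} (h : i ≤ j) : wt ω j ≤ wt ω i :=
  div_le_div_of_nonneg_left hω.le (by positivity) (pow_le_pow_right₀ (by norm_num) h)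

theorem bd_cut (B : BasicBd) {m : ℕ} {F : Fam} {τ : Tag} {S : ℝ} (A : Tag → Prop)
    (h : Bd m (F τ) S) : Bd m (cut A F τ) S := by
  unfold cut
  split_ifs
  · exact h
  · exact fun v => B.zero (fun _ _ _ => rfl) (B.nonneg (h v))

theorem inE (B : BasicBd) (E : BasicE) {ω : ℝ} (hω : 0 < ω) (J : ℕ) (σ : Tag) (n : ℕ)
    {φ : ℕ → ℝ → ℝ} (hm : ∀ l, Measurable (φ l))
    (hb : ∀ (v : ℕ → ℝ) (L : ℕ), ∑ l ∈ range L, φ l (v l) ^ 2 ≤ 1) :
    InE ω 1 (2 / wt ω J) (cut (fun τ => top (J + 1) τ = σ) fun _ => one n φ) := by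
  have h1 : ∀ m, Bd m (one n φ) 1 := fun m v =>
    B.of_sq n _ zero_le_one (fun n' hn l => by simp [one, hn]) fun L => by
      simpa [one] using hb (v n) L
  have hw := wt_pos hω J
  refine E.of_fin _ (J + 1) (fun τ n' l => ?_) (fun m τ _ => bd_cut B _ (h1 m))
    (fun m τ i => ?_) fun τ => ?_
  · unfold cut one
    split_ifs with h
    · dsimp only
      split_ifs
      exacts [hm l, measurable_const]
    · exact measurable_const
  · have h0 : 0 ≤ 2 / wt ω J * wt ω i := by have := wt_pos hω i; positivity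
    rcases le_or_gt (J + 1) i with hi | hi
    · exact E.var_const _ h0 fun s s' _ _ => by simp only [cut, E.top_update_ge τ _ hi]
    by_cases hσ : ∃ s₀, update (top (J + 1) τ) i s₀ = σ
    swap
    · push Not at hσ
      exact E.var_const _ h0 fun s s' _ _ => by simp only [cut, E.top_update_lt τ _ hi, hσ, if_false]
    obtain ⟨s₀, rfl⟩ := hσ
    have v0 : Var m τ i (fun _ => one n φ) 0 := E.var_const _ le_rfl fun _ _ _ _ => rfl
    have v1 := E.var_cut (fun τ => τ i ≤ s₀) v0 zero_le_one (fun _ _ => h1 m)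
      (Or.inl fun s s' hs h => by simp only [update_self] at h ⊢; exact hs.trans h)
    have v2 := E.var_cut (fun τ => s₀ ≤ τ i) v1 zero_le_one (fun _ _ => bd_cut B _ (h1 m))
      (Or.inr fun s s' hs h => by simp only [update_self] at h ⊢; exact h.trans hs)
    refine E.var_mono (E.var_congr v2 fun s _ => ?_) ?_
    · simp only [cut, E.top_update_lt τ _ hi, update_self, (update_injective _ _).eq_iff]
      by_cases h : s = s₀
      · simp [h]
      · rw [if_neg h]
        split_ifs with h1 h2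
        exacts [absurd (le_antisymm h2 h1) h, rfl, rfl]
    · rw [div_mul_eq_mul_div, le_div_iff₀ hw]
      linarith [wt_anti hω (Nat.lt_succ_iff.1 hi)]
  · simp only [cut, E.top_top, min_self]

theorem fin_pat (J M : ℕ) :
    {σ : Tag | (∀ i ≤ J, σ i ≤ (M : ℕ∞)) ∧ ∀ i, J < i → σ i = ⊤}.Finite := by
  have h1 : (Set.Iic (M : ℕ∞)).Finite := by
    refine ((Set.finite_Iic M).image (Nat.cast : ℕ → ℕ∞)).subset fun x hx => ?_
    lift x to ℕ using ne_top_of_le_ne_top (ENat.natCast_ne_top M) hx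
    exact ⟨x, by exact_mod_cast (show (x : ℕ∞) ≤ M from hx), rfl⟩
  refine Set.Finite.of_injOn (f := fun (σ : Tag) (i : Fin (J + 1)) => σ i)
    (t := Set.pi Set.univ fun _ : Fin (J + 1) => Set.Iic (M : ℕ∞))
    (fun σ hσ i _ => hσ.1 i (Nat.lt_succ_iff.1 i.2)) (fun σ hσ σ' hσ' h => funext fun i => ?_)
    (Set.Finite.pi fun _ => h1)
  rcases le_or_gt i J with hi | hi
  · exact congrFun h ⟨i, Nat.lt_succ_iff.2 hi⟩
  · rw [hσ.2 i hi, hσ'.2 i hi]

end FINP

open FINP Classical in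
theorem finP (B : BasicBd) (E : BasicE) (hC : Cot) {ω : ℝ} (hω : 0 < ω) : FinP ω := by
  rintro ν ⟨C, hW⟩ J M η hη
  have hw := wt_pos hω J
  have hnull : ∀ σ n, Null CC fun j => TT J σ n (ν j) := by
    intro σ n
    refine hC _ ⟨(1 + 2 / wt ω J) * C, ?_⟩
    rintro s ε hε g ⟨φ, hm, hb, rfl⟩
    obtain ⟨g', hg', h⟩ := E.mem (C' := 1 + 2 / wt ω J) (inE B E hω J σ n hm hb) hω.le
      (le_add_of_nonneg_right (by positivity)) (by linarith) (by positivity)
    have := congrArg (fun L : (IE →₀ ℝ) →ₗ[ℝ] ℝ => L (∑ i ∈ s, ε i • ν i))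
      ((pair_TT J σ n φ).trans h)
    simp only [LinearMap.comp_apply, LinearMap.smul_apply, smul_eq_mul] at this
    rw [map_sum (TT J σ n)] at this
    simp only [map_smul (TT J σ n)] at this
    rw [this]
    exact mul_le_mul_of_nonneg_left (hW s ε hε g' hg') (by positivity)
  set I : Finset (Tag × ℕ) :=
    ((fin_pat J M).toFinset ×ˢ range M).filter fun p => Good (p.2 + 1) p.1 with hI
  have hη' : 0 < η / (I.card + 1) := by positivity
  filter_upwards [(eventually_all_finset I).2 fun p _ => hnull p.1 p.2 _ hη'] with j hj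
  rintro g ⟨G, hG, rfl⟩
  have h1 : pairE (cut (fun τ => τ J ≤ (M : ℕ∞)) fun τ => G (top (J + 1) τ)) =
      ∑ p ∈ I, pairC (G p.1 p.2) ∘ₗ TT J p.1 p.2 := by
    refine Finsupp.lhom_ext' fun i => LinearMap.ext_ring ?_
    obtain ⟨τ, n, l, t⟩ := i
    simp only [pairE, TT, LinearMap.comp_apply, Finsupp.lsingle_apply, LinearMap.sum_apply,
      Finsupp.linearCombination_single, one_smul, valE, cut]
    by_cases hv : Act τ ∧ (n : ℕ∞) < τ 0
    swap
    · simp [hv]
    by_cases hM : τ J ≤ (M : ℕ∞)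
    · have hmem : (top (J + 1) τ, n) ∈ I := by
        refine mem_filter.2 ⟨mem_product.2 ⟨(fin_pat J M).mem_toFinset.2 ⟨fun i hi => ?_,
          fun i hi => ?_⟩, mem_range.2 ?_⟩, E.good_top _ ⟨hv.1.1, ?_⟩⟩
        · exact (if_pos (Nat.lt_succ_iff.2 hi)).trans_le ((hv.1.1 hi).trans hM)
        · exact if_neg (by omega)
        · exact_mod_cast hv.2.trans_le ((hv.1.1 (Nat.zero_le J)).trans hM)
        · exact_mod_cast Order.add_one_le_of_lt hv.2
      rw [sum_eq_single_of_mem _ hmem]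
      · simp [hv, hM, pairC]
      · rintro ⟨σ, n'⟩ _ hne
        rw [if_neg, map_zero]
        rintro ⟨-, rfl, rfl⟩
        exact hne rfl
    · rw [sum_eq_zero]
      · simp [hM]
      · rintro ⟨σ, n'⟩ hp
        rw [if_neg, map_zero]
        rintro ⟨-, rfl, -⟩
        have := ((fin_pat J M).mem_toFinset.1 (mem_product.1 (mem_filter.1 hp).1).1).1 J le_rfl
        exact hM ((if_pos (Nat.lt_succ_self J)).symm.trans_le this)
  rw [h1, LinearMap.sum_apply]
  have h2 : ∀ p ∈ I, (pairC (G p.1 p.2) ∘ₗ TT J p.1 p.2) (ν j) ≤ η / (I.card + 1) := fun p hp =>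
    hj p hp _ ⟨G p.1 p.2, hG.meas _ _, fun v L => by
      simpa using B.sq p.2 L (hG.cap _ _ (mem_filter.1 hp).2 fun _ => v) (Nat.lt_succ_self _), rfl⟩
  refine (sum_le_card_nsmul _ _ _ h2).trans ?_
  rw [nsmul_eq_mul, ← mul_div_assoc, div_le_iff₀ (by positivity)]
  nlinarith

end Crest.Agent.R91
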