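import Crest.Agent.R91.JLib

/-! Task R of row 91: `glob`. -/

set_option autoImplicit false
set_option linter.unusedSectionVars false

open Finset Filter Topology Function

namespace Crest.Agent.R91

open Classical JL

variable {ε : ℝ}

namespace Glb

/-- points of the segment -/
noncomputable def seg (x y : Cfg) (t : ℝ) : Cfg :=
  ⟨fun n => (1 - t) • x.a n + t • y.a n, fun n => (1 - t) • x.a' n + t • y.a' n,
    fun n => (1 - t) * x.σ n + t * y.σ n⟩

theorem seg_zero (x y : Cfg) : seg x y 0 = x := by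
  cases x; simp [seg]

theorem seg_one (x y : Cfg) : seg x y 1 = y := by
  cases y; simp [seg]

theorem norm_comb (a b : H) {t r s : ℝ} (h0 : 0 ≤ t) (h1 : t ≤ 1) (ha : ‖a‖ ≤ 4 * r)
    (hb : ‖b‖ ≤ 4 * s) : ‖(1 - t) • a + t • b‖ ≤ 4 * ((1 - t) * r + t * s) := by
  refine (norm_add_le _ _).trans ?_
  rw [norm_smul, norm_smul, Real.norm_eq_abs, Real.norm_eq_abs, abs_of_nonneg h0,
    abs_of_nonneg (by linarith : 0 ≤ 1 - t)]
  nlinarith

theorem seg_dom {Λ : ℝ} {x y : Cfg} (hx : Dom Λ x) (hy : Dom Λ y) {t : ℝ} (h0 : 0 ≤ t)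
    (h1 : t ≤ 1) : Dom Λ (seg x y t) := by
  refine ⟨⟨fun n => ⟨norm_comb _ _ h0 h1 (hx.1.1 n).1 (hy.1.1 n).1,
    norm_comb _ _ h0 h1 (hx.1.1 n).2 (hy.1.1 n).2⟩, ?_⟩, fun n => ?_⟩
  · have := (hx.1.2.const_mul (1 - t)).add (hy.1.2.const_mul t)
    simpa [seg] using this
  · have := hx.2 n
    have := hy.2 n
    simp only [seg]
    nlinarith

theorem norm_diff (a b : H) {t h d : ℝ} (h0 : 0 ≤ h) (hd : ‖a - b‖ ≤ d) :
    ‖((1 - t) • a + t • b) - ((1 - (t + h)) • a + (t + h) • b)‖ ≤ h * d := by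
  have : ((1 - t) • a + t • b) - ((1 - (t + h)) • a + (t + h) • b) = h • (a - b) := by
    module
  rw [this, norm_smul, Real.norm_eq_abs, abs_of_nonneg h0]
  exact mul_le_mul_of_nonneg_left hd h0

theorem seg_near {x y : Cfg} {δ : ℝ} (hn : Near x y δ) (t : ℝ) {h : ℝ} (h0 : 0 ≤ h) :
    Near (seg x y t) (seg x y (t + h)) (h * δ) := by
  intro n
  refine ⟨norm_diff _ _ h0 (hn n).1, norm_diff _ _ h0 (hn n).2.1, ?_⟩
  simp only [seg]
  have : (1 - t) * x.σ n + t * y.σ n - ((1 - (t + h)) * x.σ n + (t + h) * y.σ n) =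
      h * (x.σ n - y.σ n) := by ring
  rw [this, abs_mul, abs_of_nonneg h0]
  exact mul_le_mul_of_nonneg_left (hn n).2.2 h0

theorem seg_Dm (hL : LawB) {x y : Cfg} (hx : Valid x) (hy : Valid y) {t r : ℝ} {N : ℕ}
    (h0 : 0 ≤ t) (h1 : t ≤ 1) (dx : Dm x.σ N ≤ r) (dy : Dm y.σ N ≤ r) :
    Dm (seg x y t).σ N ≤ r := by
  refine hL.Dm_le N r fun n hn => ?_
  have a1 := (hL.le_Dm n N hx.2 hn).trans dx
  have a2 := (hL.le_Dm n N hy.2 hn).trans dy
  simp only [seg]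
  nlinarith

theorem sum_eps (ε : ℝ) (hε : 0 ≤ ε) (K : ℕ) : ∑ k ∈ range K, ε / 2 ^ (k + 1) ≤ ε := by
  have : ∀ J : ℕ, ∑ s ∈ range J, ε / 2 ^ (s + 1) = ε - ε / 2 ^ J := by
    intro J
    induction J with
    | zero => simp
    | succ J ih => rw [sum_range_succ, ih]; field_simp; ring
  rw [this]
  have : 0 ≤ ε / 2 ^ K := by positivity
  linarith

theorem eps_nonneg (P : Par ε) : 0 ≤ ε := by
  have h := P.err 0
  have h1 := P.e_nonneg 0
  have h2 := P.ω_pos 0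
  have h3 := P.T_pos 0
  have h4 := P.T'_pos 0
  have h5 := P.Lc_nonneg 0
  have h6 := P.one_le_Cn 0
  have : 0 ≤ 8 * P.e 0 + 256 * P.ω 0 * P.T 0 / P.T' 0 + 4 * P.Lc 0 * P.Cn 0 * P.T 0 := by
    positivity
  norm_num at h
  linarith

theorem loc_est (P : Par ε) (hMT : MainT P) (hTh : ErrTh P) (hLaw : ErrLaw P) (hPi : ErrPi P)
    (ψ : ℕ → Cell → Fam) (hψ : InK P 1 ψ) (u w : Cfg) (δ δa : ℝ) (hδ : 0 ≤ δ) (K N : ℕ)
    (hloc : ∀ k < K, Loc P u w δ k N) (ha : ∀ n, ‖u.a n - w.a n‖ ≤ δa) :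
    ∑ k ∈ range K, AA P ψ k N u u u u - ∑ k ∈ range K, AA P ψ k N w w w w ≤ δa + ε * δ := by
  have h1 := hMT ψ hψ u w δ δa K N hloc ha
  have h2 : ∑ k ∈ range K, (AA P ψ k N u u u w - AA P ψ k N w w w w) ≤
      ∑ k ∈ range K, ε / 2 ^ (k + 1) * δ := by
    refine sum_le_sum fun k hk => ?_
    have L := hloc k (mem_range.1 hk)
    have a1 := hTh ψ hψ u w δ k N L
    have a2 := hLaw ψ hψ u w δ k N L
    have a3 := hPi ψ hψ u w δ k N L
    have a4 := mul_le_mul_of_nonneg_right (P.err k) hδ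
    linarith
  rw [← sum_mul] at h2
  have h3 := mul_le_mul_of_nonneg_right (sum_eps ε (eps_nonneg P) K) hδ
  rw [sum_sub_distrib] at h1 h2
  linarith

end Glb

open Glb

theorem glob (hL : LawB) (P : Par ε) (hJ : JPair P) (hMT : MainT P) (hTh : ErrTh P)
    (hLaw : ErrLaw P) (hPi : ErrPi P) : Glob P := by
  intro x y δ δa hx hy hn ha K
  have hδ := near_nonneg hn
  have e1 : ∀ z : Cfg, Valid z → ∀ᶠ N in atTop, ∀ k ∈ range K, Dm z.σ N ≤ P.T' k / 16 :=
    fun z hz => (eventually_all_finset _).2 fun k _ =>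
      (hL.Dm_tend hz.2).eventually (ge_mem_nhds (by have := P.T'_pos k; positivity))
  filter_upwards [e1 x hx.1, e1 y hy.1] with N dx dy g hg
  obtain ⟨ψ, hψ, rfl⟩ := hg
  rw [map_sub, map_sum, map_sum]
  simp only [hJ ψ]
  have ht : Tendsto (fun r : ℕ => 1 / ((r : ℝ) + 1) * δ) atTop (𝓝 0) := by
    simpa using (tendsto_one_div_add_atTop_nhds_zero_nat (𝕜 := ℝ)).mul_const δ
  have e2 : ∀ᶠ r : ℕ in atTop, ∀ k ∈ range K, 1 / ((r : ℝ) + 1) * δ ≤ P.ρ k ∧
      1 / ((r : ℝ) + 1) * δ ≤ P.T' k / (64 * 2 ^ N) :=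
    (eventually_all_finset _).2 fun k _ =>
      (ht.eventually (ge_mem_nhds (P.ρ_pos k))).and
        (ht.eventually (ge_mem_nhds (by have := P.T'_pos k; positivity)))
  obtain ⟨r, hr⟩ := e2.exists
  set h : ℝ := 1 / ((r : ℝ) + 1) with hh
  have h0 : 0 ≤ h := by positivity
  have hr1 : ((r : ℝ) + 1) * h = 1 := by rw [hh]; field_simp
  set f : ℕ → ℝ := fun j => ∑ k ∈ range K,
    AA P ψ k N (seg x y (j * h)) (seg x y (j * h)) (seg x y (j * h)) (seg x y (j * h)) with hf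
  have step : ∀ j ∈ range (r + 1), f j - f (j + 1) ≤ h * δa + ε * (h * δ) := by
    intro j hj
    have hj' : (j : ℝ) + 1 ≤ r + 1 := by
      have := mem_range.1 hj
      exact_mod_cast this
    have t0 : 0 ≤ (j : ℝ) * h := by positivity
    have t2 : (j : ℝ) * h + h ≤ 1 := by nlinarith
    have t1 : (j : ℝ) * h ≤ 1 := by linarith
    have e : ((j + 1 : ℕ) : ℝ) * h = j * h + h := by push_cast; ring
    simp only [hf, e]
    refine loc_est P hMT hTh hLaw hPi ψ hψ _ _ _ _ (mul_nonneg h0 hδ) K N (fun k hk => ?_)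
      (fun n => norm_diff _ _ h0 (ha n))
    have hk' := mem_range.2 hk
    exact ⟨seg_dom hx hy t0 t1, seg_dom hx hy (by linarith) t2, seg_near hn _ h0, (hr k hk').1,
      (hr k hk').2, seg_Dm hL hx.1 hy.1 t0 t1 (dx k hk') (dy k hk'),
      seg_Dm hL hx.1 hy.1 (by linarith) t2 (dx k hk') (dy k hk')⟩
  have tel := sum_le_sum step
  rw [sum_range_sub', sum_const, card_range, nsmul_eq_mul] at tel
  have f0 : f 0 = ∑ k ∈ range K, AA P ψ k N x x x x := by
    simp only [hf, Nat.cast_zero, zero_mul, seg_zero]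
  have f1 : f (r + 1) = ∑ k ∈ range K, AA P ψ k N y y y y := by
    have : ((r + 1 : ℕ) : ℝ) * h = 1 := by push_cast; exact hr1
    simp only [hf, this, seg_one]
  rw [f0, f1] at tel
  refine tel.trans (le_of_eq ?_)
  push_cast
  linear_combination (δa + ε * δ) * hr1

end Crest.Agent.R91
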