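import Crest.Agent.R91.Defs

set_option autoImplicit false
set_option linter.unusedSectionVars false

open Finset Filter Topology Function MeasureTheory

namespace Crest.Agent.R91

namespace KF

open Classical

theorem lc_eq {ι : Type} (g : ι → ℝ) (ν : ι →₀ ℝ) :
    Finsupp.linearCombination ℝ g ν = ∑ i ∈ ν.support, ν i * g i := by
  rw [Finsupp.linearCombination_apply, Finsupp.sum]; rfl

theorem valE_zero (i : IE) : valE 0 i = 0 := by
  unfold valE; split_ifs <;> simp

theorem valE_smul (c : ℝ) (F : Fam) (i : IE) : valE (c • F) i = c * valE F i := by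
  unfold valE
  split_ifs
  · simp only [Pi.smul_apply, smul_eq_mul]
    exact intervalIntegral.integral_const_mul c _
  · simp

theorem sum_half (a J : ℕ) : ∑ k ∈ Ico a J, (1 : ℝ) / 2 ^ k ≤ 2 / 2 ^ a := by
  by_cases h : a ≤ J
  · have : ∀ J, a ≤ J → ∑ k ∈ Ico a J, (1 : ℝ) / 2 ^ k = 2 / 2 ^ a - 2 / 2 ^ J := by
      intro J hJ
      induction J, hJ using Nat.le_induction with
      | base => simp
      | succ J hJ ih => rw [sum_Ico_succ_top hJ, ih]; field_simp; ring
    rw [this J h]
    have : (0 : ℝ) ≤ 2 / 2 ^ J := by positivity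
    linarith
  · rw [Ico_eq_empty (by omega), sum_empty]; positivity

/-- the atoms of one cell -/
noncomputable def proj (k : ℕ) (q : Cell) : (IK →₀ ℝ) →ₗ[ℝ] (IE →₀ ℝ) :=
  Finsupp.linearCombination ℝ
    (fun i : IK => if i.1 = k ∧ i.2.1 = q then Finsupp.single i.2.2 (1 : ℝ) else 0)

theorem pair_proj (F : Fam) (k : ℕ) (q : Cell) (ν : IK →₀ ℝ) :
    pairE F (proj k q ν) =
      ∑ i ∈ ν.support, ν i * (if i.1 = k ∧ i.2.1 = q then valE F i.2.2 else 0) := by
  unfold proj
  rw [Finsupp.linearCombination_apply, Finsupp.sum, map_sum]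
  refine sum_congr rfl fun i _ => ?_
  rw [map_smul, smul_eq_mul]
  split_ifs
  · unfold pairE; rw [Finsupp.linearCombination_single, one_smul]
  · simp

variable {ε : ℝ} (P : Par ε)

theorem cell_null (hF : ∀ ω : ℝ, 0 < ω → EFree ω) (hK : BasicK P) {ν : ℕ → IK →₀ ℝ}
    (hW : Wuc (KK P) ν) (k : ℕ) {q : Cell} (hq : q ∈ P.Q k) :
    Null (EE (P.ω k)) (fun j => proj k q (ν j)) := by
  refine hF _ (P.ω_pos k) _ ?_
  obtain ⟨C, hC⟩ := hW
  refine ⟨C, fun s e he g hg => ?_⟩
  obtain ⟨F, hF, rfl⟩ := hg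
  have h1 := hC s e he _ ⟨_, hK.single k q hF, rfl⟩
  have h2 : ∑ i ∈ s, e i • proj k q (ν i) = proj k q (∑ i ∈ s, e i • ν i) := by
    simp [map_sum]
  rw [h2, pair_proj]
  refine le_of_eq_of_le ?_ h1
  unfold pairK
  rw [lc_eq]
  refine sum_congr rfl fun i _ => ?_
  congr 1
  unfold valK
  beta_reduce
  by_cases h : i.1 = k ∧ i.2.1 = q
  · rw [if_pos h, if_pos (by rw [h.1, h.2]; exact hq), if_pos h]
  · rw [if_neg h, if_neg h, valE_zero]; simp

theorem low_null (hE : BasicE) (hF : ∀ ω : ℝ, 0 < ω → EFree ω) (hK : BasicK P)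
    {ν : ℕ → IK →₀ ℝ} (hW : Wuc (KK P) ν) (κ : ℕ) (η : ℝ) (hη : 0 < η) :
    ∀ᶠ j in atTop, ∀ ψ, InK P 1 ψ →
      ∑ i ∈ (ν j).support, ν j i * (if i.1 < κ then valK P ψ i else 0) ≤ η := by
  set N : ℝ := ∑ k ∈ range κ, ((P.Q k).card : ℝ) with hN
  have hN0 : 0 ≤ N := sum_nonneg fun _ _ => by positivity
  have h1 : ∀ᶠ j in atTop, ∀ k ∈ range κ, ∀ q ∈ P.Q k, ∀ g ∈ EE (P.ω k),
      g (proj k q (ν j)) ≤ η / (N + 1) := by
    rw [eventually_all_finset]
    intro k _
    rw [eventually_all_finset]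
    intro q hq
    exact cell_null P hF hK hW k hq _ (by positivity)
  filter_upwards [h1] with j hj ψ hψ
  obtain ⟨S, hS1, hS2, -, -⟩ := hψ
  have h2 : ∑ i ∈ (ν j).support, ν j i * (if i.1 < κ then valK P ψ i else 0) =
      ∑ k ∈ range κ, ∑ q ∈ P.Q k, pairE (ψ k q) (proj k q (ν j)) := by
    simp only [pair_proj]
    rw [eq_comm]
    calc ∑ k ∈ range κ, ∑ q ∈ P.Q k, ∑ i ∈ (ν j).support,
            ν j i * (if i.1 = k ∧ i.2.1 = q then valE (ψ k q) i.2.2 else 0)
        = ∑ k ∈ range κ, ∑ i ∈ (ν j).support, ∑ q ∈ P.Q k,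
            ν j i * (if i.1 = k ∧ i.2.1 = q then valE (ψ k q) i.2.2 else 0) :=
          sum_congr rfl fun k _ => sum_comm
      _ = ∑ i ∈ (ν j).support, ∑ k ∈ range κ, ∑ q ∈ P.Q k,
            ν j i * (if i.1 = k ∧ i.2.1 = q then valE (ψ k q) i.2.2 else 0) := sum_comm
      _ = _ := by
          refine sum_congr rfl fun i _ => ?_
          simp only [← mul_sum]
          congr 1
          have e1 : ∀ k, ∑ q ∈ P.Q k, (if i.1 = k ∧ i.2.1 = q then valE (ψ k q) i.2.2 else 0) =
              if i.1 = k then valK P ψ i else 0 := by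
            intro k
            by_cases hk : i.1 = k
            · subst hk
              simp only [true_and, if_true]
              rw [sum_ite_eq]
              rfl
            · simp [hk]
          simp only [e1]
          rw [sum_ite_eq]
          simp
  rw [h2]
  calc ∑ k ∈ range κ, ∑ q ∈ P.Q k, pairE (ψ k q) (proj k q (ν j))
      ≤ ∑ k ∈ range κ, ∑ q ∈ P.Q k, η / (N + 1) := by
        refine sum_le_sum fun k hk => sum_le_sum fun q hq => ?_
        exact hj k hk q hq _ ⟨_, hE.mono (hS1 k q) (P.ω_pos k).le (hS2 k q) le_rfl, rfl⟩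
    _ = N * (η / (N + 1)) := by
        simp only [sum_const, nsmul_eq_mul]
        rw [hN, sum_mul]
    _ ≤ η := by
        clear_value N
        rw [mul_div_assoc', div_le_iff₀ (by linarith)]
        nlinarith

theorem exists_block (κ : ℕ → ℕ) (hκ : StrictMono κ) (h0 : κ 0 = 0) :
    ∃ β : ℕ → ℕ, ∀ k s, β k < s ↔ k < κ s := by
  have hex : ∀ k, ∃ s, k < κ (s + 1) := fun k =>
    ⟨k, lt_of_lt_of_le (Nat.lt_succ_self k) (hκ.id_le (k + 1))⟩
  refine ⟨fun k => Nat.find (hex k), fun k s => ?_⟩
  constructor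
  · intro h
    have := Nat.find_spec (hex k)
    exact lt_of_lt_of_le this (hκ.monotone h)
  · intro h
    rcases s with _ | s
    · omega
    · exact Nat.lt_succ_of_le (Nat.find_min' _ h)

/-- loss caused by removing a set of small measure -/
theorem loss (hB : BasicBd) (hE : BasicE) {ω S C : ℝ} {F : Fam} (hF : InE ω S C F) (hS : S ≤ 1)
    (A : ℕ → ℕ → ℝ → Prop) (hA : ∀ n l, MeasurableSet {t | A n l t}) (i : IE) (U : Set ℝ)
    (hU : MeasurableSet U) (hU' : volume U ≠ ⊤) (hAU : ∀ t, A i.2.1 i.2.2.1 t ↔ t ∉ U) :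
    |valE F i - valE (fun τ => mask A (F τ)) i| ≤ volume.real U := by
  unfold valE
  split_ifs with h
  · rw [← intervalIntegral.integral_sub (hE.itg hF _ _ _ h.1 h.2 _ _)
      (hE.itg (hE.mask A hA hF) _ _ _ h.1 h.2 _ _)]
    have e : (fun s => F i.1 i.2.1 i.2.2.1 s - mask A (F i.1) i.2.1 i.2.2.1 s) =
        U.indicator (F i.1 i.2.1 i.2.2.1) := by
      funext s
      unfold mask
      by_cases hs : s ∈ U
      · rw [if_neg (by rw [hAU]; simpa using hs), Set.indicator_of_mem hs, sub_zero]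
      · rw [if_pos ((hAU s).2 hs), Set.indicator_of_notMem hs, sub_self]
    rw [e, ← Real.norm_eq_abs, intervalIntegral.norm_integral_eq_norm_integral_uIoc,
      setIntegral_indicator hU]
    have hg : Good (i.2.1 + 1) i.1 := ⟨h.1.1, by
      push_cast
      exact Order.add_one_le_of_lt h.2⟩
    have hfin : volume (Set.uIoc 0 i.2.2.2 ∩ U) < ⊤ :=
      lt_of_le_of_lt (measure_mono Set.inter_subset_right) hU'.lt_top
    refine (norm_setIntegral_le_of_norm_le_const (C := 1) hfin fun x _ => ?_).trans ?_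
    · exact (hB.pt _ _ x (hF.cap _ _ hg) (Nat.lt_succ_self _)).trans hS
    · rw [one_mul]
      exact measureReal_mono Set.inter_subset_right hU'
  · simp

/-- bad cells -/
noncomputable def bad (S : ℕ → Cell → ℝ) (k : ℕ) : Finset Cell :=
  (P.Q k).filter (fun q => 1 / 2 ^ k < S k q)

/-- the removed set -/
def UU (S : ℕ → Cell → ℝ) (a b n l : ℕ) : Set ℝ :=
  ⋃ k ∈ Ico a b, ⋃ q ∈ bad P S k, ⋃ c : Bool, Metric.closedBall (q n l c) (2 * P.ρ k)

theorem UU_meas (S : ℕ → Cell → ℝ) (a b n l : ℕ) : MeasurableSet (UU P S a b n l) :=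
  Finset.measurableSet_biUnion _ fun _ _ => Finset.measurableSet_biUnion _ fun _ _ =>
    MeasurableSet.iUnion fun _ => Metric.isClosed_closedBall.measurableSet

theorem UU_fin (S : ℕ → Cell → ℝ) (a b n l : ℕ) : volume (UU P S a b n l) ≠ ⊤ := by
  refine Bornology.IsBounded.measure_lt_top ?_ |>.ne
  unfold UU
  rw [Bornology.isBounded_biUnion_finset]
  intro k _
  rw [Bornology.isBounded_biUnion_finset]
  intro q _
  rw [Bornology.isBounded_iUnion]
  intro c
  exact Metric.isBounded_closedBall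

theorem UU_vol (S : ℕ → Cell → ℝ) (h0 : ∀ k q, 0 ≤ S k q) (h1 : ∀ k, ∑ q ∈ P.Q k, S k q ≤ P.Cn k)
    (a b n l : ℕ) : volume.real (UU P S a b n l) ≤ 16 / 2 ^ a := by
  have hc : ∀ k, ((bad P S k).card : ℝ) * (1 / 2 ^ k) ≤ P.Cn k := by
    intro k
    calc ((bad P S k).card : ℝ) * (1 / 2 ^ k) = ∑ q ∈ bad P S k, (1 : ℝ) / 2 ^ k := by
          rw [sum_const, nsmul_eq_mul]
      _ ≤ ∑ q ∈ bad P S k, S k q := sum_le_sum fun q hq => (mem_filter.1 hq).2.le
      _ ≤ ∑ q ∈ P.Q k, S k q :=
          sum_le_sum_of_subset_of_nonneg (filter_subset _ _) fun q _ _ => h0 k q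
      _ ≤ P.Cn k := h1 k
  refine (measureReal_biUnion_finset_le _ _).trans ?_
  calc ∑ k ∈ Ico a b, volume.real (⋃ q ∈ bad P S k, ⋃ c : Bool,
          Metric.closedBall (q n l c) (2 * P.ρ k))
      ≤ ∑ k ∈ Ico a b, 8 * ((1 : ℝ) / 2 ^ k) := by
        refine sum_le_sum fun k _ => (measureReal_biUnion_finset_le _ _).trans ?_
        have hρ := P.ρ_pos k
        calc ∑ q ∈ bad P S k, volume.real (⋃ c : Bool, Metric.closedBall (q n l c) (2 * P.ρ k))
            ≤ ∑ q ∈ bad P S k, 8 * P.ρ k := by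
              refine sum_le_sum fun q _ => (measureReal_iUnion_fintype_le _).trans ?_
              simp only [Real.volume_real_closedBall (show 0 ≤ 2 * P.ρ k by positivity)]
              simp
              linarith
          _ = 8 * (P.ρ k * (bad P S k).card) := by rw [sum_const, nsmul_eq_mul]; ring
          _ ≤ 8 * ((1 : ℝ) / 2 ^ k) := by
              have e1 := hc k
              have e2 := P.ρ_small k
              have e3 : (4 : ℝ) ^ k = 2 ^ k * 2 ^ k := by rw [← mul_pow]; norm_num
              have e4 : (0 : ℝ) < 2 ^ k := by positivity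
              rw [mul_one_div, div_le_iff₀ e4] at e1
              refine mul_le_mul_of_nonneg_left ?_ (by norm_num)
              rw [le_div_iff₀ e4]
              rw [e3] at e2
              have := mul_le_mul_of_nonneg_left e1 (mul_pos hρ e4).le
              nlinarith
    _ ≤ 16 / 2 ^ a := by
        rw [← mul_sum]
        have := sum_half a b
        have e : (16 : ℝ) / 2 ^ a = 8 * (2 / 2 ^ a) := by ring
        rw [e]; linarith

end KF

open KF Classical in
theorem kFree (hB : BasicBd) (hE : BasicE) (hS : Sel) (hF : ∀ ω : ℝ, 0 < ω → EFree ω) {ε : ℝ}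
    (P : Par ε) (hK : BasicK P) : KFree P := by
  intro ν hW
  by_contra hN
  unfold Null at hN
  push Not at hN
  obtain ⟨η, hη, hfr⟩ := hN
  have step : ∀ (κ j0 : ℕ), ∃ (j : ℕ) (ψ : ℕ → Cell → Fam) (κ' : ℕ), j0 ≤ j ∧ InK P 1 ψ ∧ κ < κ' ∧
      (∀ i ∈ (ν j).support, i.1 < κ' ∧ i.2.2.2.1 < κ' ∧ i.2.2.2.2.1 < κ') ∧
      16 / 2 ^ κ' * ∑ i ∈ (ν j).support, |ν j i| ≤ η / 4 ∧
      η / 2 ≤ ∑ i ∈ (ν j).support, ν j i * (if κ ≤ i.1 then valK P ψ i else 0) := by
    intro κ j0
    have h1 := low_null P hE hF hK hW κ (η / 2) (by positivity)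
    obtain ⟨j, ⟨g, ⟨ψ, hψ, rfl⟩, hg⟩, hj1, hj2⟩ :=
      (hfr.and_eventually (h1.and (eventually_ge_atTop j0))).exists
    have t1 : Tendsto (fun r : ℕ => 16 / (2 : ℝ) ^ r * ∑ i ∈ (ν j).support, |ν j i|) atTop (𝓝 0) := by
      have h0 : Tendsto (fun r : ℕ => ((1 : ℝ) / 2) ^ r) atTop (𝓝 0) :=
        tendsto_pow_atTop_nhds_zero_of_lt_one (by norm_num) (by norm_num)
      have := (h0.const_mul 16).mul_const (∑ i ∈ (ν j).support, |ν j i|)
      simp only [mul_zero, zero_mul] at this
      refine this.congr (fun r => ?_)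
      rw [one_div, inv_pow, div_eq_mul_inv]
    have t2 : ∀ᶠ r in atTop, ∀ i ∈ (ν j).support,
        i.1 < r ∧ i.2.2.2.1 < r ∧ i.2.2.2.2.1 < r := by
      rw [eventually_all_finset]
      intro i _
      exact (eventually_gt_atTop _).and ((eventually_gt_atTop _).and (eventually_gt_atTop _))
    obtain ⟨κ', a1, a2, a3⟩ := ((t1.eventually (ge_mem_nhds (show (0 : ℝ) < η / 4 by positivity))).and
      (t2.and (eventually_gt_atTop κ))).exists
    refine ⟨j, ψ, κ', hj2, hψ, a3, a2, a1, ?_⟩
    have e1 := hj1 ψ hψ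
    unfold pairK at hg
    rw [lc_eq] at hg
    have e2 : ∑ i ∈ (ν j).support, ν j i * valK P ψ i =
        ∑ i ∈ (ν j).support, ν j i * (if i.1 < κ then valK P ψ i else 0) +
        ∑ i ∈ (ν j).support, ν j i * (if κ ≤ i.1 then valK P ψ i else 0) := by
      rw [← sum_add_distrib]
      refine sum_congr rfl fun i _ => ?_
      by_cases h : i.1 < κ
      · rw [if_pos h, if_neg (by omega)]; ring
      · rw [if_neg h, if_pos (by omega)]; ring
    linarith
  choose fj fψ fκ h1 h2 h3 h4 h5 h6 using step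
  let st : ℕ → ℕ × ℕ := fun s => Nat.rec (0, 0) (fun _ x => (fκ x.1 x.2, fj x.1 x.2 + 1)) s
  let κ : ℕ → ℕ := fun s => (st s).1
  let j : ℕ → ℕ := fun s => fj (st s).1 (st s).2
  let ψ : ℕ → ℕ → Cell → Fam := fun s => fψ (st s).1 (st s).2
  have hj : StrictMono j := strictMono_nat_of_lt_succ fun s => h1 (st (s + 1)).1 (st (s + 1)).2
  have hκ : StrictMono κ := strictMono_nat_of_lt_succ fun s => h3 _ _
  have hψ : ∀ s, InK P 1 (ψ s) := fun s => h2 _ _
  have g4 : ∀ s, ∀ i ∈ (ν (j s)).support,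
      i.1 < κ (s + 1) ∧ i.2.2.2.1 < κ (s + 1) ∧ i.2.2.2.2.1 < κ (s + 1) := fun s => h4 _ _
  have g5 : ∀ s, 16 / 2 ^ κ (s + 1) * ∑ i ∈ (ν (j s)).support, |ν (j s) i| ≤ η / 4 :=
    fun s => h5 _ _
  have g6 : ∀ s, η / 2 ≤ ∑ i ∈ (ν (j s)).support,
      ν (j s) i * (if κ s ≤ i.1 then valK P (ψ s) i else 0) := fun s => h6 _ _
  obtain ⟨β, hβ⟩ := exists_block κ hκ rfl
  clear_value j κ ψ
  clear h1 h2 h3 h4 h5 h6
  choose S hS1 hS2 hS3 hS4 using hψ
  have hS0 : ∀ s k q, 0 ≤ S s k q := fun s k q =>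
    hB.nonneg ((hS1 s k q).cap 0 (fun _ => 0) ⟨monotone_const, by simp⟩ (fun _ _ => 0))
  let S' : ℕ → Cell → ℝ := fun k q => S (β k) k q
  refine hS _ (KK P) ν j (η / 4) 3 hW hj.injective (by positivity) (by norm_num) fun J => ?_
  let A : ℕ → ℕ → ℕ → ℝ → Prop := fun s n l t =>
    n < κ (s + 1) ∧ l < κ (s + 1) ∧ t ∉ UU P S' (κ (s + 1)) (κ J) n l
  have hA : ∀ s n l, MeasurableSet {t | A s n l t} := by
    intro s n l
    by_cases h : n < κ (s + 1) ∧ l < κ (s + 1)
    · have : {t | A s n l t} = (UU P S' (κ (s + 1)) (κ J) n l)ᶜ := by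
        ext t; simp [A, h.1, h.2]
      rw [this]; exact (UU_meas P _ _ _ _ _).compl
    · have : {t | A s n l t} = ∅ := by
        ext t; simp only [A, Set.mem_ofPred_eq, Set.mem_empty_iff_false, iff_false]
        exact fun h' => h ⟨h'.1, h'.2.1⟩
      rw [this]; exact MeasurableSet.empty
  let mk : ℕ → ℕ → Cell → Fam := fun s k q τ => mask (A s) (ψ s k q τ)
  refine ⟨fun s => pairK P (fun k q => if β k = s then mk s k q else 0), fun s _ => ?_,
    fun e he => ?_⟩
  · -- value
    have hv := UU_vol P S' (fun k q => hS0 _ k q) (fun k => by simpa using hS3 (β k) k)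
      (κ (s + 1)) (κ J)
    have e1 := g5 s
    have e2 := g6 s
    unfold pairK
    rw [lc_eq]
    have e3 : ∑ i ∈ (ν (j s)).support, ν (j s) i * (if κ s ≤ i.1 then valK P (ψ s) i else 0) -
        ∑ i ∈ (ν (j s)).support, ν (j s) i *
          valK P (fun k q => if β k = s then mk s k q else 0) i ≤
        16 / 2 ^ κ (s + 1) * ∑ i ∈ (ν (j s)).support, |ν (j s) i| := by
      rw [← sum_sub_distrib, mul_sum]
      refine sum_le_sum fun i hi => ?_
      rw [← mul_sub]
      refine (le_abs_self _).trans ?_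
      rw [abs_mul, mul_comm]
      refine mul_le_mul_of_nonneg_right ?_ (abs_nonneg _)
      obtain ⟨b1, b2, b3⟩ := g4 s i hi
      unfold valK
      beta_reduce
      by_cases hq : i.2.1 ∈ P.Q i.1
      · rw [if_pos hq, if_pos hq]
        by_cases hk : κ s ≤ i.1
        · have hb : β i.1 = s := by
            have c1 := (hβ i.1 (s + 1)).2 b1
            have c2 := mt (hβ i.1 s).1 (by omega)
            omega
          rw [if_pos hk, if_pos hb]
          refine (loss hB hE (hS1 s _ _) (hS2 s _ _) (A s) (hA s) i.2.2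
            (UU P S' (κ (s + 1)) (κ J) i.2.2.2.1 i.2.2.2.2.1) (UU_meas P _ _ _ _ _)
            (UU_fin P _ _ _ _ _) (fun t => ?_)).trans (hv _ _)
          simp only [A, b2, b3, true_and]
        · have hb : β i.1 ≠ s := by
            have c2 := (hβ i.1 s).2 (by omega)
            omega
          rw [if_neg hk, if_neg hb, valE_zero, sub_zero, abs_zero]
          positivity
      · rw [if_neg hq, if_neg hq]
        simp only [ite_self, sub_zero, abs_zero]
        positivity
    linarith
  · -- membership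
    have he' : ∀ s, |e s| = 1 := fun s => by rcases he s with h | h <;> simp [h]
    let f : ℕ → Cell → Fam := fun k q => if β k < J then e (β k) • mk (β k) k q else 0
    have hf : InK P 3 f := by
      refine ⟨S', fun k q => ?_, fun k q => (hS2 _ k q).trans (by norm_num), fun k => ?_,
        fun v => ?_⟩
      · simp only [f]
        split_ifs
        · have := hE.smul (e (β k)) (hE.mask (A (β k)) (hA _) (hS1 (β k) k q))
          rw [he', one_mul, one_mul] at this
          exact hE.mono this (P.ω_pos k).le le_rfl (by norm_num)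
        · exact hE.zero (P.ω_pos k).le (hS0 _ k q) (by norm_num)
      · have := hS3 (β k) k
        have := P.one_le_Cn k
        simp only [S']
        linarith
      · have hstar : ∃ s0 : ℕ, ∀ k, β k < J → ∀ q ∈ P.Q k, Compat P k q v →
            (β k < s0 → ∀ n l, ¬ A (β k) n l (v n l)) ∧ (s0 < β k → S' k q ≤ 1 / 2 ^ k) := by
          by_cases hex : ((range (κ J)).filter
              (fun k => ∃ q ∈ bad P S' k, Compat P k q v)).Nonempty
          · obtain ⟨k0, hk0, hmax⟩ := exists_max_image _ id hex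
            obtain ⟨hk0J, q0, hq0, hc0⟩ := mem_filter.1 hk0
            refine ⟨β k0, fun k hk q hq hc => ⟨fun hlt n l hAn => ?_, fun hlt => ?_⟩⟩
            · obtain ⟨d1, d2, d3⟩ := hAn
              have d4 : κ (β k + 1) ≤ k0 := by
                by_contra hcon
                have := (hβ k0 (β k + 1)).2 (by omega)
                omega
              apply d3
              obtain ⟨c, hc'⟩ := hc0 n (by omega) l (by omega)
              simp only [UU, Set.mem_iUnion]
              exact ⟨k0, mem_Ico.2 ⟨d4, mem_range.1 hk0J⟩, q0, hq0, c, by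
                rw [Metric.mem_closedBall, Real.dist_eq]; exact hc'⟩
            · by_contra hcon
              have d1 : k ∈ (range (κ J)).filter (fun k => ∃ q ∈ bad P S' k, Compat P k q v) :=
                mem_filter.2 ⟨mem_range.2 ((hβ k J).1 hk), q,
                  mem_filter.2 ⟨hq, lt_of_not_ge hcon⟩, hc⟩
              have d2 : k ≤ k0 := hmax k d1
              have d3 := (hβ k0 (β k)).1 hlt
              have d4 := mt (hβ k (β k)).2 (lt_irrefl _)
              omega
          · refine ⟨0, fun k hk q hq hc => ⟨fun h => absurd h (Nat.not_lt_zero _), fun _ => ?_⟩⟩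
            by_contra hcon
            exact hex ⟨k, mem_filter.2 ⟨mem_range.2 ((hβ k J).1 hk), q,
              mem_filter.2 ⟨hq, lt_of_not_ge hcon⟩, hc⟩⟩
        obtain ⟨s0, hs0⟩ := hstar
        obtain ⟨b, hb0, hb1, hb2⟩ := hS4 s0 v
        refine ⟨fun k => 1 / 2 ^ k + b k, fun k => by have := hb0 k; positivity, fun K => ?_,
          fun k q hq hc m τ hg => ?_⟩
        · rw [sum_add_distrib]
          have c1 := sum_half 0 K
          rw [← range_eq_Ico] at c1
          have c2 := hb1 K
          norm_num at c1 ⊢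
          linarith
        · have c0 : (0 : ℝ) ≤ 1 / 2 ^ k := by positivity
          have c0' := hb0 k
          simp only [f]
          split_ifs with hk
          · obtain ⟨d1, d2⟩ := hs0 k hk q hq hc
            rcases lt_trichotomy (β k) s0 with h | h | h
            · refine hB.zero (fun n _ l => ?_) (by linarith)
              simp only [mk, Pi.smul_apply, mask, if_neg (d1 h n l), smul_zero]
            · have := hB.smul (e (β k)) (hB.mask (A (β k)) (hb2 k q hq hc m τ hg))
              rw [he', one_mul, ← h] at this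
              exact hB.mono this (by linarith)
            · have := hB.smul (e (β k)) (hB.mask (A (β k)) ((hS1 (β k) k q).cap m τ hg v))
              rw [he', one_mul] at this
              exact hB.mono this (by have := d2 h; simp only [S'] at this; linarith)
          · exact hB.zero (fun _ _ _ => rfl) (by linarith)
    obtain ⟨g, hg, hg2⟩ := hK.mem hf (by norm_num)
    refine ⟨g, hg, ?_⟩
    rw [← hg2]
    refine Finsupp.lhom_ext fun i c => ?_
    simp only [LinearMap.sum_apply, LinearMap.smul_apply, pairK,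
      Finsupp.linearCombination_single, smul_eq_mul]
    unfold valK
    by_cases hq : i.2.1 ∈ P.Q i.1
    · simp only [if_pos hq, f]
      by_cases hk : β i.1 < J
      · rw [if_pos hk, valE_smul, sum_eq_single (β i.1)]
        · rw [if_pos rfl]; ring
        · intro s _ hs
          rw [if_neg (Ne.symm hs), valE_zero]; ring
        · intro h; exact absurd (mem_range.2 hk) h
      · rw [if_neg hk, valE_zero, mul_zero]
        refine sum_eq_zero fun s hs => ?_
        rw [if_neg (by have := mem_range.1 hs; omega), valE_zero]; ring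
    · simp [if_neg hq]

end Crest.Agent.R91
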