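import Crest.Agent.R91.Defs

/-!
Row 91, task M: the laws of the tags.
-/

set_option autoImplicit false

open Finset Filter Topology Function

namespace Crest.Agent.R91

noncomputable section

namespace LAW

theorem bdd {σ : ℕ → ℝ} (h : Tendsto σ atTop (𝓝 0)) (m : ℕ) :
    BddAbove (Set.range fun n => σ (n + m)) :=
  h.bddAbove_range.mono (by rintro _ ⟨n, rfl⟩; exact ⟨_, rfl⟩)

theorem le_Dm {σ : ℕ → ℝ} (n m : ℕ) (h : Tendsto σ atTop (𝓝 0)) (hm : m ≤ n) : σ n ≤ Dm σ m := by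
  have := le_ciSup (bdd h m) (n - m)
  rwa [Nat.sub_add_cancel hm] at this

theorem Dm_le {σ : ℕ → ℝ} (m : ℕ) (r : ℝ) (h : ∀ n, m ≤ n → σ n ≤ r) : Dm σ m ≤ r :=
  ciSup_le fun n => h _ (Nat.le_add_left _ _)

theorem Dm_anti {σ : ℕ → ℝ} (h : Tendsto σ atTop (𝓝 0)) {m m' : ℕ} (hm : m ≤ m') :
    Dm σ m' ≤ Dm σ m :=
  Dm_le _ _ fun n hn => le_Dm n m h (hm.trans hn)

theorem Dm_tend {σ : ℕ → ℝ} (h : Tendsto σ atTop (𝓝 0)) : Tendsto (Dm σ) atTop (𝓝 0) := by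
  rw [Metric.tendsto_atTop] at *
  intro ε hε
  have h' := h
  obtain ⟨N, hN⟩ := h (ε / 2) (by linarith)
  refine ⟨N, fun m hm => ?_⟩
  simp only [Real.dist_eq, sub_zero] at hN ⊢
  have h1 : Dm σ m ≤ ε / 2 := Dm_le _ _ fun n hn => (le_abs_self _).trans (hN n (hm.trans hn)).le
  have h2 : σ m ≤ Dm σ m := le_Dm m m (Metric.tendsto_atTop.2 h') le_rfl
  have h3 := abs_lt.1 (hN m hm)
  rw [abs_lt]
  constructor <;> linarith [h3.1]

theorem Dm_lip {σ σ' : ℕ → ℝ} {δ : ℝ} (h : Tendsto σ atTop (𝓝 0)) (h' : Tendsto σ' atTop (𝓝 0))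
    (hδ : ∀ n, |σ n - σ' n| ≤ δ) (m : ℕ) : |Dm σ m - Dm σ' m| ≤ δ := by
  have h1 : Dm σ m ≤ Dm σ' m + δ := Dm_le _ _ fun n hn => by
    linarith [le_Dm n m h' hn, (abs_le.1 (hδ n)).2]
  have h2 : Dm σ' m ≤ Dm σ m + δ := Dm_le _ _ fun n hn => by
    linarith [le_Dm n m h hn, (abs_le.1 (hδ n)).1]
  rw [abs_le]
  constructor <;> linarith

theorem clamp_mono {x y : ℝ} (h : x ≤ y) : max 0 (min 1 x) ≤ max 0 (min 1 y) :=
  max_le_max le_rfl (min_le_min le_rfl h)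

theorem clamp_lip (x y : ℝ) : |max 0 (min 1 x) - max 0 (min 1 y)| ≤ |x - y| := by
  rw [abs_le]
  have h1 := le_abs_self (x - y)
  have h2 := neg_abs_le (x - y)
  have h3 := abs_nonneg (x - y)
  simp only [max_def, min_def]
  constructor <;> split_ifs <;> linarith

theorem tailp_zero (T' : ℝ) (σ : ℕ → ℝ) (i : ℕ) : tailp T' σ i 0 = 1 := by simp [tailp]

theorem tailp_succ (T' : ℝ) (σ : ℕ → ℝ) (i m : ℕ) : tailp T' σ i (m + 1) =
    max 0 (min 1 ((Dm σ m - T' / 8 * (1 + 1 / 2 ^ i)) / (T' / 32 / 2 ^ i))) := by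
  simp [tailp]

theorem tailp_le_one (T' : ℝ) (σ : ℕ → ℝ) (i m : ℕ) : tailp T' σ i m ≤ 1 := by
  cases m with
  | zero => rw [tailp_zero]
  | succ m => rw [tailp_succ]; exact max_le zero_le_one (min_le_left _ _)

theorem tailp_nonneg (T' : ℝ) (σ : ℕ → ℝ) (i m : ℕ) : 0 ≤ tailp T' σ i m := by
  cases m with
  | zero => rw [tailp_zero]; exact zero_le_one
  | succ m => rw [tailp_succ]; exact le_max_left _ _

theorem tailp_anti {T' : ℝ} {σ : ℕ → ℝ} (hT : 0 < T') (h : Tendsto σ atTop (𝓝 0)) (i m : ℕ) :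
    tailp T' σ i (m + 1) ≤ tailp T' σ i m := by
  cases m with
  | zero => rw [tailp_zero]; exact tailp_le_one _ _ _ _
  | succ m =>
    rw [tailp_succ, tailp_succ]
    refine clamp_mono (div_le_div_of_nonneg_right ?_ (by positivity))
    linarith [Dm_anti h (Nat.le_succ m)]

theorem tailp_eq_zero {T' : ℝ} {σ : ℕ → ℝ} (hT : 0 < T') {i m : ℕ}
    (h : Dm σ m ≤ T' / 8 * (1 + 1 / 2 ^ i)) : tailp T' σ i (m + 1) = 0 := by
  rw [tailp_succ]
  refine max_eq_left ((min_le_right _ _).trans ?_)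
  exact div_nonpos_of_nonpos_of_nonneg (by linarith) (by positivity)

theorem tailp_eq_one {T' : ℝ} {σ : ℕ → ℝ} (hT : 0 < T') {i m : ℕ}
    (h : T' / 8 * (1 + 1 / 2 ^ i) + T' / 32 / 2 ^ i ≤ Dm σ m) : tailp T' σ i (m + 1) = 1 := by
  rw [tailp_succ, min_eq_left, max_eq_right zero_le_one]
  rw [le_div_iff₀ (by positivity)]
  linarith

theorem sum_law (T' : ℝ) (σ : ℕ → ℝ) (i m : ℕ) :
    ∑ j ∈ range m, law T' σ i j = 1 - tailp T' σ i m := by
  unfold law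
  rw [sum_range_sub', tailp_zero]

theorem alpha_ge {T' : ℝ} (hT : 0 < T') (i : ℕ) : T' / 8 ≤ T' / 8 * (1 + 1 / 2 ^ i) := by
  have : (0 : ℝ) ≤ T' / 8 * (1 / 2 ^ i) := by positivity
  linarith

theorem isLaw {σ : ℕ → ℝ} {T' : ℝ} (M N : ℕ) (hT : 0 < T') (h : Tendsto σ atTop (𝓝 0))
    (hM : Dm σ M ≤ T' / 8) : IsLaw (law T' σ) M N ∧ ∀ i m, M < m → law T' σ i m = 0 := by
  have hz : ∀ i m, M ≤ m → tailp T' σ i (m + 1) = 0 := fun i m hm =>
    tailp_eq_zero hT (((Dm_anti h hm).trans hM).trans (alpha_ge hT i))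
  refine ⟨fun i _ => ⟨fun m => sub_nonneg.2 (tailp_anti hT h i m), ?_⟩, fun i m hm => ?_⟩
  · rw [sum_law, hz i M le_rfl, sub_zero]
  · obtain ⟨k, rfl⟩ : ∃ k, m = k + 1 := ⟨m - 1, by omega⟩
    unfold law
    rw [hz i k (by omega), hz i (k + 1) (by omega), sub_zero]

theorem cdf {σ σ' : ℕ → ℝ} {T' δ : ℝ} (i m : ℕ) (hT : 0 < T') (h : Tendsto σ atTop (𝓝 0))
    (h' : Tendsto σ' atTop (𝓝 0)) (hδ : ∀ n, |σ n - σ' n| ≤ δ) :
    |∑ j ∈ range m, law T' σ i j - ∑ j ∈ range m, law T' σ' i j| ≤ 32 * 2 ^ i / T' * δ := by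
  have hδ0 : 0 ≤ δ := (abs_nonneg _).trans (hδ 0)
  rw [sum_law, sum_law, sub_sub_sub_cancel_left, abs_sub_comm]
  cases m with
  | zero => rw [tailp_zero, tailp_zero, sub_self, abs_zero]; positivity
  | succ m =>
    rw [tailp_succ, tailp_succ]
    refine (clamp_lip _ _).trans ?_
    rw [← sub_div, sub_sub_sub_cancel_right, abs_div, abs_of_pos (by positivity : 0 < T' / 32 / 2 ^ i)]
    calc _ ≤ δ / (T' / 32 / 2 ^ i) := div_le_div_of_nonneg_right (Dm_lip h h' hδ m) (by positivity)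
      _ = _ := by field_simp

theorem law_ne {σ : ℕ → ℝ} {T' : ℝ} (hT : 0 < T') (h : Tendsto σ atTop (𝓝 0)) {i m : ℕ}
    (hm : law T' σ i m ≠ 0) : Dm σ m < T' / 8 * (1 + 1 / 2 ^ i) + T' / 32 / 2 ^ i ∧
      ∀ k, k < m → T' / 8 * (1 + 1 / 2 ^ i) < Dm σ k := by
  have h1 := tailp_anti hT h i m
  unfold law at hm
  constructor
  · by_contra hc
    have h2 := tailp_eq_one hT (not_lt.1 hc)
    have h3 := tailp_le_one T' σ i m
    exact hm (by linarith)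
  · intro k hk
    obtain ⟨j, rfl⟩ : ∃ j, m = j + 1 := ⟨m - 1, by omega⟩
    by_contra hc
    have h2 := tailp_eq_zero hT ((Dm_anti h (show k ≤ j by omega)).trans (not_lt.1 hc))
    have h3 := tailp_nonneg T' σ i (j + 1 + 1)
    exact hm (by linarith)

theorem box {σ σ' : ℕ → ℝ} {T' δ : ℝ} (N : ℕ) (hT : 0 < T') (h : Tendsto σ atTop (𝓝 0))
    (h' : Tendsto σ' atTop (𝓝 0)) (hδ : ∀ n, |σ n - σ' n| ≤ δ) (hδT : δ ≤ T' / (64 * 2 ^ N))
    (hN : Dm σ N ≤ T' / 16) :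
    ∃ (lo hi : ℕ → ℕ) (m0 : ℕ),
      (∀ i < N, ∀ m, law T' σ i m ≠ 0 ∨ law T' σ' i m ≠ 0 → lo i ≤ m ∧ m ≤ hi i) ∧
      m0 ≤ N ∧ (∀ n, m0 ≤ n → σ n ≤ T' ∧ σ' n ≤ T') ∧
      ∀ τ', Box N lo hi (fun _ => (N : ℕ∞)) τ' → Good m0 τ' ∧ Act τ' := by
  classical
  have hδ0 : 0 ≤ δ := (abs_nonneg _).trans (hδ 0)
  have hδi : ∀ i ≤ N, δ ≤ T' / 64 / 2 ^ i := by
    intro i hi
    refine hδT.trans ?_
    rw [div_div]
    exact div_le_div_of_nonneg_left hT.le (by positivity)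
      (mul_le_mul_of_nonneg_left (pow_le_pow_right₀ one_le_two hi) (by norm_num))
  have hδ1 : δ ≤ T' / 64 := by simpa using hδi 0 (Nat.zero_le _)
  have hloN : ∀ i : ℕ, Dm σ N < T' / 8 * (1 + 1 / 2 ^ i) + T' / 32 / 2 ^ i + δ := by
    intro i
    have := alpha_ge hT i
    have h2 : (0 : ℝ) < T' / 32 / 2 ^ i := by positivity
    linarith
  have hhiN : ∀ i : ℕ, Dm σ N ≤ T' / 8 * (1 + 1 / 2 ^ i) - δ := by
    intro i
    have := alpha_ge hT i
    linarith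
  have elo : ∀ i : ℕ, ∃ m, Dm σ m < T' / 8 * (1 + 1 / 2 ^ i) + T' / 32 / 2 ^ i + δ :=
    fun i => ⟨N, hloN i⟩
  have ehi : ∀ i : ℕ, ∃ m, Dm σ m ≤ T' / 8 * (1 + 1 / 2 ^ i) - δ := fun i => ⟨N, hhiN i⟩
  have hhi : ∀ i, Nat.find (ehi i) ≤ N := fun i => Nat.find_min' _ (hhiN i)
  have hstep : ∀ i, i + 1 ≤ N → Nat.find (ehi i) ≤ Nat.find (elo (i + 1)) := by
    intro i hi
    refine Nat.find_min' _ ?_
    have h1 := Nat.find_spec (elo (i + 1))
    have h2 := hδi (i + 1) hi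
    set u : ℝ := T' / 2 ^ (i + 1) with hu
    have hu0 : 0 < u := by positivity
    have e1 : T' / 8 * (1 + 1 / 2 ^ (i + 1)) = T' / 8 + u / 8 := by rw [hu]; ring
    have e2 : T' / 32 / 2 ^ (i + 1) = u / 32 := by rw [hu]; ring
    have e3 : T' / 64 / 2 ^ (i + 1) = u / 64 := by rw [hu]; ring
    have e4 : T' / 8 * (1 + 1 / 2 ^ i) = T' / 8 + u / 4 := by rw [hu, pow_succ]; field_simp; ring
    generalize Nat.find (elo (i + 1)) = k at h1 ⊢
    rw [e1, e2] at h1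
    rw [e3] at h2
    rw [e4]
    linarith
  refine ⟨fun i => Nat.find (elo i), fun i => Nat.find (ehi i), Nat.find (elo 0), ?_,
    Nat.find_min' _ (hloN 0), ?_, ?_⟩
  · intro i _ m hm
    have key : Dm σ m < T' / 8 * (1 + 1 / 2 ^ i) + T' / 32 / 2 ^ i + δ ∧
        ∀ k, k < m → T' / 8 * (1 + 1 / 2 ^ i) - δ < Dm σ k := by
      rcases hm with hm | hm
      · obtain ⟨a, b⟩ := law_ne hT h hm
        exact ⟨by linarith, fun k hk => by linarith [b k hk]⟩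
      · obtain ⟨a, b⟩ := law_ne hT h' hm
        exact ⟨by linarith [(abs_le.1 (Dm_lip h h' hδ m)).2],
          fun k hk => by linarith [b k hk, (abs_le.1 (Dm_lip h h' hδ k)).1]⟩
    refine ⟨Nat.find_min' _ key.1, ?_⟩
    by_contra hc
    exact absurd (key.2 _ (not_le.1 hc)) (not_lt.2 (Nat.find_spec (ehi i)))
  · intro n hn
    have h1 := Nat.find_spec (elo 0)
    have h2 := le_Dm n _ h hn
    have h3 := (abs_le.1 (hδ n)).1
    generalize Nat.find (elo 0) = k at h1 h2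
    simp only [pow_zero, div_one] at h1
    constructor <;> linarith
  · intro τ' hb
    have hle : ∀ i, τ' i ≤ (N : ℕ∞) := by
      intro i
      by_cases hi : i < N
      · obtain ⟨m, e, -, b⟩ := hb.1 i hi
        rw [e]
        exact_mod_cast b.trans (hhi i)
      · rw [hb.2 i (not_lt.1 hi)]
    have hmono : Monotone τ' := by
      refine monotone_nat_of_le_succ fun i => ?_
      by_cases hi : i + 1 < N
      · obtain ⟨m, e, -, b⟩ := hb.1 i (by omega)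
        obtain ⟨m', e', a', -⟩ := hb.1 (i + 1) hi
        rw [e, e']
        exact_mod_cast (b.trans (hstep i hi.le)).trans a'
      · rw [hb.2 (i + 1) (not_lt.1 hi)]
        exact hle i
    refine ⟨⟨hmono, ?_⟩, hmono, N, hle⟩
    by_cases h0 : 0 < N
    · obtain ⟨m, e, a, -⟩ := hb.1 0 h0
      rw [e]
      exact_mod_cast a
    · rw [hb.2 0 (not_lt.1 h0)]
      have : Nat.find (elo 0) ≤ N := Nat.find_min' (elo 0) (hloN 0)
      exact Nat.cast_le.2 this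

end LAW

theorem lawB : LawB where
  le_Dm := LAW.le_Dm
  Dm_le := LAW.Dm_le
  Dm_tend := LAW.Dm_tend
  isLaw := LAW.isLaw
  cdf := LAW.cdf
  box := LAW.box

end

end Crest.Agent.R91
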