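import Crest.Agent.R91.Defs

set_option autoImplicit false

open Finset Filter Topology Function

namespace Crest.Agent.R91

noncomputable section

namespace LF

section C0

variable {E : Type} [NormedAddCommGroup E]

/-- a null sequence as an element of `c₀` -/
def mk0 (f : ℕ → E) (hf : Tendsto f atTop (𝓝 0)) : ZeroAtInftyContinuousMap ℕ E :=
  ⟨⟨f, continuous_of_discreteTopology⟩, by rw [cocompact_eq_atTop]; exact hf⟩

@[simp] lemma mk0_apply (f : ℕ → E) (hf : Tendsto f atTop (𝓝 0)) (n : ℕ) : mk0 f hf n = f n := rfl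

lemma tend0 (f : ZeroAtInftyContinuousMap ℕ E) : Tendsto (fun n => f n) atTop (𝓝 0) := by
  have := f.zero_at_infty'
  rw [cocompact_eq_atTop] at this
  exact this

lemma apply_le (f : ZeroAtInftyContinuousMap ℕ E) (n : ℕ) : ‖f n‖ ≤ ‖f‖ :=
  f.toBCF.norm_coe_le_norm n

lemma norm_le (f : ZeroAtInftyContinuousMap ℕ E) {C : ℝ} (h : ∀ n, ‖f n‖ ≤ C) : ‖f‖ ≤ C :=
  (BoundedContinuousFunction.norm_le ((norm_nonneg _).trans (h 0))).2 h

lemma sub_le (f g : ZeroAtInftyContinuousMap ℕ E) (n : ℕ) : ‖f n - g n‖ ≤ ‖f - g‖ :=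
  apply_le (f - g) n

lemma cont_apply (n : ℕ) : Continuous (fun f : ZeroAtInftyContinuousMap ℕ E => f n) := by
  refine (LipschitzWith.of_dist_le_mul (K := 1) fun f g => ?_).continuous
  rw [dist_eq_norm, dist_eq_norm]
  simpa using sub_le f g n

end C0

variable {B : Type} [NormedAddCommGroup B] [NormedSpace ℝ B]

abbrev C0R := ZeroAtInftyContinuousMap ℕ ℝ

/-- the relation defining the swap -/
def Rel (S : Sys B Valid (1 / 100)) (u w : AA0 × B) : Prop :=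
  ∃ σ : C0R, (∀ n, w.1 n = S.p ⟨u.1, w.1, σ⟩ n u.2) ∧
    w.2 = u.2 - S.I ⟨w.1, u.1, σ⟩ + S.I ⟨u.1, w.1, σ⟩ ∧
    ∀ n, σ n = max ‖u.1 n‖ (max ‖w.1 n‖ ‖S.R n (u.2 - S.I ⟨w.1, u.1, σ⟩)‖)

lemma valid_of {a a' : ℕ → H} {σ : C0R} (h1 : ∀ n, ‖a n‖ ≤ 4 * σ n) (h2 : ∀ n, ‖a' n‖ ≤ 4 * σ n) :
    Valid ⟨a, a', σ⟩ := ⟨fun n => ⟨h1 n, h2 n⟩, tend0 σ⟩

lemma valid_max {a a' : ℕ → H} {σ : C0R} {t : ℕ → ℝ}
    (h : ∀ n, σ n = max ‖a n‖ (max ‖a' n‖ (t n))) :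
    Valid ⟨a, a', σ⟩ ∧ Valid ⟨a', a, σ⟩ := by
  have h1 : ∀ n, ‖a n‖ ≤ 4 * σ n := fun n => by
    have : ‖a n‖ ≤ σ n := by rw [h n]; exact le_max_left _ _
    have := norm_nonneg (a n); linarith
  have h2 : ∀ n, ‖a' n‖ ≤ 4 * σ n := fun n => by
    have : ‖a' n‖ ≤ σ n := by rw [h n]; exact (le_max_left _ _).trans (le_max_right _ _)
    have := norm_nonneg (a' n); linarith
  exact ⟨valid_of h1 h2, valid_of h2 h1⟩

lemma rel_symm (S : Sys B Valid (1 / 100)) {u w : AA0 × B} (h : Rel S u w) : Rel S w u := by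
  obtain ⟨σ, h1, h2, h3⟩ := h
  obtain ⟨v1, v2⟩ := valid_max h3
  have hsw : S.p ⟨w.1, u.1, σ⟩ = S.p ⟨u.1, w.1, σ⟩ := S.p_swap ⟨u.1, w.1, σ⟩
  have hb : w.2 - S.I ⟨u.1, w.1, σ⟩ = u.2 - S.I ⟨w.1, u.1, σ⟩ := by rw [h2]; abel
  refine ⟨σ, fun n => ?_, ?_, fun n => ?_⟩
  · have e1 := S.p_I _ v1 n
    have e2 := S.p_I _ v2 n
    rw [hsw] at e2 ⊢
    rw [h2, map_add, map_sub, e1, e2, ← h1 n]
    simp
  · rw [hb]; abel
  · rw [hb, h3 n, max_left_comm]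

/-- the bound `‖R n c‖ ≤ 4 max` -/
lemma R_le_four (S : Sys B Valid (1 / 100)) {a a' : ℕ → H} {σ : ℕ → ℝ} (c : B)
    (v : Valid ⟨a', a, σ⟩) (n : ℕ) :
    ‖S.R n c‖ ≤ 4 * max ‖a n‖ (max ‖a' n‖ ‖S.R n (c - S.I ⟨a', a, σ⟩)‖) := by
  have e : S.R n c = S.R n (c - S.I ⟨a', a, σ⟩) + S.R n (S.I ⟨a', a, σ⟩) := by
    rw [← map_add]; simp
  have h1 := S.R_I _ v n
  have h2 : ‖a' n‖ ≤ max ‖a n‖ (max ‖a' n‖ ‖S.R n (c - S.I ⟨a', a, σ⟩)‖) :=
    (le_max_left _ _).trans (le_max_right _ _)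
  have h3 : ‖S.R n (c - S.I ⟨a', a, σ⟩)‖ ≤ max ‖a n‖ (max ‖a' n‖ ‖S.R n (c - S.I ⟨a', a, σ⟩)‖) :=
    (le_max_right _ _).trans (le_max_right _ _)
  have h4 := norm_add_le (S.R n (c - S.I ⟨a', a, σ⟩)) (S.R n (S.I ⟨a', a, σ⟩))
  rw [← e] at h4
  simp only at h1
  linarith

/-- the change of `p` when `‖R n c‖ ≤ 4 min` -/
lemma p_diff (S : Sys B Valid (1 / 100)) {x y : Cfg} {δ : ℝ} (hx : Valid x) (hy : Valid y)
    (hn : Near x y δ) (n : ℕ) (c : B) (hc : ‖S.R n c‖ ≤ 4 * min (x.σ n) (y.σ n)) :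
    ‖S.p x n c - S.p y n c‖ ≤ 4 / 100 * δ := by
  have hδ : 0 ≤ δ := (norm_nonneg _).trans (hn 0).1
  have h := S.p_lip x y δ hx hy hn n c
  set m := min (x.σ n) (y.σ n) with hm
  have hm0 : 0 ≤ m := by have := norm_nonneg (S.R n c); linarith
  rcases hm0.eq_or_lt with h0 | h0
  · have hR : ‖S.R n c‖ ≤ 0 := by rw [← h0] at hc; linarith
    have e1 := S.p_le x n c
    have e2 := S.p_le y n c
    have := norm_sub_le (S.p x n c) (S.p y n c)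
    linarith
  · have : m * ‖S.p x n c - S.p y n c‖ ≤ m * (4 / 100 * δ) := by nlinarith
    exact le_of_mul_le_mul_left this h0

lemma abs_max3 {a b c a' b' c' r : ℝ} (h1 : |a - a'| ≤ r) (h2 : |b - b'| ≤ r) (h3 : |c - c'| ≤ r) :
    |max a (max b c) - max a' (max b' c')| ≤ r :=
  (abs_max_sub_max_le_max _ _ _ _).trans
    (max_le h1 ((abs_max_sub_max_le_max _ _ _ _).trans (max_le h2 h3)))

lemma rel_lip (S : Sys B Valid (1 / 100)) {u w v z : AA0 × B} (h : Rel S u w) (h' : Rel S v z) :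
    ‖w.1 - z.1‖ ≤ 11 / 10 * ‖u.2 - v.2‖ + 1 / 10 * ‖u.1 - v.1‖ ∧
      ‖w.2 - z.2‖ ≤ 11 / 5 * ‖u.2 - v.2‖ + 11 / 10 * ‖u.1 - v.1‖ := by
  obtain ⟨σ, h1, h2, h3⟩ := h
  obtain ⟨τ, k1, k2, k3⟩ := h'
  obtain ⟨v1, v2⟩ := valid_max h3
  obtain ⟨w1, w2⟩ := valid_max k3
  set δa := ‖u.1 - v.1‖ with hδa
  set δ' := ‖w.1 - z.1‖ with hδ'
  set δc := ‖u.2 - v.2‖ with hδc
  set δσ := ‖σ - τ‖ with hδσ
  set δ := max δa (max δ' δσ) with hδ
  have a0 : 0 ≤ δa := norm_nonneg _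
  have c0 : 0 ≤ δc := norm_nonneg _
  have p0 : 0 ≤ δ' := norm_nonneg _
  have da : δa ≤ δ := le_max_left _ _
  have dp : δ' ≤ δ := (le_max_left _ _).trans (le_max_right _ _)
  have ds : δσ ≤ δ := (le_max_right _ _).trans (le_max_right _ _)
  have d0 : 0 ≤ δ := a0.trans da
  have n1 : Near ⟨u.1, w.1, σ⟩ ⟨v.1, z.1, τ⟩ δ := fun n =>
    ⟨(sub_le _ _ n).trans da, (sub_le _ _ n).trans dp, (sub_le σ τ n).trans ds⟩
  have n2 : Near ⟨w.1, u.1, σ⟩ ⟨z.1, v.1, τ⟩ δ := fun n =>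
    ⟨(sub_le _ _ n).trans dp, (sub_le _ _ n).trans da, (sub_le σ τ n).trans ds⟩
  have i1 := S.I_lip _ _ δ δa v1 w1 n1 (fun n => sub_le _ _ n)
  have i2 := S.I_lip _ _ δ δ' v2 w2 n2 (fun n => sub_le _ _ n)
  have e1 : δ' ≤ δc + 4 / 100 * δ := by
    refine norm_le _ fun n => ?_
    change ‖w.1 n - z.1 n‖ ≤ _
    rw [h1 n, k1 n]
    rcases le_total (σ n) (τ n) with hle | hle
    · have hc : ‖S.R n u.2‖ ≤ 4 * min (σ n) (τ n) := by
        rw [min_eq_left hle, h3 n]; exact R_le_four S u.2 v2 n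
      have q1 := p_diff S v1 w1 n1 n u.2 hc
      have q2 : ‖S.p ⟨v.1, z.1, τ⟩ n u.2 - S.p ⟨v.1, z.1, τ⟩ n v.2‖ ≤ δc := by
        rw [← map_sub]; exact (S.p_le _ _ _).trans (S.R_le _ _)
      have := norm_sub_le_norm_sub_add_norm_sub (S.p ⟨u.1, w.1, σ⟩ n u.2)
        (S.p ⟨v.1, z.1, τ⟩ n u.2) (S.p ⟨v.1, z.1, τ⟩ n v.2)
      linarith
    · have hc : ‖S.R n v.2‖ ≤ 4 * min (σ n) (τ n) := by
        rw [min_eq_right hle, k3 n]; exact R_le_four S v.2 w2 n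
      have q1 := p_diff S v1 w1 n1 n v.2 hc
      have q2 : ‖S.p ⟨u.1, w.1, σ⟩ n u.2 - S.p ⟨u.1, w.1, σ⟩ n v.2‖ ≤ δc := by
        rw [← map_sub]; exact (S.p_le _ _ _).trans (S.R_le _ _)
      have := norm_sub_le_norm_sub_add_norm_sub (S.p ⟨u.1, w.1, σ⟩ n u.2)
        (S.p ⟨u.1, w.1, σ⟩ n v.2) (S.p ⟨v.1, z.1, τ⟩ n v.2)
      linarith
  have e2 : δσ ≤ δa + (δc + δ' + 1 / 100 * δ) := by
    refine norm_le _ fun n => ?_
    change |σ n - τ n| ≤ _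
    rw [h3 n, k3 n]
    refine abs_max3 ?_ ?_ ?_
    · have := (abs_norm_sub_norm_le (u.1 n) (v.1 n)).trans (sub_le u.1 v.1 n)
      linarith
    · have := (abs_norm_sub_norm_le (w.1 n) (z.1 n)).trans (sub_le w.1 z.1 n)
      linarith
    · refine (abs_norm_sub_norm_le _ _).trans ?_
      rw [← map_sub]
      refine (S.R_le _ _).trans ?_
      have : u.2 - S.I ⟨w.1, u.1, σ⟩ - (v.2 - S.I ⟨z.1, v.1, τ⟩) =
          (u.2 - v.2) - (S.I ⟨w.1, u.1, σ⟩ - S.I ⟨z.1, v.1, τ⟩) := by abel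
      rw [this]
      have := norm_sub_le (u.2 - v.2) (S.I ⟨w.1, u.1, σ⟩ - S.I ⟨z.1, v.1, τ⟩)
      linarith
  have e3 : δ ≤ δa + 2 * δc + 5 / 100 * δ := by
    refine max_le (by linarith) (max_le (by linarith) (by linarith))
  refine ⟨by linarith, ?_⟩
  have : w.2 - z.2 = (u.2 - v.2) - (S.I ⟨w.1, u.1, σ⟩ - S.I ⟨z.1, v.1, τ⟩) +
      (S.I ⟨u.1, w.1, σ⟩ - S.I ⟨v.1, z.1, τ⟩) := by rw [h2, k2]; abel
  rw [this]
  have t1 := norm_sub_le (u.2 - v.2) (S.I ⟨w.1, u.1, σ⟩ - S.I ⟨z.1, v.1, τ⟩)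
  have t2 := norm_add_le ((u.2 - v.2) - (S.I ⟨w.1, u.1, σ⟩ - S.I ⟨z.1, v.1, τ⟩))
    (S.I ⟨u.1, w.1, σ⟩ - S.I ⟨v.1, z.1, τ⟩)
  linarith

lemma rel_unique (S : Sys B Valid (1 / 100)) {u w z : AA0 × B} (h : Rel S u w) (h' : Rel S u z) :
    w = z := by
  obtain ⟨h1, h2⟩ := rel_lip S h h'
  simp only [sub_self, norm_zero, mul_zero, add_zero, norm_le_zero_iff, sub_eq_zero] at h1 h2
  exact Prod.ext h1 h2

lemma rel_zero (S : Sys B Valid (1 / 100)) : Rel S (0, 0) (0, 0) := by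
  have hI : S.I ⟨((0 : AA0) : ℕ → H), ((0 : AA0) : ℕ → H), ((0 : C0R) : ℕ → ℝ)⟩ = 0 := S.I_zero
  refine ⟨0, fun n => ?_, ?_, fun n => ?_⟩
  · simp
  · simp only [hI]; simp
  · simp only [hI]; simp

/-- the iteration map; the first component stores `3 a'` -/
def step (S : Sys B Valid (1 / 100)) (a : AA0) (c : B) (w : AA0 × C0R) : AA0 × C0R :=
  ((3 : ℝ) • mk0 (fun n => S.p ⟨a, ((1 / 3 : ℝ) • w.1 : AA0), w.2⟩ n c)
      (squeeze_zero_norm (fun n => S.p_le _ n c) (by simpa using (S.R_tend c).norm)),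
   mk0 (fun n => max ‖a n‖ (max ‖((1 / 3 : ℝ) • w.1 : AA0) n‖
      ‖S.R n (c - S.I ⟨((1 / 3 : ℝ) • w.1 : AA0), a, w.2⟩)‖))
      (by
        have h1 := (tend0 a).norm
        have h2 := (tend0 ((1 / 3 : ℝ) • w.1 : AA0)).norm
        have h3 := (S.R_tend (c - S.I ⟨((1 / 3 : ℝ) • w.1 : AA0), a, w.2⟩)).norm
        have := h1.max (h2.max h3)
        simpa using this))

lemma third_three (f : AA0) : ((1 / 3 : ℝ) • ((3 : ℝ) • f) : AA0) = f := by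
  rw [smul_smul]; norm_num

lemma norm_three (f g : AA0) : ‖((3 : ℝ) • f - (3 : ℝ) • g : AA0)‖ = 3 * ‖f - g‖ := by
  have : ((3 : ℝ) • f - (3 : ℝ) • g : AA0) = (3 : ℝ) • (f - g) := (smul_sub (3 : ℝ) f g).symm
  rw [this, norm_smul]; norm_num

def good (S : Sys B Valid (1 / 100)) (a : AA0) (c : B) : Set (AA0 × C0R) :=
  {w | ∀ n, ‖((1 / 3 : ℝ) • w.1 : AA0) n‖ ≤ ‖S.R n c‖ ∧ ‖a n‖ ≤ w.2 n ∧ ‖S.R n c‖ ≤ 4 * w.2 n}

lemma good_closed (S : Sys B Valid (1 / 100)) (a : AA0) (c : B) : IsClosed (good S a c) := by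
  have : good S a c = ⋂ n, ({w : AA0 × C0R | ‖((1 / 3 : ℝ) • w.1 : AA0) n‖ ≤ ‖S.R n c‖} ∩
      ({w | ‖a n‖ ≤ w.2 n} ∩ {w | ‖S.R n c‖ ≤ 4 * w.2 n})) := by
    ext w; simp only [good, Set.mem_ofPred_eq, Set.mem_iInter, Set.mem_inter_iff]
  rw [this]
  refine isClosed_iInter fun n => ?_
  have c1 : Continuous fun w : AA0 × C0R => ‖((1 / 3 : ℝ) • w.1 : AA0) n‖ :=
    ((cont_apply n).comp (continuous_fst.const_smul (1 / 3 : ℝ))).norm
  have c2 : Continuous fun w : AA0 × C0R => w.2 n := (cont_apply n).comp continuous_snd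
  exact (isClosed_le c1 continuous_const).inter
    ((isClosed_le continuous_const c2).inter (isClosed_le continuous_const (continuous_const.mul c2)))

lemma good_valid (S : Sys B Valid (1 / 100)) {a : AA0} {c : B} {w : AA0 × C0R}
    (hw : w ∈ good S a c) :
    Valid ⟨a, ((1 / 3 : ℝ) • w.1 : AA0), w.2⟩ ∧ Valid ⟨((1 / 3 : ℝ) • w.1 : AA0), a, w.2⟩ := by
  have h1 : ∀ n, ‖a n‖ ≤ 4 * w.2 n := fun n => by
    have := (hw n).2.1
    have := norm_nonneg (a n); linarith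
  have h2 : ∀ n, ‖((1 / 3 : ℝ) • w.1 : AA0) n‖ ≤ 4 * w.2 n := fun n =>
    (hw n).1.trans (hw n).2.2
  exact ⟨valid_of h1 h2, valid_of h2 h1⟩

lemma step_maps (S : Sys B Valid (1 / 100)) (a : AA0) (c : B) :
    Set.MapsTo (step S a c) (good S a c) (good S a c) := by
  intro w hw n
  refine ⟨?_, ?_, ?_⟩
  · simp only [step, third_three, mk0_apply]
    exact S.p_le _ n c
  · simp only [step, mk0_apply]
    exact le_max_left _ _
  · simp only [step, mk0_apply]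
    exact R_le_four S c (good_valid S hw).2 n

lemma step_contr (S : Sys B Valid (1 / 100)) (a : AA0) (c : B) {w z : AA0 × C0R}
    (hw : w ∈ good S a c) (hz : z ∈ good S a c) :
    ‖step S a c w - step S a c z‖ ≤ 1 / 2 * ‖w - z‖ := by
  obtain ⟨v1, v2⟩ := good_valid S hw
  obtain ⟨w1, w2⟩ := good_valid S hz
  set N := ‖w - z‖ with hN
  have N0 : 0 ≤ N := norm_nonneg _
  have f1 : ‖w.1 - z.1‖ ≤ N := norm_fst_le (w - z)
  have f2 : ‖w.2 - z.2‖ ≤ N := norm_snd_le (w - z)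
  have f3 : ∀ n, ‖((1 / 3 : ℝ) • w.1 : AA0) n - ((1 / 3 : ℝ) • z.1 : AA0) n‖ ≤ N / 3 := fun n => by
    refine (sub_le _ _ n).trans ?_
    rw [← smul_sub, norm_smul]
    norm_num
    linarith
  have n1 : Near ⟨a, ((1 / 3 : ℝ) • w.1 : AA0), w.2⟩ ⟨a, ((1 / 3 : ℝ) • z.1 : AA0), z.2⟩ N :=
    fun n => ⟨by simpa using N0, (f3 n).trans (by linarith), (sub_le w.2 z.2 n).trans f2⟩
  have n2 : Near ⟨((1 / 3 : ℝ) • w.1 : AA0), a, w.2⟩ ⟨((1 / 3 : ℝ) • z.1 : AA0), a, z.2⟩ N :=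
    fun n => ⟨(f3 n).trans (by linarith), by simpa using N0, (sub_le w.2 z.2 n).trans f2⟩
  have i2 := S.I_lip _ _ N (N / 3) v2 w2 n2 f3
  rw [Prod.norm_def]
  refine max_le ?_ ?_
  · refine (norm_three _ _).le.trans ?_
    have : ‖mk0 (fun n => S.p ⟨a, ((1 / 3 : ℝ) • w.1 : AA0), w.2⟩ n c)
        (squeeze_zero_norm (fun n => S.p_le _ n c) (by simpa using (S.R_tend c).norm)) -
        mk0 (fun n => S.p ⟨a, ((1 / 3 : ℝ) • z.1 : AA0), z.2⟩ n c)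
        (squeeze_zero_norm (fun n => S.p_le _ n c) (by simpa using (S.R_tend c).norm))‖ ≤
        4 / 100 * N := by
      refine norm_le _ fun n => ?_
      refine p_diff S v1 w1 n1 n c ?_
      rcases le_total (w.2 n) (z.2 n) with hle | hle
      · rw [min_eq_left hle]; exact (hw n).2.2
      · rw [min_eq_right hle]; exact (hz n).2.2
    linarith
  · refine norm_le _ fun n => ?_
    change |max ‖a n‖ (max ‖((1 / 3 : ℝ) • w.1 : AA0) n‖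
      ‖S.R n (c - S.I ⟨((1 / 3 : ℝ) • w.1 : AA0), a, w.2⟩)‖) -
      max ‖a n‖ (max ‖((1 / 3 : ℝ) • z.1 : AA0) n‖
      ‖S.R n (c - S.I ⟨((1 / 3 : ℝ) • z.1 : AA0), a, z.2⟩)‖)| ≤ _
    refine abs_max3 ?_ ?_ ?_
    · simp only [sub_self, abs_zero]; linarith
    · have := (abs_norm_sub_norm_le _ _).trans (f3 n)
      linarith
    · refine (abs_norm_sub_norm_le _ _).trans ?_
      rw [← map_sub]
      refine (S.R_le _ _).trans ?_
      rw [sub_sub_sub_cancel_left, norm_sub_rev]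
      linarith

lemma rel_ex (S : Sys B Valid (1 / 100)) (u : AA0 × B) : ∃ w, Rel S u w := by
  obtain ⟨a, c⟩ := u
  have hc : ContractingWith (1 / 2) ((step_maps S a c).restrict (step S a c) _ _) := by
    refine ⟨by norm_num, LipschitzWith.of_dist_le_mul fun w z => ?_⟩
    have := step_contr S a c w.2 z.2
    rw [Subtype.dist_eq, Subtype.dist_eq, dist_eq_norm, dist_eq_norm]
    simpa using this
  have h0 : ((0 : AA0), mk0 (fun n => max ‖a n‖ ‖S.R n c‖) (by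
      simpa using (tend0 a).norm.max (S.R_tend c).norm)) ∈ good S a c := by
    intro n
    refine ⟨by simp, le_max_left _ _, ?_⟩
    have h1 : ‖S.R n c‖ ≤ max ‖a n‖ ‖S.R n c‖ := le_max_right _ _
    have := norm_nonneg (S.R n c)
    simp only [mk0_apply]
    linarith
  obtain ⟨w, -, hfix, -⟩ := hc.exists_fixedPoint' (good_closed S a c).isComplete
    (step_maps S a c) h0 (edist_ne_top _ _)
  have e1 : (step S a c w).1 = w.1 := congrArg Prod.fst hfix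
  have e2 : (step S a c w).2 = w.2 := congrArg Prod.snd hfix
  refine ⟨(((1 / 3 : ℝ) • w.1 : AA0), c - S.I ⟨((1 / 3 : ℝ) • w.1 : AA0), a, w.2⟩ +
    S.I ⟨a, ((1 / 3 : ℝ) • w.1 : AA0), w.2⟩), w.2, fun n => ?_, rfl, fun n => ?_⟩
  · have : ((1 / 3 : ℝ) • w.1 : AA0) n = ((1 / 3 : ℝ) • (step S a c w).1 : AA0) n := by rw [e1]
    refine this.trans ?_
    simp only [step, third_three, mk0_apply]
  · have : w.2 n = (step S a c w).2 n := by rw [e2]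
    refine this.trans ?_
    simp only [step, mk0_apply]

end LF

theorem lemmaF : LemmaF := by
  intro B _ _ _ ⟨S⟩
  choose Θ hΘ using LF.rel_ex S
  refine ⟨Θ, fun u => ?_, LF.rel_unique S (hΘ _) (LF.rel_zero S),
    fun u v => LF.rel_lip S (hΘ u) (hΘ v)⟩
  exact LF.rel_unique S (hΘ _) (LF.rel_symm S (hΘ u))

end

end Crest.Agent.R91
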