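import Crest.Agent.R91.Defs

/-!
Row 91, task W: the `ℓ₁` swindle.
-/

set_option autoImplicit false

open Finset Filter Topology Function

namespace Crest.Agent.R91

noncomputable section

namespace SW

variable {A B : Type} [NormedAddCommGroup A] [NormedAddCommGroup B]

theorem hasSum_L1 (f : L1 B) : HasSum (fun i => ‖f i‖) ‖f‖ := by
  simpa using lp.hasSum_norm (p := 1) (by simp) f

theorem hasSum_L1_sub (f g : L1 B) : HasSum (fun i => ‖f i - g i‖) ‖f - g‖ := by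
  simpa using hasSum_L1 (f - g)

theorem mem_L1 {f : ℕ → B} (h : Summable fun i => ‖f i‖) : Memℓp f 1 :=
  memℓp_gen (by simpa using h)

theorem hasSum_succ {α : ℕ → ℝ} {S : ℝ} (h : HasSum α S) :
    HasSum (fun i => α (i + 1)) (S - α 0) := by
  simpa using (hasSum_nat_add_iff' 1).2 h

theorem fwd {α γ : ℕ → ℝ} {Γ : ℝ} (hα : ∀ i, 0 ≤ α i) (hγ : ∀ i, 0 ≤ γ i) (h : HasSum γ Γ)
    (hr : ∀ i, α (i + 1) ≤ 11 / 10 * γ i + 1 / 10 * α i) : Summable α := by
  refine summable_of_sum_range_le (c := (α 0 + 11 / 10 * Γ) * (10 / 9)) hα fun N => ?_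
  have h1 := sum_range_succ' α N
  have h2 := sum_range_succ α N
  have h3 : ∑ i ∈ range N, α (i + 1) ≤ ∑ i ∈ range N, (11 / 10 * γ i + 1 / 10 * α i) :=
    sum_le_sum fun i _ => hr i
  rw [sum_add_distrib, ← mul_sum, ← mul_sum] at h3
  have h4 := sum_le_hasSum (range N) (fun i _ => hγ i) h
  have h5 := hα N
  linarith

/-- the travelling sequence -/
def al (Θ : A × B → A × B) (u : A × L1 B) : ℕ → A
  | 0 => u.1
  | i + 1 => (Θ (al Θ u i, u.2 i)).1

variable {Θ : A × B → A × B}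

theorem bd0 (h : Invol A B Θ) (u : A × B) : ‖(Θ u).1‖ ≤ 11 / 10 * ‖u.2‖ + 1 / 10 * ‖u.1‖ ∧
    ‖(Θ u).2‖ ≤ 11 / 5 * ‖u.2‖ + 11 / 10 * ‖u.1‖ := by
  simpa [h.2.1] using h.2.2 u (0, 0)

theorem al_summable (h : Invol A B Θ) (u : A × L1 B) : Summable fun i => ‖al Θ u i‖ :=
  fwd (fun _ => norm_nonneg _) (fun _ => norm_nonneg _) (hasSum_L1 u.2)
    fun i => (bd0 h (al Θ u i, u.2 i)).1

/-- the swindle map -/
def Psi (h : Invol A B Θ) (u : A × L1 B) : L1 B :=
  ⟨fun i => (Θ (al Θ u i, u.2 i)).2, mem_L1 (Summable.of_nonneg_of_le (fun _ => norm_nonneg _)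
    (fun i => (bd0 h (al Θ u i, u.2 i)).2)
    (((hasSum_L1 u.2).summable.mul_left _).add ((al_summable h u).mul_left _)))⟩

theorem Psi_apply (h : Invol A B Θ) (u : A × L1 B) (i : ℕ) :
    Psi h u i = (Θ (al Θ u i, u.2 i)).2 := rfl

theorem Psi_bd (h : Invol A B Θ) (u v : A × L1 B) :
    ‖Psi h u - Psi h v‖ ≤ 18 / 5 * (‖u.1 - v.1‖ + ‖u.2 - v.2‖) ∧
      ‖u.1 - v.1‖ + ‖u.2 - v.2‖ ≤ 18 / 5 * ‖Psi h u - Psi h v‖ := by
  have hγ := hasSum_L1_sub u.2 v.2
  have hβ := hasSum_L1_sub (Psi h u) (Psi h v)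
  have f := fun i => h.2.2 (al Θ u i, u.2 i) (al Θ v i, v.2 i)
  have g := fun i => h.2.2 (Θ (al Θ u i, u.2 i)) (Θ (al Θ v i, v.2 i))
  simp only [h.1] at g
  have hα := (fwd (α := fun i => ‖al Θ u i - al Θ v i‖) (fun _ => norm_nonneg _)
    (fun _ => norm_nonneg _) hγ fun i => (f i).1).hasSum
  generalize ∑' i, ‖al Θ u i - al Θ v i‖ = S at hα
  have hα' := hasSum_succ hα
  have a1 := hasSum_le (fun i => (f i).1) hα' ((hγ.mul_left _).add (hα.mul_left _))
  have a2 := hasSum_le (fun i => (f i).2) hβ ((hγ.mul_left _).add (hα.mul_left _))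
  have a3 := hasSum_le (fun i => (g i).1) hα ((hβ.mul_left _).add (hα'.mul_left _))
  have a4 := hasSum_le (fun i => (g i).2) hγ ((hβ.mul_left _).add (hα'.mul_left _))
  have e : ‖al Θ u 0 - al Θ v 0‖ = ‖u.1 - v.1‖ := rfl
  rw [e] at a1 a3 a4
  have := norm_nonneg (u.1 - v.1)
  have := norm_nonneg (u.2 - v.2)
  have := norm_nonneg (Psi h u - Psi h v)
  constructor <;> linarith

/-- the backward map -/
def back (h : Invol A B Θ) (b : L1 B) (a : L1 A) : L1 A :=
  ⟨fun i => (Θ (a (i + 1), b i)).1, mem_L1 (Summable.of_nonneg_of_le (fun _ => norm_nonneg _)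
    (fun i => (bd0 h (a (i + 1), b i)).1)
    (((hasSum_L1 b).summable.mul_left _).add
      ((hasSum_succ (hasSum_L1 a)).summable.mul_left _)))⟩

theorem back_contr (h : Invol A B Θ) (b : L1 B) : ContractingWith (1 / 10) (back h b) := by
  refine ⟨by norm_num, LipschitzWith.of_dist_le_mul fun a a' => ?_⟩
  rw [dist_eq_norm, dist_eq_norm]
  have h1 := hasSum_le (fun i => by
      simpa [back] using (h.2.2 (a (i + 1), b i) (a' (i + 1), b i)).1)
    (hasSum_L1_sub (back h b a) (back h b a'))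
    ((hasSum_succ (hasSum_L1_sub a a')).mul_left (10⁻¹ : ℝ))
  have := norm_nonneg (a 0 - a' 0)
  push_cast
  linarith

theorem Psi_surj [CompleteSpace A] (h : Invol A B Θ) : Surjective (Psi h) := by
  intro b
  obtain ⟨a, ha⟩ : ∃ a : L1 A, back h b a = a :=
    ⟨_, (back_contr h b).fixedPoint_isFixedPt⟩
  have ha' : ∀ i, (Θ (a (i + 1), b i)).1 = a i := fun i => congrArg (fun f : L1 A => f i) ha
  let c : L1 B := ⟨fun i => (Θ (a (i + 1), b i)).2,
    mem_L1 (Summable.of_nonneg_of_le (fun _ => norm_nonneg _)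
      (fun i => (bd0 h (a (i + 1), b i)).2)
      (((hasSum_L1 b).summable.mul_left _).add
        ((hasSum_succ (hasSum_L1 a)).summable.mul_left _)))⟩
  have hc : ∀ i, Θ (a i, c i) = (a (i + 1), b i) := fun i => by
    rw [← h.1 (a (i + 1), b i), ← ha' i]
  have hal : ∀ i, al Θ (a 0, c) i = a i := fun i => by
    induction i with
    | zero => rfl
    | succ i ih => rw [al, ih, hc]
  refine ⟨(a 0, c), lp.ext (funext fun i => ?_)⟩
  rw [Psi_apply, hal, hc]

end SW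

open SW in
theorem swindle : Swindle := by
  intro A B _ _ _ _ _ _ Θ h
  refine ⟨Psi h, ⟨fun u v huv => ?_, Psi_surj h⟩, Psi_bd h⟩
  have h1 := (Psi_bd h u v).2
  rw [huv, sub_self, norm_zero, mul_zero] at h1
  have := norm_nonneg (u.1 - v.1)
  have := norm_nonneg (u.2 - v.2)
  exact Prod.ext (sub_eq_zero.1 (norm_eq_zero.1 (by linarith)))
    (sub_eq_zero.1 (norm_eq_zero.1 (by linarith)))

end

end Crest.Agent.R91
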