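import Crest.Agent.R91.C0
import Crest.Agent.R91.Swindle

/-!
Row 91, task X: `ℓ₁` sums preserve `NoC0`; separability.
-/

set_option autoImplicit false

open Finset Filter Topology Function TopologicalSpace

namespace Crest.Agent.R91

noncomputable section

namespace LP

theorem sep_of_tendsto {E X : Type} [NormedAddCommGroup E] [NormedAddCommGroup X]
    [SeparableSpace E] (sg : ℕ → E → X) (hc : ∀ i, Continuous (sg i))
    (h : ∀ f : X, ∃ y : ℕ → E, Tendsto (fun N => ∑ i ∈ range N, sg i (y i)) atTop (𝓝 f)) :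
    SeparableSpace X := by
  rw [← isSeparable_univ_iff]
  have h1 : IsSeparable (⋃ N : ℕ, Set.range fun y : ℕ → E => ∑ i ∈ range N, sg i (y i)) :=
    IsSeparable.iUnion fun N => isSeparable_range
      (continuous_finsetSum _ fun i _ => (hc i).comp (continuous_apply i))
  refine h1.closure.mono fun f _ => ?_
  obtain ⟨y, hy⟩ := h f
  exact mem_closure_of_tendsto hy (Eventually.of_forall fun N => Set.mem_iUnion.2 ⟨N, y, rfl⟩)

theorem sep_lp (E : Type) [NormedAddCommGroup E] [SeparableSpace E] (p : ENNReal) [Fact (1 ≤ p)]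
    (hp : p ≠ ⊤) : SeparableSpace (lp (fun _ : ℕ => E) p) :=
  sep_of_tendsto (fun i e => lp.single (E := fun _ : ℕ => E) p i e)
    (fun i => (lp.isometry_single (E := fun _ : ℕ => E) i).continuous)
    fun f => ⟨f, (lp.hasSum_single hp f).tendsto_sum_nat⟩

theorem sum_blocks (n : ℕ → ℕ) (hn : Monotone n) (f : ℕ → ℝ) (J : ℕ) :
    ∑ s ∈ range J, ∑ i ∈ Ico (n s) (n (s + 1)), f i = ∑ i ∈ Ico (n 0) (n J), f i := by
  induction J with
  | zero => simp
  | succ J ih =>
    rw [sum_range_succ, ih, sum_Ico_consecutive _ (hn (Nat.zero_le _)) (hn (Nat.le_succ _))]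

end LP

open LP

theorem sepB : SepB := by
  refine ⟨fun B _ _ _ => sep_lp B 1 (by simp), ?_⟩
  have : SeparableSpace H := sep_lp ℝ 2 (by simp)
  exact sep_of_tendsto C0.sg C0.continuous_sg fun f => ⟨f, C0.tendsto_sum_sg f⟩

theorem lpNoC0 (hS : Sel) : LpNoC0 := by
  intro B _ _ hB x ⟨C, hC⟩
  have hco : ∀ i, Tendsto (fun j => ‖x j i‖) atTop (𝓝 0) := fun i =>
    tendsto_zero_iff_norm_tendsto_zero.1 (hB (fun j => x j i) ⟨C, fun s ε hε => by
      refine le_trans (le_of_eq ?_) ((lp.norm_apply_le_norm one_ne_zero _ i).trans (hC s ε hε))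
      rw [lp.coeFn_sum, Finset.sum_apply]; rfl⟩)
  by_contra hx
  rw [Metric.tendsto_atTop] at hx
  push Not at hx
  obtain ⟨η, hη, hx⟩ := hx
  simp only [dist_zero_right] at hx
  have step : ∀ p : ℕ × ℕ, ∃ q : ℕ × ℕ, p.1 < q.1 ∧ p.2 ≤ q.2 ∧
      η / 2 ≤ ∑ i ∈ Ico p.2 q.2, ‖x q.1 i‖ := by
    intro p
    have h1 : Tendsto (fun j => ∑ i ∈ range p.2, ‖x j i‖) atTop (𝓝 0) := by
      simpa using tendsto_finsetSum (range p.2) fun i _ => hco i
    obtain ⟨N, hN⟩ := eventually_atTop.1 (h1.eventually (gt_mem_nhds (show (0 : ℝ) < η / 4 by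
      linarith)))
    obtain ⟨j, hj, hj'⟩ := hx (max N (p.1 + 1))
    have h2 := (SW.hasSum_L1 (x j)).tendsto_sum_nat
    obtain ⟨M, hM⟩ := eventually_atTop.1 (h2.eventually (lt_mem_nhds
      (show ‖x j‖ - η / 4 < ‖x j‖ by linarith)))
    refine ⟨(j, max M p.2), by have := le_max_right N (p.1 + 1); simp only; omega,
      le_max_right _ _, ?_⟩
    have h3 := hN j ((le_max_left _ _).trans hj)
    have h4 := hM _ (le_max_left M p.2)
    have h5 := sum_range_add_sum_Ico (fun i => ‖x j i‖) (le_max_right M p.2)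
    simp only at h3 h4 h5 ⊢
    linarith
  choose F hF1 hF2 hF3 using step
  let sq : ℕ → ℕ × ℕ := fun s => F^[s] (0, 0)
  have hsq : ∀ s, sq (s + 1) = F (sq s) := fun s => Function.iterate_succ_apply' _ _ _
  have hj : StrictMono fun s => (sq (s + 1)).1 :=
    strictMono_nat_of_lt_succ fun s => by rw [hsq (s + 1)]; exact hF1 _
  have hn : Monotone fun s => (sq s).2 := monotone_nat_of_le_succ fun s => by rw [hsq]; exact hF2 _
  choose f hf1 hf2 using fun b : B => exists_dual_vector'' ℝ b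
  let h : ℕ → L1 B →ₗ[ℝ] ℝ := fun s => ∑ i ∈ Ico (sq s).2 (sq (s + 1)).2,
    (f (x (sq (s + 1)).1 i)).toLinearMap ∘ₗ lp.evalₗ (𝕜 := ℝ) (E := fun _ : ℕ => B) (p := 1) i
  have hh : ∀ s y, h s y = ∑ i ∈ Ico (sq s).2 (sq (s + 1)).2, f (x (sq (s + 1)).1 i) (y i) :=
    fun s y => by simp [h]
  refine hS (L1 B) {g | ∀ y, g y ≤ ‖y‖} x (fun s => (sq (s + 1)).1) (η / 2) 1
    ⟨C, fun s ε hε g hg => (hg _).trans (hC s ε hε)⟩ hj.injective (half_pos hη) zero_le_one
    fun J => ⟨h, fun s _ => ?_, fun ε hε => ⟨_, fun y => ?_, (one_smul _ _).symm⟩⟩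
  · rw [hh]
    simp only [hf2, RCLike.ofReal_real_eq_id, id]
    rw [hsq]
    exact hF3 _
  · rw [LinearMap.sum_apply]
    calc _ ≤ ∑ s ∈ range J, ∑ i ∈ Ico (sq s).2 (sq (s + 1)).2, ‖y i‖ := by
          refine sum_le_sum fun s _ => ?_
          rw [LinearMap.smul_apply, hh, smul_eq_mul, mul_sum]
          refine sum_le_sum fun i _ => (le_abs_self _).trans ?_
          have h1 : |ε s| = 1 := by rcases hε s with h | h <;> simp [h]
          rw [abs_mul, h1, one_mul]
          exact ((f _).le_opNorm _).trans (mul_le_of_le_one_left (norm_nonneg _) (hf1 _))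
      _ = ∑ i ∈ Ico (sq 0).2 (sq J).2, ‖y i‖ := sum_blocks _ hn _ J
      _ ≤ ‖y‖ := sum_le_hasSum _ (fun _ _ => norm_nonneg _) (SW.hasSum_L1 y)

end

end Crest.Agent.R91
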