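import Crest.Agent.R91.JLib

/-! Task N of row 91: `jPair`, `mainT`. -/

set_option autoImplicit false
set_option linter.unusedSectionVars false

open Finset Filter Topology Function

namespace Crest.Agent.R91

open Classical JL

variable {ε : ℝ}

theorem jPair (P : Par ε) : JPair P := by
  intro ψ x k N
  unfold JJ AA
  rw [map_sum]
  refine sum_congr rfl fun q hq => ?_
  rw [map_smul, smul_eq_mul, Finsupp.apply_linearCombination]
  congr 2
  congr 1
  funext τ
  simp only [Function.comp, map_sum, map_smul, smul_eq_mul]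
  refine sum_congr rfl fun n _ => sum_congr rfl fun l _ => ?_
  congr 1
  unfold pairK
  rw [Finsupp.linearCombination_single, one_smul]
  simp [valK, hq]

namespace MT

/-- integrand on `[0,1]` -/
noncomputable def hv (F : Fam) (τ : Tag) (n l : ℕ) (a b s : ℝ) : ℝ :=
  if Act τ ∧ (n : ℕ∞) < τ 0 then F τ n l (b + (a - b) * s) * (a - b) else 0

theorem good_of {τ : Tag} {n : ℕ} (h : Act τ ∧ (n : ℕ∞) < τ 0) : Good (n + 1) τ :=
  ⟨h.1.1, by push_cast; exact Order.add_one_le_of_lt h.2⟩

theorem hv_itg (hB : BasicBd) {ω S C : ℝ} {F : Fam} (hF : InE ω S C F) (τ : Tag) (n l : ℕ)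
    (a b : ℝ) : IntervalIntegrable (hv F τ n l a b) MeasureTheory.volume 0 1 := by
  unfold hv
  by_cases h : Act τ ∧ (n : ℕ∞) < τ 0
  · simp only [h, and_self, if_true]
    refine IntervalIntegrable.mul_const ?_ _
    have hm : Measurable (fun s : ℝ => F τ n l (b + (a - b) * s)) :=
      (hF.meas τ n l).comp (by fun_prop)
    have hb : ∀ t, |F τ n l t| ≤ S := fun t =>
      hB.pt n l t (hF.cap (n + 1) τ (good_of h)) (Nat.lt_succ_self n)
    refine (intervalIntegrable_const (c := S)).mono_fun hm.aestronglyMeasurable ?_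
    refine Eventually.of_forall fun s => ?_
    simp only [Real.norm_eq_abs]
    exact (hb _).trans (le_abs_self _)
  · simp only [h, if_false]
    exact intervalIntegrable_const

theorem val_sub (hB : BasicBd) {ω S C : ℝ} {F : Fam} (hF : InE ω S C F) (τ : Tag) (n l : ℕ)
    (a b : ℝ) :
    valE F (τ, n, l, a) - valE F (τ, n, l, b) = ∫ s in (0 : ℝ)..1, hv F τ n l a b s := by
  unfold hv valE
  by_cases h : Act τ ∧ (n : ℕ∞) < τ 0
  · simp only [h, and_self, if_true]
    have hi : ∀ u v, IntervalIntegrable (F τ n l) MeasureTheory.volume u v := fun u v =>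
      hB.itg n l u v (hF.meas τ n l) (hF.cap (n + 1) τ (good_of h)) (Nat.lt_succ_self n)
    rw [intervalIntegral.integral_interval_sub_left (hi _ _) (hi _ _),
      intervalIntegral.integral_mul_const, mul_comm, ← smul_eq_mul,
      intervalIntegral.smul_integral_comp_add_mul]
    simp
  · simp [h]

end MT

open MT

theorem mainT (hB : BasicBd) (_hE : BasicE) (hM : MuB) (hL : LawB) (P : Par ε) : MainT P := by
  intro ψ hψ x y δ δa K N hloc ha
  obtain ⟨S, hS, -, -, hb⟩ := hψ
  have hδa : 0 ≤ δa := (norm_nonneg _).trans (ha 0)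
  set Φ : ℝ → ℝ := fun s => ∑ k ∈ range K, ∑ q ∈ P.Q k, P.π k q (pos x) *
    ∑ τ ∈ (muP P x k N).support, muP P x k N τ * ∑ n ∈ range N, ∑ l ∈ range N,
      P.θ k (x.σ n) * hv (ψ k q) τ n l (x.a n l) (y.a n l) s with hΦ
  have i1 : ∀ k q τ n l, IntervalIntegrable (fun s =>
      P.θ k (x.σ n) * hv (ψ k q) τ n l (x.a n l) (y.a n l) s) MeasureTheory.volume 0 1 :=
    fun k q τ n l => (hv_itg hB (hS k q) τ n l _ _).const_mul _
  have isum : ∀ {ι : Type} (s : Finset ι) (f : ι → ℝ → ℝ),
      (∀ i ∈ s, IntervalIntegrable (f i) MeasureTheory.volume 0 1) →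
      IntervalIntegrable (fun t => ∑ i ∈ s, f i t) MeasureTheory.volume 0 1 := by
    intro ι s f h
    have := IntervalIntegrable.sum s h
    have e : (fun t => ∑ i ∈ s, f i t) = ∑ i ∈ s, f i := by
      funext t
      simp
    rw [e]
    exact this
  have i2 : ∀ k q τ n, IntervalIntegrable (fun s => ∑ l ∈ range N,
      P.θ k (x.σ n) * hv (ψ k q) τ n l (x.a n l) (y.a n l) s) MeasureTheory.volume 0 1 :=
    fun k q τ n => isum _ _ fun l _ => i1 k q τ n l
  have i3 : ∀ k q τ, IntervalIntegrable (fun s => muP P x k N τ * ∑ n ∈ range N, ∑ l ∈ range N,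
      P.θ k (x.σ n) * hv (ψ k q) τ n l (x.a n l) (y.a n l) s) MeasureTheory.volume 0 1 :=
    fun k q τ => (isum _ _ fun n _ => i2 k q τ n).const_mul _
  have i4 : ∀ k q, IntervalIntegrable (fun s => P.π k q (pos x) *
      ∑ τ ∈ (muP P x k N).support, muP P x k N τ * ∑ n ∈ range N, ∑ l ∈ range N,
      P.θ k (x.σ n) * hv (ψ k q) τ n l (x.a n l) (y.a n l) s) MeasureTheory.volume 0 1 :=
    fun k q => (isum _ _ fun τ _ => i3 k q τ).const_mul _
  have i5 : ∀ k, IntervalIntegrable (fun s => ∑ q ∈ P.Q k, P.π k q (pos x) *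
      ∑ τ ∈ (muP P x k N).support, muP P x k N τ * ∑ n ∈ range N, ∑ l ∈ range N,
      P.θ k (x.σ n) * hv (ψ k q) τ n l (x.a n l) (y.a n l) s) MeasureTheory.volume 0 1 :=
    fun k => isum _ _ fun q _ => i4 k q
  have iΦ : IntervalIntegrable Φ MeasureTheory.volume 0 1 := isum _ _ fun k _ => i5 k
  have heq : ∑ k ∈ range K, (AA P ψ k N x x x x - AA P ψ k N x x x y) =
      ∫ s in (0 : ℝ)..1, Φ s := by
    rw [hΦ, intervalIntegral.integral_finset_sum (fun k _ => i5 k)]
    refine sum_congr rfl fun k _ => ?_
    rw [intervalIntegral.integral_finset_sum (fun q _ => i4 k q)]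
    unfold AA
    rw [← sum_sub_distrib]
    refine sum_congr rfl fun q _ => ?_
    rw [← mul_sub, LC_sub, LC_eq, intervalIntegral.integral_const_mul,
      intervalIntegral.integral_finset_sum (fun τ _ => i3 k q τ)]
    congr 1
    refine sum_congr rfl fun τ _ => ?_
    rw [intervalIntegral.integral_const_mul,
      intervalIntegral.integral_finset_sum (fun n _ => i2 k q τ n), ← sum_sub_distrib]
    congr 1
    refine sum_congr rfl fun n _ => ?_
    rw [intervalIntegral.integral_finset_sum (fun l _ => i1 k q τ n l), ← sum_sub_distrib]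
    refine sum_congr rfl fun l _ => ?_
    rw [intervalIntegral.integral_const_mul, ← mul_sub, val_sub hB (hS k q)]
  rw [heq]
  have hpt : ∀ s ∈ Set.Icc (0 : ℝ) 1, Φ s ≤ δa := by
    intro s hs
    set v : ℕ → ℕ → ℝ := fun n l => y.a n l + (x.a n l - y.a n l) * s with hv'
    obtain ⟨b, hb0, hb1, hb2⟩ := hb v
    calc Φ s ≤ ∑ k ∈ range K, b k * δa := by
          refine sum_le_sum fun k hk => ?_
          have L := hloc k (mem_range.1 hk)
          refine avg_le P L.hx k _ _ fun q hq h0 => ?_
          have hcomp : Compat P k q v := by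
            intro n hn l hl
            obtain ⟨bb, hbb⟩ := pos_eq x n l
            refine ⟨bb, ?_⟩
            have h1 := (P.π_supp k q _ h0).2 n hn l hl bb
            rw [hbb] at h1
            have h2 : |x.a n l - y.a n l| ≤ δ := by
              have := abs_le_norm (x.a n - y.a n) l
              simp only [lp.coeFn_sub, Pi.sub_apply] at this
              exact this.trans (L.near n).1
            have h3 : v n l - q n l bb = (x.a n l - q n l bb) - (x.a n l - y.a n l) * (1 - s) := by
              simp only [hv']; ring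
            have h4 : |(x.a n l - y.a n l) * (1 - s)| ≤ δ := by
              rw [abs_mul, abs_of_nonneg (by linarith [hs.2] : (0 : ℝ) ≤ 1 - s)]
              have := abs_nonneg (x.a n l - y.a n l)
              nlinarith [hs.1, hs.2]
            rw [h3]
            have := abs_sub (x.a n l - q n l bb) ((x.a n l - y.a n l) * (1 - s))
            linarith [L.δρ]
          obtain ⟨m0, hm0, hθ, hsupp⟩ := supp_good hM hL P L.hx.1 L.Dx
          rw [← LC_eq (fun τ => ∑ n ∈ range N, ∑ l ∈ range N,
            P.θ k (x.σ n) * hv (ψ k q) τ n l (x.a n l) (y.a n l) s)]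
          refine hM.le _ _ _ (isLaw hL P L.hx.1 L.Dx).1 fun τ hτ => ?_
          obtain ⟨hg, hact⟩ := hsupp τ hτ
          have hsc := hB.scale (fun n l => P.θ k (x.σ n) * (x.a n l - y.a n l)) N δa
            (hb2 k q hq hcomp m0 τ hg) hδa (fun n _ => by
              have h1 := sq_sum_le (x.a n - y.a n) (range N)
              simp only [lp.coeFn_sub, Pi.sub_apply] at h1
              have h2 : ‖x.a n - y.a n‖ ^ 2 ≤ δa ^ 2 :=
                pow_le_pow_left₀ (norm_nonneg _) (ha n) 2
              have h3 := P.θ_nonneg k (x.σ n)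
              have h4 := P.θ_le k (x.σ n)
              have h7 : P.θ k (x.σ n) ^ 2 ≤ 1 := by nlinarith
              refine le_trans (sum_le_sum fun l _ => ?_) (h1.trans h2)
              rw [mul_pow]
              nlinarith [sq_nonneg (x.a n l - y.a n l)])
          refine le_trans (le_of_eq ?_) hsc
          symm
          rw [← sum_subset (range_subset_range.2 hm0)]
          · refine sum_congr rfl fun n hn => sum_congr rfl fun l _ => ?_
            have := lt_of_good hg (mem_range.1 hn)
            simp only [hv, hact, this, and_self, if_true, hv']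
            ring
          · intro n _ hn
            have : P.θ k (x.σ n) = 0 := hθ n (by simpa using hn)
            simp [this]
      _ ≤ δa := by
          rw [← sum_mul]
          nlinarith [hb1 K]
  calc ∫ s in (0 : ℝ)..1, Φ s ≤ ∫ _ in (0 : ℝ)..1, δa :=
        intervalIntegral.integral_mono_on zero_le_one iΦ intervalIntegrable_const hpt
    _ = δa := by simp

end Crest.Agent.R91
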