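import Crest.Agent.R91.Defs

/-!
Row 91, task L: the product laws `mu`.
-/

set_option autoImplicit false

open Finset Filter Topology Function

namespace Crest.Agent.R91

noncomputable section

namespace MU

theorem lc_zero (q : ℕ → ℕ → ℝ) (M : ℕ) (τ : Tag) (G : Tag → ℝ) :
    Finsupp.linearCombination ℝ G (mu q M 0 τ) = G τ := by
  rw [mu_zero, Finsupp.linearCombination_single, one_smul]

theorem lc_succ (q : ℕ → ℕ → ℝ) (M N : ℕ) (τ : Tag) (G : Tag → ℝ) :
    Finsupp.linearCombination ℝ G (mu q M (N + 1) τ) =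
      ∑ m ∈ range (M + 1),
        q N m * Finsupp.linearCombination ℝ G (mu q M N (update τ N (m : ℕ∞))) := by
  rw [mu_succ, map_sum]
  exact sum_congr rfl fun m _ => by rw [map_smul, smul_eq_mul]

theorem lc_eq (μ : Tag →₀ ℝ) (G : Tag → ℝ) :
    Finsupp.linearCombination ℝ G μ = ∑ t ∈ μ.support, μ t * G t := by
  rw [Finsupp.linearCombination_apply]
  rfl

theorem lc_sum (μ : Tag →₀ ℝ) (s : Finset ℕ) (c : ℕ → ℝ) (G : ℕ → Tag → ℝ) :
    ∑ m ∈ s, c m * Finsupp.linearCombination ℝ (G m) μ =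
      Finsupp.linearCombination ℝ (fun t => ∑ m ∈ s, c m * G m t) μ := by
  simp only [lc_eq, mul_sum]
  rw [sum_comm]
  exact sum_congr rfl fun t _ => sum_congr rfl fun m _ => by ring

theorem law_pred {q : ℕ → ℕ → ℝ} {M N : ℕ} (h : IsLaw q M (N + 1)) : IsLaw q M N :=
  fun i hi => h i (Nat.lt_succ_of_lt hi)

theorem law_mono {q : ℕ → ℕ → ℝ} {M N N' : ℕ} (h : IsLaw q M N') (hN : N ≤ N') : IsLaw q M N :=
  fun i hi => h i (hi.trans_le hN)

theorem nonneg {q : ℕ → ℕ → ℝ} {M N : ℕ} (τ τ' : Tag) (h : IsLaw q M N) : 0 ≤ mu q M N τ τ' := by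
  induction N generalizing τ with
  | zero =>
    classical
    rw [mu_zero, Finsupp.single_apply]
    split_ifs <;> norm_num
  | succ N ih =>
    rw [mu_succ, Finsupp.finset_sum_apply]
    refine sum_nonneg fun m _ => ?_
    rw [Finsupp.smul_apply, smul_eq_mul]
    exact mul_nonneg ((h N (Nat.lt_succ_self N)).1 m) (ih _ (law_pred h))

theorem lc_const {q : ℕ → ℕ → ℝ} {M N : ℕ} (τ : Tag) (h : IsLaw q M N) (r : ℝ) :
    Finsupp.linearCombination ℝ (fun _ => r) (mu q M N τ) = r := by
  induction N generalizing τ with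
  | zero => rw [lc_zero]
  | succ N ih =>
    rw [lc_succ]
    simp only [ih _ (law_pred h)]
    rw [← sum_mul, (h N (Nat.lt_succ_self N)).2, one_mul]

theorem mass {q : ℕ → ℕ → ℝ} {M N : ℕ} (τ : Tag) (h : IsLaw q M N) :
    ∑ τ' ∈ (mu q M N τ).support, mu q M N τ τ' = 1 := by
  have := lc_const τ h 1
  rw [lc_eq] at this
  simpa using this

theorem box_succ {N : ℕ} {lo hi : ℕ → ℕ} {τ τ' : Tag} {m : ℕ} (h1 : lo N ≤ m) (h2 : m ≤ hi N)
    (h : Box N lo hi (update τ N (m : ℕ∞)) τ') : Box (N + 1) lo hi τ τ' := by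
  refine ⟨fun i hi' => ?_, fun i hi' => ?_⟩
  · rcases Nat.lt_succ_iff_lt_or_eq.1 hi' with h3 | rfl
    · exact h.1 i h3
    · exact ⟨m, by rw [h.2 i le_rfl, update_self], h1, h2⟩
  · rw [h.2 i (by omega), update_of_ne (by omega)]

theorem supp {q : ℕ → ℕ → ℝ} {M N : ℕ} {lo hi : ℕ → ℕ} (τ τ' : Tag)
    (hq : ∀ i < N, ∀ m, q i m ≠ 0 → lo i ≤ m ∧ m ≤ hi i) (h : τ' ∈ (mu q M N τ).support) :
    Box N lo hi τ τ' := by
  induction N generalizing τ with
  | zero =>
    rw [mu_zero] at h
    have := Finsupp.support_single_subset h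
    rw [mem_singleton] at this
    subst this
    exact ⟨fun i hi => absurd hi (Nat.not_lt_zero _), fun _ _ => rfl⟩
  | succ N ih =>
    rw [Finsupp.mem_support_iff, mu_succ, Finsupp.finset_sum_apply] at h
    obtain ⟨m, -, hm⟩ := exists_ne_zero_of_sum_ne_zero h
    rw [Finsupp.smul_apply, smul_eq_mul] at hm
    obtain ⟨a, b⟩ := hq N (Nat.lt_succ_self N) m (left_ne_zero_of_mul hm)
    exact box_succ a b (ih _ (fun i hi => hq i (Nat.lt_succ_of_lt hi))
      (Finsupp.mem_support_iff.2 (right_ne_zero_of_mul hm)))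

theorem le {q : ℕ → ℕ → ℝ} {M N : ℕ} (τ : Tag) (G : Tag → ℝ) (r : ℝ) (h : IsLaw q M N)
    (hG : ∀ τ' ∈ (mu q M N τ).support, G τ' ≤ r) :
    Finsupp.linearCombination ℝ G (mu q M N τ) ≤ r := by
  rw [lc_eq]
  calc _ ≤ ∑ t ∈ (mu q M N τ).support, mu q M N τ t * r :=
        sum_le_sum fun t ht => mul_le_mul_of_nonneg_left (hG t ht) (nonneg τ t h)
    _ = r := by rw [← sum_mul, mass τ h, one_mul]

/-- The integral only depends on the values on the tags that agree with the base above `N`. -/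
theorem lc_congr (q : ℕ → ℕ → ℝ) (M N : ℕ) (τ τ' : Tag) (G G' : Tag → ℝ)
    (h : ∀ t t' : Tag, (∀ i < N, t i = t' i) → (∀ i, N ≤ i → t i = τ i) →
      (∀ i, N ≤ i → t' i = τ' i) → G t = G' t') :
    Finsupp.linearCombination ℝ G (mu q M N τ) = Finsupp.linearCombination ℝ G' (mu q M N τ') := by
  induction N generalizing τ τ' with
  | zero =>
    rw [lc_zero, lc_zero]
    exact h τ τ' (fun i hi => absurd hi (Nat.not_lt_zero _)) (fun _ _ => rfl) fun _ _ => rfl
  | succ N ih =>
    rw [lc_succ, lc_succ]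
    refine sum_congr rfl fun m _ => ?_
    congr 1
    refine ih _ _ fun t t' h1 h2 h3 => h t t' (fun i hi => ?_) (fun i hi => ?_) fun i hi => ?_
    · rcases Nat.lt_succ_iff_lt_or_eq.1 hi with h4 | rfl
      · exact h1 i h4
      · rw [h2 i le_rfl, h3 i le_rfl, update_self, update_self]
    · rw [h2 i (by omega), update_of_ne (by omega)]
    · rw [h3 i (by omega), update_of_ne (by omega)]

theorem top_congr {N : ℕ} {t t' : Tag} (h : ∀ i < N, t i = t' i) : top N t = top N t' := by
  funext i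
  unfold top
  split_ifs with hi
  · exact h i hi
  · rfl

theorem mu_cut {q : ℕ → ℕ → ℝ} {M M' N : ℕ} (hM : M ≤ M') (hq : ∀ i < N, ∀ m, M < m → q i m = 0)
    (τ : Tag) : mu q M' N τ = mu q M N τ := by
  induction N generalizing τ with
  | zero => rfl
  | succ N ih =>
    rw [mu_succ, mu_succ]
    simp only [ih fun i hi => hq i (Nat.lt_succ_of_lt hi)]
    symm
    refine sum_subset (range_subset_range.2 (by omega)) fun m _ hm => ?_
    rw [hq N (Nat.lt_succ_self N) m (by rw [mem_range] at hm; omega), zero_smul]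

theorem indep {q : ℕ → ℕ → ℝ} {M M' N N' : ℕ} (τ τ' : Tag) (G : Tag → ℝ) (hM : M ≤ M')
    (hN : N ≤ N') (h : IsLaw q M' N') (hq : ∀ i < N, ∀ m, M < m → q i m = 0) :
    Finsupp.linearCombination ℝ (fun t => G (top N t)) (mu q M' N' τ') =
      Finsupp.linearCombination ℝ (fun t => G (top N t)) (mu q M N τ) := by
  rw [← mu_cut hM hq τ]
  induction N', hN using Nat.le_induction generalizing τ' with
  | base => exact lc_congr _ _ _ _ _ _ _ fun t t' h1 _ _ => by rw [top_congr h1]
  | succ N' hN ih =>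
    rw [lc_succ]
    simp only [ih _ (law_pred h)]
    rw [← sum_mul, (h N' (Nat.lt_succ_self N')).2, one_mul]

theorem abel (d γ : ℕ → ℝ) (n : ℕ) :
    ∑ m ∈ range n, d m * γ m = (∑ j ∈ range n, d j) * γ n -
      ∑ m ∈ range n, (∑ j ∈ range (m + 1), d j) * (γ (m + 1) - γ m) := by
  induction n with
  | zero => simp
  | succ n ih =>
    rw [sum_range_succ, ih, sum_range_succ (fun m => (∑ j ∈ range (m + 1), d j) * (γ (m + 1) - γ m)),
      sum_range_succ d]
    ring

theorem abel_le (d γ P : ℕ → ℝ) (M lo hi : ℕ) (η W : ℝ) (h0 : ∑ j ∈ range (M + 1), d j = 0)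
    (hd : ∀ m, d m ≠ 0 → lo ≤ m ∧ m ≤ hi) (hη : ∀ m, |∑ j ∈ range m, d j| ≤ η)
    (hP : Monotone P) (hW : ∀ s, 0 ≤ P s ∧ P s ≤ W)
    (hγ : ∀ s, lo ≤ s → s + 1 ≤ hi → |γ (s + 1) - γ s| ≤ P (s + 1) - P s) :
    ∑ m ∈ range (M + 1), d m * γ m ≤ η * W := by
  have hη0 : 0 ≤ η := (abs_nonneg _).trans (hη 0)
  rw [abel, h0, zero_mul, zero_sub, ← sum_neg_distrib]
  have h1 : ∀ m ∈ range (M + 1), -((∑ j ∈ range (m + 1), d j) * (γ (m + 1) - γ m)) ≤
      η * (P (m + 1) - P m) := by
    intro m hm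
    have hΔ : 0 ≤ P (m + 1) - P m := sub_nonneg.2 (hP (Nat.le_succ m))
    by_cases hc : lo ≤ m ∧ m + 1 ≤ hi
    · refine (neg_le_abs _).trans ?_
      rw [abs_mul]
      exact mul_le_mul (hη _) (hγ m hc.1 hc.2) (abs_nonneg _) hη0
    · have hz : ∑ j ∈ range (m + 1), d j = 0 := by
        by_cases hl : lo ≤ m
        · rw [← h0]
          refine sum_subset (range_subset_range.2 (by rw [mem_range] at hm; omega)) fun j _ hj => ?_
          by_contra hne
          have := (hd j hne).2
          rw [mem_range] at hj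
          omega
        · refine sum_eq_zero fun j hj => ?_
          by_contra hne
          have := (hd j hne).1
          rw [mem_range] at hj
          omega
      rw [hz, zero_mul, neg_zero]
      exact mul_nonneg hη0 hΔ
  refine (sum_le_sum h1).trans ?_
  rw [← mul_sum, sum_range_sub]
  refine mul_le_mul_of_nonneg_left ?_ hη0
  linarith [(hW (M + 1)).2, (hW 0).1]

theorem diff {q q' : ℕ → ℕ → ℝ} {M N : ℕ} (lo hi : ℕ → ℕ) (η W : ℕ → ℝ) (τ : Tag) (G : Tag → ℝ)
    (h : IsLaw q M N) (h' : IsLaw q' M N)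
    (hq : ∀ i < N, ∀ m, q i m ≠ 0 ∨ q' i m ≠ 0 → lo i ≤ m ∧ m ≤ hi i)
    (hη : ∀ i < N, ∀ m, |∑ j ∈ range m, q i j - ∑ j ∈ range m, q' i j| ≤ η i)
    (hG : ∀ τ', Box N lo hi τ τ' → ∀ i < N, ∃ P : ℕ → ℝ, Monotone P ∧
      (∀ s, 0 ≤ P s ∧ P s ≤ W i) ∧ ∀ s : ℕ, lo i ≤ s → s + 1 ≤ hi i →
        |G (update τ' i ((s + 1 : ℕ) : ℕ∞)) - G (update τ' i (s : ℕ∞))| ≤ P (s + 1) - P s) :
    Finsupp.linearCombination ℝ G (mu q M N τ) - Finsupp.linearCombination ℝ G (mu q' M N τ) ≤
      ∑ i ∈ range N, η i * W i := by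
  induction N generalizing τ with
  | zero => rw [lc_zero, lc_zero]; simp
  | succ N ih =>
    have hN := Nat.lt_succ_self N
    rw [lc_succ, lc_succ, sum_range_succ (fun i => η i * W i)]
    set A : ℕ → ℝ := fun m => Finsupp.linearCombination ℝ G (mu q M N (update τ N (m : ℕ∞)))
      with hA
    set B : ℕ → ℝ := fun m => Finsupp.linearCombination ℝ G (mu q' M N (update τ N (m : ℕ∞)))
      with hB
    have e : ∑ m ∈ range (M + 1), q N m * A m - ∑ m ∈ range (M + 1), q' N m * B m =
        ∑ m ∈ range (M + 1), q N m * (A m - B m) +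
          ∑ m ∈ range (M + 1), (q N m - q' N m) * B m := by
      rw [← sum_sub_distrib, ← sum_add_distrib]
      exact sum_congr rfl fun m _ => by ring
    have h1 : ∑ m ∈ range (M + 1), q N m * (A m - B m) ≤ ∑ i ∈ range N, η i * W i := by
      calc _ ≤ ∑ m ∈ range (M + 1), q N m * ∑ i ∈ range N, η i * W i := by
            refine sum_le_sum fun m _ => ?_
            by_cases hm : q N m = 0
            · rw [hm, zero_mul, zero_mul]
            · obtain ⟨a, b⟩ := hq N hN m (Or.inl hm)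
              refine mul_le_mul_of_nonneg_left ?_ ((h N hN).1 m)
              exact ih _ (law_pred h) (law_pred h') (fun i hi => hq i (Nat.lt_succ_of_lt hi))
                (fun i hi => hη i (Nat.lt_succ_of_lt hi))
                fun τ' hτ' i hi => hG τ' (box_succ a b hτ') i (Nat.lt_succ_of_lt hi)
        _ = _ := by rw [← sum_mul, (h N hN).2, one_mul]
    have hlh : lo N ≤ hi N := by
      have : ∑ m ∈ range (M + 1), q N m ≠ 0 := by rw [(h N hN).2]; exact one_ne_zero
      obtain ⟨m, -, hm⟩ := exists_ne_zero_of_sum_ne_zero this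
      obtain ⟨a, b⟩ := hq N hN m (Or.inl hm)
      exact a.trans b
    have h2 : ∑ m ∈ range (M + 1), (q N m - q' N m) * B m ≤ η N * W N := by
      have hB' : ∀ m : ℕ, B m = Finsupp.linearCombination ℝ (fun t => G (update t N (m : ℕ∞)))
          (mu q' M N (update τ N (lo N : ℕ∞))) := by
        intro m
        refine lc_congr _ _ _ _ _ _ _ fun t t' a b c => ?_
        congr 1
        funext i
        rcases lt_trichotomy i N with hi | rfl | hi
        · rw [update_of_ne hi.ne, a i hi]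
        · rw [update_self, b i le_rfl, update_self]
        · rw [update_of_ne hi.ne', b i hi.le, c i hi.le, update_of_ne hi.ne', update_of_ne hi.ne']
      simp only [hB']
      rw [lc_sum]
      refine le _ _ _ (law_pred h') fun t ht => ?_
      have hbox : Box (N + 1) lo hi τ t := box_succ le_rfl hlh
        (supp _ _ (fun i hi m hm => hq i (Nat.lt_succ_of_lt hi) m (Or.inr hm)) ht)
      obtain ⟨P, hP, hW, hγ⟩ := hG t hbox N hN
      refine abel_le (fun m => q N m - q' N m) (fun m => G (update t N (m : ℕ∞))) P M (lo N) (hi N)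
        (η N) (W N) ?_ ?_ ?_ hP hW hγ
      · rw [sum_sub_distrib, (h N hN).2, (h' N hN).2, sub_self]
      · intro m hm
        refine hq N hN m ?_
        by_contra hc
        rw [not_or, not_not, not_not] at hc
        exact hm (by rw [hc.1, hc.2, sub_self])
      · intro m
        rw [sum_sub_distrib]
        exact hη N hN m
    show ∑ m ∈ range (M + 1), q N m * A m - ∑ m ∈ range (M + 1), q' N m * B m ≤ _
    rw [e]
    exact add_le_add h1 h2

end MU

theorem muB : MuB where
  nonneg := MU.nonneg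
  mass := MU.mass
  supp := MU.supp
  le := MU.le
  box_update := by
    intro N lo hi τ τ' i s h hi' h1 h2
    refine ⟨fun j hj => ?_, fun j hj => ?_⟩
    · by_cases e : j = i
      · subst e
        exact ⟨s, update_self _ _ _, h1, h2⟩
      · rw [update_of_ne e]; exact h.1 j hj
    · rw [update_of_ne (by omega)]; exact h.2 j hj
  indep := MU.indep
  diff := MU.diff

end

end Crest.Agent.R91
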