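import Crest.Agent.R91.Defs

set_option autoImplicit false

open Finset Filter

namespace Crest.Agent.R91

noncomputable section

namespace Scales

/-- gaps -/
def lam (e : ℕ → ℝ) (j : ℕ) : ℝ := 1 + ∑ i ∈ range (j + 1), 2 / e i

/-- logarithms of the scales -/
def u (b e : ℕ → ℝ) : ℕ → ℝ
  | 0 => min 0 (Real.log (b 0))
  | k + 1 => min (u b e k - lam e k) (Real.log (b (k + 1)))

/-- logarithmic ramp -/
def s (b e : ℕ → ℝ) (k : ℕ) (σ : ℝ) : ℝ :=
  if σ ≤ 0 then 0 else max 0 (min 1 ((Real.log σ - u b e (k + 1)) / (u b e k - u b e (k + 1))))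

variable {b e : ℕ → ℝ}

theorem one_le_lam (he : ∀ k, 0 < e k) (j : ℕ) : 1 ≤ lam e j :=
  le_add_of_nonneg_right (sum_nonneg fun i _ => by have := he i; positivity)

theorem le_lam (he : ∀ k, 0 < e k) {k j : ℕ} (h : k ≤ j) : 2 / e k ≤ lam e j := by
  have := single_le_sum (f := fun i => 2 / e i) (s := range (j + 1))
    (fun i _ => by have := he i; positivity) (mem_range.2 (Nat.lt_succ_of_le h))
  unfold lam; linarith

theorem gap (k : ℕ) : lam e k ≤ u b e k - u b e (k + 1) := by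
  have : u b e (k + 1) ≤ u b e k - lam e k := min_le_left _ _
  linarith

theorem u_le (he : ∀ k, 0 < e k) (k : ℕ) : u b e k ≤ -k := by
  induction k with
  | zero => rw [Nat.cast_zero, neg_zero]; exact min_le_left _ _
  | succ k ih =>
    have := gap (b := b) (e := e) k
    have := one_le_lam he k
    push_cast; linarith

theorem exp_le (hb : ∀ k, 0 < b k) (k : ℕ) : Real.exp (u b e k) ≤ b k := by
  rw [← Real.le_log_iff_exp_le (hb k)]
  cases k <;> exact min_le_right _ _

theorem s_mem (k : ℕ) (σ : ℝ) : 0 ≤ s b e k σ ∧ s b e k σ ≤ 1 := by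
  unfold s
  split_ifs
  · exact ⟨le_rfl, zero_le_one⟩
  · exact ⟨le_max_left _ _, max_le zero_le_one (min_le_left _ _)⟩

theorem s_zero (he : ∀ k, 0 < e k) {k : ℕ} {σ : ℝ} (h : σ ≤ Real.exp (u b e (k + 1))) :
    s b e k σ = 0 := by
  unfold s
  split_ifs with h0
  · rfl
  · have h1 := (Real.log_le_iff_le_exp (not_le.1 h0)).2 h
    have h2 := (one_le_lam he k).trans (gap (b := b) k)
    exact max_eq_left (min_le_of_right_le (div_nonpos_of_nonpos_of_nonneg (by linarith) (by linarith)))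

theorem s_one (he : ∀ k, 0 < e k) {k : ℕ} {σ : ℝ} (h : Real.exp (u b e k) ≤ σ) :
    s b e k σ = 1 := by
  have h0 : 0 < σ := (Real.exp_pos _).trans_le h
  unfold s
  rw [if_neg (not_le.2 h0)]
  have h1 := (Real.le_log_iff_exp_le h0).2 h
  have h2 := (one_le_lam he k).trans (gap (b := b) k)
  rw [min_eq_left ((one_le_div (by linarith)).2 (by linarith)), max_eq_right zero_le_one]

theorem s_mono (he : ∀ k, 0 < e k) (σ : ℝ) : Monotone fun k => s b e k σ := by
  refine monotone_nat_of_le_succ fun k => ?_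
  rcases le_total σ (Real.exp (u b e (k + 1))) with h | h
  · rw [s_zero he h]; exact (s_mem _ _).1
  · rw [s_one he h]; exact (s_mem _ _).2

theorem log_lip {σ σ' : ℝ} (h : 0 < σ) (h' : σ ≤ σ') :
    min σ σ' * |Real.log σ - Real.log σ'| ≤ |σ - σ'| := by
  have h1 := Real.log_le_log h h'
  have h2 := Real.log_le_sub_one_of_pos (div_pos (h.trans_le h') h)
  rw [Real.log_div (h.trans_le h').ne' h.ne'] at h2
  rw [min_eq_left h', abs_of_nonpos (by linarith), abs_of_nonpos (by linarith)]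
  have h3 := mul_le_mul_of_nonneg_left h2 h.le
  rw [mul_sub σ (σ' / σ), mul_div_cancel₀ _ h.ne'] at h3
  linarith

theorem cl_lip (y y' : ℝ) : |max 0 (min 1 y) - max 0 (min 1 y')| ≤ |y - y'| := by
  have h := le_abs_self (y - y')
  have h' := neg_abs_le (y - y')
  rw [abs_le]
  simp only [max_def, min_def]
  split_ifs <;> constructor <;> linarith

theorem s_lip (he : ∀ k, 0 < e k) {k j : ℕ} (h : k ≤ j) {σ σ' : ℝ} (h0 : 0 ≤ σ) (h0' : 0 ≤ σ') :
    min σ σ' * |s b e j σ - s b e j σ'| ≤ e k / 2 * |σ - σ'| := by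
  have hk := he k
  by_cases hz : σ ≤ 0 ∨ σ' ≤ 0
  · have : min σ σ' = 0 := le_antisymm (min_le_iff.2 hz) (le_min h0 h0')
    rw [this, zero_mul]; positivity
  rw [not_or] at hz
  have h1 : min σ σ' * |Real.log σ - Real.log σ'| ≤ |σ - σ'| := by
    rcases le_total σ σ' with h | h
    · exact log_lip (not_le.1 hz.1) h
    · rw [min_comm, abs_sub_comm, abs_sub_comm σ]; exact log_lip (not_le.1 hz.2) h
  have h2 := (le_lam he h).trans (gap (b := b) j)
  have h3 : 0 < u b e j - u b e (j + 1) := lt_of_lt_of_le (by positivity) h2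
  unfold s
  rw [if_neg hz.1, if_neg hz.2]
  refine (mul_le_mul_of_nonneg_left (cl_lip _ _) (le_min h0 h0')).trans ?_
  rw [← sub_div, sub_sub_sub_cancel_right, abs_div, abs_of_pos h3, ← mul_div_assoc, div_le_iff₀ h3]
  refine h1.trans ?_
  have h4 : 1 ≤ e k / 2 * (u b e j - u b e (j + 1)) := by
    rw [div_le_iff₀ hk] at h2; linarith
  nlinarith [abs_nonneg (σ - σ')]

theorem diff_lip (he : ∀ k, 0 < e k) {k i j : ℕ} (hi : k ≤ i) (hj : k ≤ j) {σ σ' : ℝ} (h0 : 0 ≤ σ)
    (h0' : 0 ≤ σ') : min σ σ' * |(s b e i σ - s b e j σ) - (s b e i σ' - s b e j σ')| ≤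
      e k * |σ - σ'| := by
  have h1 := s_lip (b := b) he hi h0 h0'
  have h2 := s_lip (b := b) he hj h0 h0'
  have h3 : |(s b e i σ - s b e j σ) - (s b e i σ' - s b e j σ')| ≤
      |s b e i σ - s b e i σ'| + |s b e j σ - s b e j σ'| := by
    rw [show (s b e i σ - s b e j σ) - (s b e i σ' - s b e j σ') =
      (s b e i σ - s b e i σ') - (s b e j σ - s b e j σ') by ring]
    exact abs_sub _ _
  have h4 := mul_le_mul_of_nonneg_left h3 (le_min h0 h0')
  linarith

theorem sum3 (σ : ℝ) (K : ℕ) : ∑ k ∈ range K, (s b e (k + 3) σ - s b e k σ) =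
    s b e K σ + s b e (K + 1) σ + s b e (K + 2) σ - s b e 0 σ - s b e 1 σ - s b e 2 σ := by
  induction K with
  | zero => simp only [range_zero, sum_empty, zero_add]; ring
  | succ K ih => rw [sum_range_succ, ih]; ring

theorem sum1 (σ : ℝ) (K : ℕ) : ∑ k ∈ range K, (s b e (k + 2) σ - s b e (k + 1) σ) =
    s b e (K + 1) σ - s b e 1 σ := by
  induction K with
  | zero => simp
  | succ K ih => rw [sum_range_succ, ih]; ring

end Scales

open Scales in
theorem scalesEx : ScalesEx := by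
  intro b e hb he
  refine ⟨Real.exp (u b e 2), fun k => Real.exp (u b e k), fun k => Real.exp (u b e (k + 4)),
    fun k σ => s b e (k + 3) σ - s b e k σ, fun k σ => s b e (k + 2) σ - s b e (k + 1) σ,
    Real.exp_pos _, Real.exp_le_one_iff.2 ((u_le he 2).trans (by norm_num)),
    fun k => ⟨Real.exp_pos _, Real.exp_pos _, exp_le hb k⟩, fun k σ => ⟨?_, ?_, ?_⟩,
    fun k σ h => ⟨?_, ?_⟩, fun k σ h => ?_, fun K σ => ⟨?_, ?_⟩, fun σ h0 h1 => ?_,
    fun k σ σ' h0 h0' => ⟨diff_lip he (by omega) le_rfl h0 h0',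
      diff_lip he (by omega) (by omega) h0 h0'⟩⟩
  · exact sub_nonneg.2 (s_mono he σ (by omega))
  · linarith [(s_mem (b := b) (e := e) (k + 3) σ).2, (s_mem (b := b) (e := e) k σ).1]
  · exact sub_nonneg.2 (s_mono he σ (by omega))
  · by_contra hc
    have h1 := s_zero he (not_lt.1 hc)
    have h2 : s b e k σ ≤ s b e (k + 3) σ := s_mono he σ (by omega)
    exact h (by linarith [(s_mem (b := b) (e := e) k σ).1])
  · by_contra hc
    have h1 := s_one he (not_lt.1 hc)
    have h2 : s b e k σ ≤ s b e (k + 3) σ := s_mono he σ (by omega)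
    exact h (by linarith [(s_mem (b := b) (e := e) (k + 3) σ).2])
  · have h2 : s b e (k + 1) σ ≤ s b e (k + 2) σ := s_mono he σ (by omega)
    have h3 : Real.exp (u b e (k + 3)) ≤ σ := by
      by_contra hc
      have h1 := s_zero he (not_le.1 hc).le
      exact h (by linarith [(s_mem (b := b) (e := e) (k + 1) σ).1])
    have h4 : σ ≤ Real.exp (u b e (k + 1)) := by
      by_contra hc
      have h1 := s_one he (not_le.1 hc).le
      exact h (by linarith [(s_mem (b := b) (e := e) (k + 2) σ).2])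
    simp only [s_one he h3, s_zero he h4, sub_zero]
  · rw [sum3]
    linarith [(s_mem (b := b) (e := e) K σ).2, (s_mem (b := b) (e := e) (K + 1) σ).2,
      (s_mem (b := b) (e := e) (K + 2) σ).2, (s_mem (b := b) (e := e) 0 σ).1,
      (s_mem (b := b) (e := e) 1 σ).1, (s_mem (b := b) (e := e) 2 σ).1]
  · rw [sum1]
    linarith [(s_mem (b := b) (e := e) (K + 1) σ).2, (s_mem (b := b) (e := e) 1 σ).1]
  · obtain ⟨N, hN⟩ := exists_nat_ge (-Real.log σ)
    filter_upwards [eventually_ge_atTop N] with K hK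
    rw [sum1, s_zero he h1, s_one he, sub_zero]
    rw [← Real.le_log_iff_exp_le h0]
    have h2 := u_le (b := b) he (K + 1)
    have h3 : (N : ℝ) ≤ K := by exact_mod_cast hK
    push_cast at h2
    linarith

theorem parEx (h1 : CellsEx) (h2 : ScalesEx) : ParEx := by
  intro ε hε
  let Cn : ℕ → ℝ := fun k => 2 * 4 ^ (2 * k ^ 2)
  have hCn : ∀ k, 0 < Cn k := fun k => by positivity
  let ρ : ℕ → ℝ := fun k => 1 / (Cn k * 4 ^ k)
  have hρ : ∀ k, 0 < ρ k := fun k => by have := hCn k; positivity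
  let Lc : ℕ → ℝ := fun k => 2 * k ^ 2 / ρ k
  have hLc : ∀ k, 0 ≤ Lc k := fun k => by have := hρ k; positivity
  choose Q π χ c1 c2 c3 c4 c5 c6 using fun k => h1 k (ρ k) (hρ k)
  obtain ⟨Λ, T, T', θ, θe, s1, s2, s3, s4, s5, s6, s7, s8, s9⟩ := h2
    (fun k => min (1 / 2 ^ k) (ε / (2 ^ (k + 1) * 12 * (Lc k * Cn k + 1))))
    (fun k => ε / (24 * 2 ^ (k + 1)))
    (fun k => by have := hCn k; have := hLc k; positivity) (fun k => by positivity)
  refine ⟨⟨Λ, T, T', ρ, fun k => ε * T' k / (768 * T k * 2 ^ (k + 1)),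
    fun k => ε / (24 * 2 ^ (k + 1)), Lc, Cn, θ, θe, Q, π, χ, s1, fun k => (s3 k).1,
    fun k => (s3 k).2.1, hρ, fun k => by have := (s3 k).1; have := (s3 k).2.1; positivity,
    fun k => by positivity, hLc, fun k => ?_, fun k => (s3 k).2.2.trans (min_le_left _ _),
    fun k s => (s4 k s).1, fun k s => (s4 k s).2.1, fun k s => (s4 k s).2.2, s5, s6,
    fun K s => (s7 K s).1, fun K s => (s7 K s).2, s8, fun k s s' h h' => (s9 k s s' h h').1,
    fun k s s' h h' => (s9 k s s' h h').2, c1, fun k z hz => c2 k z fun n l b => ?_, c3,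
    fun k q z => (c4 k q z).1, fun k q z => (c4 k q z).2, fun k z => ?_,
    fun k q z z' δ h => (c6 k q z z' δ h).1, fun k q z z' δ h => (c6 k q z z' δ h).2,
    fun k => ?_, fun k => ?_⟩⟩
  · have : (1 : ℝ) ≤ 4 ^ (2 * k ^ 2) := one_le_pow₀ (by norm_num)
    simp only [Cn]; linarith
  · linarith [hz n l b]
  · have := c5 k z
    simp only [Cn]; linarith
  · have := hCn k
    simp only [ρ]
    exact le_of_eq (by field_simp)
  · have a1 := (s3 k).1
    have a2 := (s3 k).2.1
    have a3 : T k ≤ ε / (2 ^ (k + 1) * 12 * (Lc k * Cn k + 1)) := (s3 k).2.2.trans (min_le_right _ _)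
    have a4 : 0 ≤ Lc k * Cn k := mul_nonneg (hLc k) (hCn k).le
    have a5 : 4 * Lc k * Cn k * T k ≤ ε / 2 ^ (k + 1) / 3 := by
      rw [le_div_iff₀ (by positivity)] at a3
      rw [le_div_iff₀ (by norm_num), le_div_iff₀ (by positivity)]
      have : 0 ≤ T k * 2 ^ (k + 1) := by positivity
      nlinarith
    have a6 : 8 * (ε / (24 * 2 ^ (k + 1))) = ε / 2 ^ (k + 1) / 3 := by field_simp; norm_num
    have a7 : 256 * (ε * T' k / (768 * T k * 2 ^ (k + 1))) * T k / T' k = ε / 2 ^ (k + 1) / 3 := by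
      field_simp; norm_num
    rw [a6, a7]
    linarith

end

end Crest.Agent.R91
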