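import Crest.Agent.R91.Defs

set_option autoImplicit false
set_option linter.unusedSectionVars false

open Finset Filter Topology Function

namespace Crest.Agent.R91

namespace SB

variable {ε : ℝ} (P : Par ε) {B : Type} [NormedAddCommGroup B] [NormedSpace ℝ B] [CompleteSpace B]

/-- the limit of the truncated insertions at one scale -/
noncomputable def JL (emb : (IK →₀ ℝ) →ₗ[ℝ] B) (x : Cfg) (k : ℕ) : B :=
  limUnder atTop (fun N => emb (JJ P x k N))

theorem JL_tend (hC : JCauchy P) {emb : (IK →₀ ℝ) →ₗ[ℝ] B} (hpre : Pre (KK P) emb) {x : Cfg}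
    (hx : Dom P.Λ x) (k : ℕ) :
    Tendsto (fun N => emb (JJ P x k N)) atTop (𝓝 (JL P emb x k)) := by
  have hc : CauchySeq (fun N => emb (JJ P x k N)) := by
    rw [Metric.cauchySeq_iff]
    intro η hη
    obtain ⟨N0, hN0⟩ := hC x k hx (η / 2) (by positivity)
    refine ⟨N0, fun N hN N' hN' => ?_⟩
    rw [dist_eq_norm, ← map_sub]
    have := hpre.ge _ _ (hN0 N N' hN hN')
    linarith
  exact hc.tendsto_limUnder

theorem ev_Dm (hL : LawB) {x : Cfg} (hx : Dom P.Λ x) (k : ℕ) :
    ∀ᶠ N in atTop, Dm x.σ N ≤ P.T' k / 16 :=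
  (hL.Dm_tend hx.1.2).eventually (ge_mem_nhds (by have := P.T'_pos k; positivity))

theorem JL_norm (hL : LawB) (hC : JCauchy P) (hS : JSize P) {emb : (IK →₀ ℝ) →ₗ[ℝ] B}
    (hpre : Pre (KK P) emb) {x : Cfg} (hx : Dom P.Λ x) (k : ℕ) :
    ‖JL P emb x k‖ ≤ 4 * (1 / 2) ^ k := by
  have h1 : ‖JL P emb x k‖ ≤ 4 * P.T k := by
    refine le_of_tendsto (JL_tend P hC hpre hx k).norm ?_
    filter_upwards [ev_Dm P hL hx k] with N hN
    exact hpre.ge _ _ (hS x k N hx hN)
  have h2 := P.T_le k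
  rw [one_div_pow]
  linarith

theorem JL_summable (hL : LawB) (hC : JCauchy P) (hS : JSize P) {emb : (IK →₀ ℝ) →ₗ[ℝ] B}
    (hpre : Pre (KK P) emb) {x : Cfg} (hx : Dom P.Λ x) : Summable (JL P emb x) :=
  Summable.of_norm_bounded (summable_geometric_two.mul_left 4) (JL_norm P hL hC hS hpre hx)

theorem I_tend (hL : LawB) (hC : JCauchy P) (hS : JSize P) {emb : (IK →₀ ℝ) →ₗ[ℝ] B}
    (hpre : Pre (KK P) emb) {x : Cfg} (hx : Dom P.Λ x) :
    Tendsto (fun K => ∑ k ∈ range K, JL P emb x k) atTop (𝓝 (∑' k, JL P emb x k)) :=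
  (JL_summable P hL hC hS hpre hx).hasSum.tendsto_sum_nat

theorem coord_cont (l : ℕ) : Continuous (fun a : H => (a : ℕ → ℝ) l) :=
  (continuous_apply l).comp (lp.uniformContinuous_coe (E := fun _ : ℕ => ℝ) (p := 2)).continuous

theorem JJ_zero (k N : ℕ) : JJ P ⟨0, 0, 0⟩ k N = 0 := by
  have h0 : P.θ k 0 = 0 := by
    by_contra h
    have := (P.θ_supp k 0 h).1
    have := P.T'_pos k
    linarith
  unfold JJ
  refine Finset.sum_eq_zero (fun q _ => ?_)
  have : (fun τ : Tag => ∑ n ∈ range N, ∑ l ∈ range N,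
      P.θ k ((⟨0, 0, 0⟩ : Cfg).σ n) •
        Finsupp.single ((k, q, τ, n, l, (⟨0, 0, 0⟩ : Cfg).a n l) : IK) (1 : ℝ)) = 0 := by
    funext τ
    simp [h0]
  rw [this]
  simp

end SB

open SB in
theorem sysB {ε : ℝ} (hL : LawB) (P : Par ε) (hR : REx P) (hP : PEx P) (hG : Glob P)
    (hS : JSize P) (hB : JBlk P) (hC : JCauchy P) (hE : JExt P) : SysB P := by
  intro B _ _ _ emb hpre
  obtain ⟨R, hR1, hR2, hR3⟩ := hR B emb hpre
  obtain ⟨p, hp1, hp2, hp3, hp4⟩ := hP B emb hpre R hR1 hR2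
  refine ⟨⟨R, fun x => ∑' k, JL P emb x k, p, hR2, hR3, hp2,
    fun x y δ hx hy h => hp3 x y δ hx.1 hy.1 h, hp4, ?_, ?_, ?_, ?_⟩⟩
  · intro x hx n
    ext l
    have h1 : ∀ k, (p x n (JL P emb x k) : ℕ → ℝ) l = P.θe k (x.σ n) * x.a n l := by
      intro k
      have t1 := ((coord_cont l).tendsto _).comp
        (((p x n).continuous.tendsto _).comp (JL_tend P hC hpre hx k))
      refine tendsto_nhds_unique t1 (tendsto_const_nhds.congr' ?_)
      filter_upwards [ev_Dm P hL hx k, eventually_gt_atTop n, eventually_gt_atTop l]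
        with N hN hn hl
      simp only [Function.comp_apply]
      rw [hp1, hE x k N n l hx hN hn hl]
    have t2 := ((coord_cont l).tendsto _).comp
        (((p x n).continuous.tendsto _).comp (I_tend P hL hC hS hpre hx))
    refine tendsto_nhds_unique t2 (tendsto_const_nhds.congr' ?_)
    have h2 : ∀ K, (p x n (∑ k ∈ range K, JL P emb x k) : ℕ → ℝ) l =
        (∑ k ∈ range K, P.θe k (x.σ n)) * x.a n l := by
      intro K
      rw [map_sum, lp.coeFn_sum, Finset.sum_apply, Finset.sum_mul]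
      exact Finset.sum_congr rfl (fun k _ => h1 k)
    rcases lt_or_ge 0 (x.σ n) with hσ | hσ
    · filter_upwards [P.θe_one (x.σ n) hσ (hx.2 n)] with K hK
      simp only [Function.comp_apply]
      rw [h2, hK, one_mul]
    · have ha : x.a n = 0 := by
        have := (hx.1.1 n).1
        exact norm_le_zero_iff.1 (by linarith)
      refine Eventually.of_forall (fun K => ?_)
      simp only [Function.comp_apply]
      rw [h2, ha]
      simp
  · intro x y δ δa hx hy hn ha
    refine le_of_tendsto ((I_tend P hL hC hS hpre hx).sub (I_tend P hL hC hS hpre hy)).norm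
      (Eventually.of_forall (fun K => ?_))
    have t1 := (tendsto_finsetSum (range K) (fun k _ => JL_tend P hC hpre hx k)).sub
      (tendsto_finsetSum (range K) (fun k _ => JL_tend P hC hpre hy k))
    refine le_of_tendsto t1.norm ?_
    filter_upwards [hG x y δ δa hx hy hn ha K] with N hN
    have := hpre.ge _ _ hN
    simpa [map_sub, map_sum] using this
  · intro x hx n
    have h1 : ∀ k, ‖R n (JL P emb x k)‖ ≤ P.θ k (x.σ n) * ‖x.a n‖ := by
      intro k
      refine le_of_tendsto (((R n).continuous.tendsto _).comp (JL_tend P hC hpre hx k)).norm ?_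
      filter_upwards [ev_Dm P hL hx k] with N hN
      simp only [Function.comp_apply]
      rw [hR1]
      exact hpre.ge _ _ (hB x k N n hx hN)
    refine le_of_tendsto (((R n).continuous.tendsto _).comp (I_tend P hL hC hS hpre hx)).norm
      (Eventually.of_forall (fun K => ?_))
    simp only [Function.comp_apply]
    rw [map_sum]
    calc ‖∑ k ∈ range K, R n (JL P emb x k)‖ ≤ ∑ k ∈ range K, P.θ k (x.σ n) * ‖x.a n‖ :=
          norm_sum_le_of_le _ (fun k _ => h1 k)
      _ = (∑ k ∈ range K, P.θ k (x.σ n)) * ‖x.a n‖ := by rw [Finset.sum_mul]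
      _ ≤ 3 * ‖x.a n‖ := mul_le_mul_of_nonneg_right (P.θ_sum K _) (norm_nonneg _)
  · have : ∀ k, JL P emb ⟨0, 0, 0⟩ k = 0 := by
      intro k
      unfold JL
      simp only [JJ_zero, map_zero]
      exact tendsto_const_nhds.limUnder_eq
    simp [this]

end Crest.Agent.R91
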