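import Crest.Agent.R91.Core
import Crest.Agent.R91.Abs
import Crest.Agent.R91.Basic1
import Crest.Agent.R91.Basic2
import Crest.Agent.R91.BasicK
import Crest.Agent.R91.CaseI
import Crest.Agent.R91.CaseII
import Crest.Agent.R91.Cells
import Crest.Agent.R91.Cot
import Crest.Agent.R91.Err1
import Crest.Agent.R91.Err2
import Crest.Agent.R91.Ext
import Crest.Agent.R91.Fin
import Crest.Agent.R91.FinP
import Crest.Agent.R91.Glob
import Crest.Agent.R91.KFree
import Crest.Agent.R91.Law
import Crest.Agent.R91.LemmaF
import Crest.Agent.R91.LemmaH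
import Crest.Agent.R91.Lp
import Crest.Agent.R91.Main
import Crest.Agent.R91.Mu
import Crest.Agent.R91.Scales
import Crest.Agent.R91.Swindle
import Crest.Agent.R91.SysB

set_option autoImplicit false

namespace Crest.Agent.R91

theorem eFree_all (ω : ℝ) (hω : 0 < ω) : EFree ω :=
  eFree basicBd (basicE basicBd) sel hω
    (caseI basicBd (basicE basicBd) sel hω (finP basicBd (basicE basicBd) cot hω))

theorem core : Core := by
  have hB := basicBd
  have hE := basicE basicBd
  refine core_of lemmaH lemmaF swindle (lpNoC0 sel) sepB (parEx cellsEx scalesEx) preEx preNoC0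
    fun P => ?_
  have hK := basicK hB hE P
  have hJ := jPair P
  exact ⟨hK, kFree hB hE sel eFree_all P hK, kSep hB hE P,
    sysB lawB P (rEx P hK) (pEx P hK (extB hB hE P hK))
      (glob lawB P hJ (mainT hB hE muB lawB P) (errTh hB hE muB lawB P hJ)
        (errLaw hB hE muB lawB P hJ) (errPi hB hE muB lawB P hJ))
      (jSize hB hE muB lawB P hJ) (jBlk hB hE muB lawB P hJ) (jCauchy hB hE muB lawB P hJ)
      (jExt hB hE muB lawB P hJ)⟩

end Crest.Agent.R91
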