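import Crest.Agent.R91.Defs

/-!
Row 91: small API for `c₀(E)`.
-/

set_option autoImplicit false

open Finset Filter Topology Function

namespace Crest.Agent.R91

noncomputable section

namespace C0

variable {E : Type} [NormedAddCommGroup E]

theorem apply_le (f : ZeroAtInftyContinuousMap ℕ E) (n : ℕ) : ‖f n‖ ≤ ‖f‖ :=
  f.toBCF.norm_coe_le_norm n

theorem norm_le (f : ZeroAtInftyContinuousMap ℕ E) {C : ℝ} (hC : 0 ≤ C) (h : ∀ n, ‖f n‖ ≤ C) :
    ‖f‖ ≤ C :=
  (BoundedContinuousFunction.norm_le (f := f.toBCF) hC).2 h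

theorem tendsto (f : ZeroAtInftyContinuousMap ℕ E) : Tendsto f atTop (𝓝 0) :=
  cocompact_eq_atTop (α := ℕ) ▸ zero_at_infty f

theorem tendsto_norm (f : ZeroAtInftyContinuousMap ℕ E) : Tendsto (fun n => ‖f n‖) atTop (𝓝 0) :=
  tendsto_zero_iff_norm_tendsto_zero.1 (tendsto f)

/-- a null sequence as an element of `c₀(E)` -/
def mk0 (y : ℕ → E) (h : Tendsto y atTop (𝓝 0)) : ZeroAtInftyContinuousMap ℕ E :=
  ⟨⟨y, continuous_of_discreteTopology⟩, by rw [cocompact_eq_atTop]; exact h⟩

@[simp] theorem mk0_apply (y : ℕ → E) (h : Tendsto y atTop (𝓝 0)) (n : ℕ) : mk0 y h n = y n := rfl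

/-- the sequence with one entry -/
def sg (i : ℕ) (e : E) : ZeroAtInftyContinuousMap ℕ E :=
  mk0 (fun n => if n = i then e else 0) (tendsto_const_nhds.congr' (by
    filter_upwards [eventually_gt_atTop i] with n hn
    rw [if_neg hn.ne']))

theorem sg_apply (i : ℕ) (e : E) (n : ℕ) : sg i e n = if n = i then e else 0 := rfl

theorem sum_apply {ι : Type} (s : Finset ι) (f : ι → ZeroAtInftyContinuousMap ℕ E) (n : ℕ) :
    (∑ i ∈ s, f i) n = ∑ i ∈ s, f i n := by
  classical
  induction s using Finset.induction_on with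
  | empty => rfl
  | insert i s hi ih => rw [sum_insert hi, sum_insert hi, ZeroAtInftyContinuousMap.add_apply, ih]

theorem continuous_sg (i : ℕ) : Continuous (sg i : E → ZeroAtInftyContinuousMap ℕ E) := by
  refine (LipschitzWith.of_dist_le_mul (K := 1) fun e e' => ?_).continuous
  rw [dist_eq_norm, dist_eq_norm, NNReal.coe_one, one_mul]
  refine norm_le _ (norm_nonneg _) fun n => ?_
  rw [ZeroAtInftyContinuousMap.sub_apply, sg_apply, sg_apply]
  split_ifs <;> simp

theorem tendsto_sum_sg (f : ZeroAtInftyContinuousMap ℕ E) :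
    Tendsto (fun N => ∑ i ∈ range N, sg i (f i)) atTop (𝓝 f) := by
  rw [Metric.tendsto_atTop]
  intro ε hε
  obtain ⟨N, hN⟩ := eventually_atTop.1 ((tendsto_norm f).eventually (gt_mem_nhds (half_pos hε)))
  refine ⟨N, fun M hM => ?_⟩
  rw [dist_eq_norm]
  refine (norm_le _ (half_pos hε).le fun n => ?_).trans_lt (half_lt_self hε)
  rw [ZeroAtInftyContinuousMap.sub_apply, sum_apply]
  simp only [sg_apply, sum_ite_eq, mem_range]
  split_ifs with h
  · simpa using (half_pos hε).le
  · simpa using (hN n (by omega)).le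

variable [NormedSpace ℝ E]

/-- a space with `NoC0` does not contain `c₀(E)`. -/
theorem not_emb {Z : Type} [NormedAddCommGroup Z] [NormedSpace ℝ Z] (hZ : NoC0 Z) {e : E}
    (he : e ≠ 0) (T : ZeroAtInftyContinuousMap ℕ E →L[ℝ] Z) (c : ℝ) (hT : ∀ f, ‖f‖ ≤ c * ‖T f‖) :
    False := by
  have h := hZ (fun i => T (sg i e)) ⟨‖T‖ * ‖e‖, fun s ε hε => by
    simp only [← map_smul, ← map_sum]
    refine (T.le_opNorm _).trans (mul_le_mul_of_nonneg_left
      (norm_le _ (norm_nonneg _) fun n => ?_) (norm_nonneg _))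
    rw [sum_apply]
    simp only [ZeroAtInftyContinuousMap.smul_apply, sg_apply, smul_ite, smul_zero, sum_ite_eq]
    split_ifs
    · rw [norm_smul]
      exact mul_le_of_le_one_left (norm_nonneg _) (hε n)
    · simp⟩
  have h1 := (tendsto_zero_iff_norm_tendsto_zero.1 h).const_mul c
  rw [mul_zero] at h1
  have h2 : ‖e‖ ≤ 0 := ge_of_tendsto' h1 fun i => by
    refine le_trans ?_ (hT _)
    simpa [sg_apply] using apply_le (sg i e) i
  exact he (norm_le_zero_iff.1 h2)

theorem not_sub {Z : Type} [NormedAddCommGroup Z] [NormedSpace ℝ Z] (hZ : NoC0 Z) {e : E}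
    (he : e ≠ 0) (S : Submodule ℝ Z) : IsEmpty (S ≃L[ℝ] ZeroAtInftyContinuousMap ℕ E) :=
  ⟨fun φ => not_emb hZ he (S.subtypeL.comp φ.symm.toContinuousLinearMap)
    ‖φ.toContinuousLinearMap‖ fun f => by
      simpa using φ.toContinuousLinearMap.le_opNorm (φ.symm f)⟩

end C0

end

end Crest.Agent.R91
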