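import Crest.Agent.R91.Defs

set_option autoImplicit false

namespace Crest.Agent.R91

/-- assembly of `Core` from the abstract pieces and a separable `c₀`-free bounded system -/
theorem core_of (hH : LemmaH) (hF : LemmaF) (hS : Swindle) (hL : LpNoC0) (hsep : SepB)
    (hPar : ParEx) (hPre : PreEx) (hPN : PreNoC0)
    (hK : ∀ P : Par (1 / 200), BasicK P ∧ KFree P ∧ KSep P ∧ SysB P) : Core := by
  obtain ⟨P⟩ := hPar (1 / 200) (by norm_num)
  obtain ⟨hb, hfree, hks, hsys⟩ := hK P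
  obtain ⟨B, i1, i2, emb, hc, hpre⟩ := hPre _ (KK P) hb.nonempty hb.neg hb.bdd
  have h0 : NoC0 B := hPN _ (KK P) B emb hpre hfree
  have hs0 : TopologicalSpace.SeparableSpace B := hks B emb hpre
  have hsys0 := hsys B emb hpre
  have hsys1 := hH B P.Λ P.Λ_pos hsys0
  obtain ⟨Θ, hΘ⟩ := hF (L1 B) hsys1
  have habs := hS AA0 (L1 B) Θ hΘ
  exact ⟨L1 (L1 B), inferInstance, inferInstance, inferInstance,
    hsep.1 _ (hsep.1 _ hs0), hL _ (hL _ h0), habs⟩

end Crest.Agent.R91
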