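import Mathlib

/-!
# Row 91 (S0120, S0121): definitions and sub-task statements

Plan.  `H = ℓ₂`, `A = c₀(H)`.  We build a separable Banach space `B` without `c₀` carrying a
system `Sys` (insertion `I`, extraction `p`), which gives a Lipschitz involution `Θ` of `A × B`
exchanging `a ∈ A` with a "slot" of `B` (`LemmaF`), and an `ℓ₁` swindle (`Swindle`) gives a
bi-Lipschitz bijection `A ⊕₁ Z → Z`, `Z = ℓ₁(B)`.
Every sub-task is a `Prop` below; prove it as `theorem name (hyps) : TheProp` in your own file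
`Crest/Agent/R91/<Name>.lean` importing only `Crest.Agent.R91.Defs`.
-/

set_option autoImplicit false

open Finset Filter Topology Function

namespace Crest.Agent.R91

noncomputable section

open Classical

/-! ## 1. Abstract layer: a vector space with a set of functionals -/

section Abstract

variable {V : Type} [AddCommGroup V] [Module ℝ V]

/-- weakly unconditionally Cauchy sequence with respect to the functionals in `K` -/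
def Wuc (K : Set (V →ₗ[ℝ] ℝ)) (ν : ℕ → V) : Prop :=
  ∃ C : ℝ, ∀ (s : Finset ℕ) (ε : ℕ → ℝ), (∀ i, |ε i| ≤ 1) → ∀ g ∈ K, g (∑ i ∈ s, ε i • ν i) ≤ C

/-- uniformly null sequence -/
def Null (K : Set (V →ₗ[ℝ] ℝ)) (ν : ℕ → V) : Prop :=
  ∀ η : ℝ, 0 < η → ∀ᶠ j in atTop, ∀ g ∈ K, g (ν j) ≤ η

/-- "no copy of c₀" at the level of a norming set -/
def Free (K : Set (V →ₗ[ℝ] ℝ)) : Prop := ∀ ν : ℕ → V, Wuc K ν → Null K ν

/-- `B` is a completion of `V` for the seminorm `sup_{g ∈ K} g ν`. -/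
structure Pre (K : Set (V →ₗ[ℝ] ℝ)) {B : Type} [NormedAddCommGroup B] [NormedSpace ℝ B]
    (emb : V →ₗ[ℝ] B) : Prop where
  dense : DenseRange emb
  le : ∀ g ∈ K, ∀ ν, g ν ≤ ‖emb ν‖
  ge : ∀ ν (r : ℝ), (∀ g ∈ K, g ν ≤ r) → ‖emb ν‖ ≤ r

end Abstract

/-- Banach space version of "no copy of c₀" -/
def NoC0 (B : Type) [NormedAddCommGroup B] [NormedSpace ℝ B] : Prop :=
  ∀ x : ℕ → B, (∃ C : ℝ, ∀ (s : Finset ℕ) (ε : ℕ → ℝ), (∀ i, |ε i| ≤ 1) →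
    ‖∑ i ∈ s, ε i • x i‖ ≤ C) → Tendsto x atTop (𝓝 0)

/-- **Sign averaging.**  Fix `J`; average `f_ε (∑_{s<J} ε s • ν (j s))` over all sign patterns `ε`,
`f_ε = ∑_{s<J} ε s • h s = C' • g`: the average is `∑_{s<J} h s (ν (j s)) ≥ J η`, and each term
is `≤ C' * C` (write the sum over `s` as a sum over `(range J).image j` with coefficients
`ε ∘ invFun j`).  Contradiction for large `J`.  (An easy way to average: induction on `J` showing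
that some sign pattern has `f_ε(∑ ε ν) ≥ ∑ h s (ν (j s))`: the cross terms change sign.) -/
def Sel : Prop :=
  ∀ (V : Type) [AddCommGroup V] [Module ℝ V] (K : Set (V →ₗ[ℝ] ℝ)) (ν : ℕ → V) (j : ℕ → ℕ)
    (η C' : ℝ), Wuc K ν → Injective j → 0 < η → 0 ≤ C' →
    (∀ J : ℕ, ∃ h : ℕ → V →ₗ[ℝ] ℝ, (∀ s < J, η ≤ h s (ν (j s))) ∧
      ∀ ε : ℕ → ℝ, (∀ s, ε s = 1 ∨ ε s = -1) → ∃ g ∈ K, ∑ s ∈ range J, ε s • h s = C' • g) →
    False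

/-- Existence of the completion: e.g. the closure of the range of `ν ↦ (g ↦ g ν)` in
`lp (fun _ : K => ℝ) ∞`, or `UniformSpace.Completion` of a type synonym with the sup seminorm. -/
def PreEx : Prop :=
  ∀ (V : Type) [AddCommGroup V] [Module ℝ V] (K : Set (V →ₗ[ℝ] ℝ)), K.Nonempty →
    (∀ g ∈ K, -g ∈ K) → (∀ ν, ∃ C : ℝ, ∀ g ∈ K, g ν ≤ C) →
    ∃ (B : Type) (_ : NormedAddCommGroup B) (_ : NormedSpace ℝ B) (emb : V →ₗ[ℝ] B),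
      CompleteSpace B ∧ Pre K emb

/-- Approximate `x j` by `emb (ν j)` within `2⁻ʲ`; `ν` is `Wuc` with constant `C + 2`. -/
def PreNoC0 : Prop :=
  ∀ (V : Type) [AddCommGroup V] [Module ℝ V] (K : Set (V →ₗ[ℝ] ℝ)) (B : Type)
    [NormedAddCommGroup B] [NormedSpace ℝ B] (emb : V →ₗ[ℝ] B), Pre K emb → Free K → NoC0 B

/-! ## 2. One-cell test functions -/

abbrev Tag := ℕ → ℕ∞
/-- arguments `n l t` -/
abbrev Fn := ℕ → ℕ → ℝ → ℝ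
abbrev Fam := Tag → Fn

/-- `∑_{n<m} ‖(φ n l (v n l))_l‖₂ ≤ r`, in dual form -/
def BdAt (m : ℕ) (φ : Fn) (v : ℕ → ℕ → ℝ) (r : ℝ) : Prop :=
  ∀ (d : ℕ → ℕ → ℝ) (L : ℕ), (∀ n, ∑ l ∈ range L, d n l ^ 2 ≤ 1) →
    ∑ n ∈ range m, ∑ l ∈ range L, φ n l (v n l) * d n l ≤ r

def Bd (m : ℕ) (φ : Fn) (r : ℝ) : Prop := ∀ v, BdAt m φ v r

def Good (m : ℕ) (τ : Tag) : Prop := Monotone τ ∧ (m : ℕ∞) ≤ τ 0

/-- tags carried by atoms -/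
def Act (τ : Tag) : Prop := Monotone τ ∧ ∃ M : ℕ, ∀ i, τ i ≤ M

def top (J : ℕ) (τ : Tag) : Tag := fun i => if i < J then τ i else ⊤

def wt (ω : ℝ) (i : ℕ) : ℝ := ω / 4 ^ i

/-- the variation of `F` along the line `s ↦ update τ i s` is at most `W` -/
def Var (m : ℕ) (τ : Tag) (i : ℕ) (F : Fam) (W : ℝ) : Prop :=
  ∃ P : ℕ∞ → ℝ, Monotone P ∧ (∀ s, 0 ≤ P s ∧ P s ≤ W) ∧
    ∀ s s' : ℕ∞, s ≤ s' → Good m (update τ i s) → Good m (update τ i s') →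
      Bd m (F (update τ i s') - F (update τ i s)) (P s' - P s)

structure InE (ω S C : ℝ) (F : Fam) : Prop where
  meas : ∀ τ n l, Measurable (F τ n l)
  cap : ∀ m τ, Good m τ → Bd m (F τ) S
  var : ∀ m τ i, Var m τ i F (C * wt ω i)
  tail : ∀ m τ J, Good m τ → Bd m (F τ - F (top J τ)) (C * (2 * wt ω J))

def mask (A : ℕ → ℕ → ℝ → Prop) (φ : Fn) : Fn := fun n l t => if A n l t then φ n l t else 0

def cut (A : Tag → Prop) (F : Fam) : Fam := fun τ => if A τ then F τ else 0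

/-- atoms `(τ, n, l, t)` -/
abbrev IE := Tag × ℕ × ℕ × ℝ

def valE (F : Fam) (i : IE) : ℝ :=
  if Act i.1 ∧ (i.2.1 : ℕ∞) < i.1 0 then ∫ s in (0 : ℝ)..i.2.2.2, F i.1 i.2.1 i.2.2.1 s else 0

def pairE (F : Fam) : (IE →₀ ℝ) →ₗ[ℝ] ℝ := Finsupp.linearCombination ℝ (valE F)

def EE (ω : ℝ) : Set ((IE →₀ ℝ) →ₗ[ℝ] ℝ) := {g | ∃ F, InE ω 1 1 F ∧ g = pairE F}

/-- integrability on valid atoms (what makes `valE` additive) -/
def Itg (F : Fam) : Prop :=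
  ∀ τ (n l : ℕ), Act τ → (n : ℕ∞) < τ 0 →
    ∀ a b : ℝ, IntervalIntegrable (F τ n l) MeasureTheory.volume a b

/-- Elementary facts on `BdAt`, `Bd`.  `content`: substitute `s ↦ x + s (y - x)`, write the sum
as `∫₀¹ ∑∑ φ n l (x + s (y-x)) * (c * (y-x))` and use `scale` pointwise. -/
structure BasicBd : Prop where
  nonneg : ∀ {m φ v r}, BdAt m φ v r → 0 ≤ r
  mono : ∀ {m φ v r r'}, BdAt m φ v r → r ≤ r' → BdAt m φ v r'
  anti : ∀ {m m' φ v r}, BdAt m φ v r → m' ≤ m → BdAt m' φ v r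
  zero : ∀ {m φ v r}, (∀ n < m, ∀ l, φ n l (v n l) = 0) → 0 ≤ r → BdAt m φ v r
  congr : ∀ {m φ φ' v r}, BdAt m φ v r → (∀ n < m, ∀ l, φ' n l (v n l) = φ n l (v n l)) →
    BdAt m φ' v r
  add : ∀ {m φ φ' v r r'}, BdAt m φ v r → BdAt m φ' v r' → BdAt m (φ + φ') v (r + r')
  neg : ∀ {m φ v r}, BdAt m φ v r → BdAt m (-φ) v r
  sub : ∀ {m φ φ' v r r'}, BdAt m φ v r → BdAt m φ' v r' → BdAt m (φ - φ') v (r + r')
  smul : ∀ {m φ v r} (c : ℝ), BdAt m φ v r → BdAt m (c • φ) v (|c| * r)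
  sum : ∀ {m v} (s : Finset ℕ) (φ : ℕ → Fn) (r : ℕ → ℝ), (∀ j ∈ s, BdAt m (φ j) v (r j)) →
    BdAt m (∑ j ∈ s, φ j) v (∑ j ∈ s, r j)
  mask : ∀ {m φ v r} (A : ℕ → ℕ → ℝ → Prop), BdAt m φ v r → BdAt m (mask A φ) v r
  scale : ∀ {m φ v r} (d : ℕ → ℕ → ℝ) (L : ℕ) (D : ℝ), BdAt m φ v r → 0 ≤ D →
    (∀ n < m, ∑ l ∈ range L, d n l ^ 2 ≤ D ^ 2) →
    ∑ n ∈ range m, ∑ l ∈ range L, φ n l (v n l) * d n l ≤ r * D
  pt : ∀ {m φ r} (n l : ℕ) (t : ℝ), Bd m φ r → n < m → |φ n l t| ≤ r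
  sq : ∀ {m φ v r} (n L : ℕ), BdAt m φ v r → n < m → ∑ l ∈ range L, φ n l (v n l) ^ 2 ≤ r ^ 2
  of_sq : ∀ {m v r} (n : ℕ) (φ : Fn), 0 ≤ r → (∀ n', n' ≠ n → ∀ l, φ n' l (v n' l) = 0) →
    (∀ L, ∑ l ∈ range L, φ n l (v n l) ^ 2 ≤ r ^ 2) → BdAt m φ v r
  itg : ∀ {m φ r} (n l : ℕ) (a b : ℝ), Measurable (φ n l) → Bd m φ r → n < m →
    IntervalIntegrable (φ n l) MeasureTheory.volume a b
  content : ∀ {m φ r} (x y c : ℕ → ℕ → ℝ) (L : ℕ) (D : ℝ), (∀ n l, Measurable (φ n l)) →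
    Bd m φ r → 0 ≤ D → (∀ n < m, ∑ l ∈ range L, (c n l * (y n l - x n l)) ^ 2 ≤ D ^ 2) →
    ∑ n ∈ range m, ∑ l ∈ range L, c n l * ∫ s in x n l..y n l, φ n l s ≤ r * D

/-- Elementary facts on `Var`, `InE`, `pairE`.
`var_cut`: `P' s = P s + S·1[¬ A (update τ i s)]` (antitone case) or `+ S·1[A ..]` (monotone case).
`var_tiny`: `P s = 2 S (min s M).toNat`.
`of_fin`: telescope `top (i+1) τ = update (top i τ) i (τ i)`, `top i τ = update (top i τ) i ⊤`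
over `i ∈ [J, R)`; `∑ C ω / 4^i ≤ 2 C ω / 4^J`. -/
structure BasicE : Prop where
  good_top : ∀ {m τ} (J : ℕ), Good m τ → Good m (top J τ)
  top_top : ∀ (J J' : ℕ) (τ : Tag), top J (top J' τ) = top (min J J') τ
  top_update_lt : ∀ {J i : ℕ} (τ : Tag) (s : ℕ∞), i < J → top J (update τ i s) = update (top J τ) i s
  top_update_ge : ∀ {J i : ℕ} (τ : Tag) (s : ℕ∞), J ≤ i → top J (update τ i s) = top J τ
  var_mono : ∀ {m τ i F W W'}, Var m τ i F W → W ≤ W' → Var m τ i F W'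
  var_congr : ∀ {m τ i F F' W}, Var m τ i F W →
    (∀ s, Good m (update τ i s) → F' (update τ i s) = F (update τ i s)) → Var m τ i F' W
  var_const : ∀ {m τ i W} (F : Fam), 0 ≤ W →
    (∀ s s', Good m (update τ i s) → Good m (update τ i s') →
      F (update τ i s) = F (update τ i s')) → Var m τ i F W
  var_add : ∀ {m τ i F F' W W'}, Var m τ i F W → Var m τ i F' W' → Var m τ i (F + F') (W + W')
  var_sub : ∀ {m τ i F F' W W'}, Var m τ i F W → Var m τ i F' W' → Var m τ i (F - F') (W + W')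
  var_smul : ∀ {m τ i F W} (c : ℝ), Var m τ i F W → Var m τ i (c • F) (|c| * W)
  var_sum : ∀ {m τ i} (s : Finset ℕ) (F : ℕ → Fam) (W : ℕ → ℝ),
    (∀ j ∈ s, Var m τ i (F j) (W j)) → Var m τ i (∑ j ∈ s, F j) (∑ j ∈ s, W j)
  var_cut : ∀ {m τ i F W S} (A : Tag → Prop), Var m τ i F W → 0 ≤ S →
    (∀ s, Good m (update τ i s) → Bd m (F (update τ i s)) S) →
    ((∀ s s', s ≤ s' → A (update τ i s') → A (update τ i s)) ∨
      (∀ s s', s ≤ s' → A (update τ i s) → A (update τ i s'))) →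
    Var m τ i (cut A F) (W + S)
  var_tiny : ∀ {m τ i S} (F : Fam) (M : ℕ), 0 ≤ S →
    (∀ s, Good m (update τ i s) → Bd m (F (update τ i s)) S ∧ s ≤ (M : ℕ∞)) →
    Var m τ i F (2 * S * M)
  mono : ∀ {ω S C S' C' F}, InE ω S C F → 0 ≤ ω → S ≤ S' → C ≤ C' → InE ω S' C' F
  zero : ∀ {ω S C}, 0 ≤ ω → 0 ≤ S → 0 ≤ C → InE ω S C 0
  smul : ∀ {ω S C F} (c : ℝ), InE ω S C F → InE ω (|c| * S) (|c| * C) (c • F)
  add : ∀ {ω S C S' C' F F'}, InE ω S C F → InE ω S' C' F' → InE ω (S + S') (C + C') (F + F')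
  top : ∀ {ω S C F} (J : ℕ), InE ω S C F → InE ω S C (fun τ => F (top J τ))
  mask : ∀ {ω S C F} (A : ℕ → ℕ → ℝ → Prop), (∀ n l, MeasurableSet {t | A n l t}) →
    InE ω S C F → InE ω S C (fun τ => mask A (F τ))
  const : ∀ {ω S C} (φ : Fn), 0 ≤ ω → 0 ≤ C → (∀ n l, Measurable (φ n l)) → (∀ m, Bd m φ S) →
    InE ω S C (fun _ => φ)
  of_fin : ∀ {ω S C} (F : Fam) (R : ℕ), (∀ τ n l, Measurable (F τ n l)) →
    (∀ m τ, Good m τ → Bd m (F τ) S) → (∀ m τ i, Var m τ i F (C * wt ω i)) →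
    (∀ τ, F (R91.top R τ) = F τ) → InE ω S C F
  itg : ∀ {ω S C F}, InE ω S C F → Itg F
  val_le : ∀ {ω S C F} (i : IE), InE ω S C F → |valE F i| ≤ S * |i.2.2.2|
  val_tail : ∀ {ω S C F} (J : ℕ) (i : IE), InE ω S C F →
    |valE F i - valE (fun τ => F (R91.top J τ)) i| ≤ C * (2 * wt ω J) * |i.2.2.2|
  pair_smul : ∀ (c : ℝ) (F : Fam), pairE (c • F) = c • pairE F
  pair_add : ∀ {F F'}, Itg F → Itg F' → pairE (F + F') = pairE F + pairE F'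
  pair_sub : ∀ {F F'}, Itg F → Itg F' → pairE (F - F') = pairE F - pairE F'
  pair_sum : ∀ (s : Finset ℕ) (F : ℕ → Fam), (∀ j ∈ s, Itg (F j)) →
    pairE (∑ j ∈ s, F j) = ∑ j ∈ s, pairE (F j)
  itg_cut : ∀ {F} (A : Tag → Prop), Itg F → Itg (cut A F)
  mem : ∀ {ω S C C' F}, InE ω S C F → 0 ≤ ω → S ≤ C' → C ≤ C' → 0 < C' →
    ∃ g ∈ EE ω, pairE F = C' • g

/-! ### The space `ℓ₂(L₁)` -/

def pairC (φ : ℕ → ℝ → ℝ) : (ℕ × ℝ →₀ ℝ) →ₗ[ℝ] ℝ :=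
  Finsupp.linearCombination ℝ (fun i : ℕ × ℝ => ∫ s in (0 : ℝ)..i.2, φ i.1 s)

def CC : Set ((ℕ × ℝ →₀ ℝ) →ₗ[ℝ] ℝ) :=
  {g | ∃ φ : ℕ → ℝ → ℝ, (∀ l, Measurable (φ l)) ∧
    (∀ (v : ℕ → ℝ) (L : ℕ), ∑ l ∈ range L, φ l (v l) ^ 2 ≤ 1) ∧ g = pairC φ}

/-- **Cotype 2 of ℓ₂(L₁) by Riesz products.**  If not null there are `η > 0`, an injective `j`
and `h s` in the class with `pairC (h s) (ν (j s)) > η`.  Fix `J`, `c = J^{-1/2}`,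
`α l t = sqrt (∑_{s<J} (c * h s l t)^2)`,
`f ε l t = α l t * Im ∏_{s<J} (1 + i ε s * c * h s l t / α l t)` (`= 0` where `α = 0`).
`|∏|² = ∏ (1 + (c h/α)²) ≤ exp 1 ≤ 4`, so `|f| ≤ 2 α` and `∑_l f ε l (v l)^2 ≤ 4 c² J = 4`:
`f ε / 2` is in the class.  Averaging over signs, `avg_ε (ε s * f ε l t) = c * h s l t`
(product of independent factors, each other factor averages to `1`), so
`c ∑_{s<J} pairC (h s) (ν (j s)) = avg_ε pairC (f ε) (∑_s ε s • ν (j s)) ≤ 2 C`, i.e.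
`√J η ≤ 2 C`.  All functions are bounded and measurable, hence interval integrable. -/
def Cot : Prop := Free CC

/-- **Finite part** (from `BasicBd`, `BasicE`, `Cot`, `0 < ω`).  On a valid atom (`τ` monotone,
`n < τ 0`) with `τ J ≤ M`, the pattern `π = τ|_{≤J}` takes values in `{0..M}` and `n < M`: finitely
many `(π, n)`.  For each, let `T : (IE →₀ ℝ) →ₗ (ℕ × ℝ →₀ ℝ)` send a valid atom with
`τ|_{≤J} = π` and index `n` to `single (l,t) 1` and the others to `0`.  For `φ` in the class `CC`,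
`pairC φ ∘ T = pairE F_φ`, where `F_φ τ n' l t = if τ|_{≤J} = π ∧ n' = n then φ l t else 0` is
`InE ω 1 (2 / wt ω J)` (`of_fin` with `R = J + 1`; on a line of level `i ≤ J` it is `0` or two
`var_cut`s `s ≤ π i`, `π i ≤ s` of a constant family; `of_sq` for the cap), so `T ∘ ν` is `Wuc CC`
(`mem`), hence `Null CC`.  The functional in question is `∑_{(π,n)} pairC (G π̂ n) ∘ T_{π,n}` with
`π̂ i = if i ≤ J then π i else ⊤` (only monotone `π` with `n < π 0` matter, otherwise `T = 0`;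
`G π̂ n` is in the class by `cap` at `Good (n+1) π̂` and `sq`). -/
def FinP (ω : ℝ) : Prop :=
  ∀ ν : ℕ → IE →₀ ℝ, Wuc (EE ω) ν → ∀ J M : ℕ,
    Null {g | ∃ G, InE ω 1 1 G ∧
      g = pairE (cut (fun τ => τ J ≤ (M : ℕ∞)) (fun τ => G (top (J + 1) τ)))} ν

/-- **Bounded depth.**  (Depth `J+1`; the case of depth `J' ≤ J + 1` follows since
`G ∘ top J' = (G ∘ top J') ∘ top (J+1)`.)  If not null, `η`, infinitely many `j` with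
`pairE (G_j ∘ top (J+1)) (ν j) > η`.  Choose recursively `j s` (strictly increasing) and
`M 0 ≤ M 1 ≤ …`: by `FinP` with `M s`, pick `j s` with
`pairE (cut (τ J ≤ M s) ..) (ν (j s)) ≤ η/2`, so `cut (M s < τ J)` gives `> η/2`; take `M (s+1) ≥ M s`
bounding all values of all `Act` tags in the support of `ν (j s)`.
`h s = cut (τ (J+1) ≤ M (s+1)) (cut (M s < τ J) (G_s ∘ top (J+1)))`.  For a monotone `τ`,
`h s τ ≠ 0` forces `M s < τ J ≤ τ (J+1) ≤ M (s+1)`: on a line of level `i ≠ J` the value `τ J` is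
fixed, on a line of level `J` the value `τ (J+1)` is fixed, so at most one `s` is alive on the good
part of a line (`var_congr`), and it costs `wt i + 2` (two `var_cut`s) for `i ≤ J + 1`, `0` for
`i > J + 1`.  So `∑ ε s • h s` is `InE ω 1 (1 + 2 / wt ω (J+1))` by `of_fin` (`R = J + 2`); finish
with `pair_sum`, `mem`, `Sel`.  Hypotheses: `BasicBd`, `BasicE`, `Sel`, `0 < ω`, `FinP ω`. -/
def CaseI (ω : ℝ) : Prop :=
  ∀ ν : ℕ → IE →₀ ℝ, Wuc (EE ω) ν → ∀ J : ℕ,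
    Null {g | ∃ G, InE ω 1 1 G ∧ g = pairE (fun τ => G (top J τ))} ν

/-- **Escaping depth** (`EFree ω` from `CaseI ω`).  If not null: `η`, infinitely many `j` with
`pairE G_j (ν j) > η`.  Recursively: given `q s`, pick `j s` (increasing) with
`pairE (G ∘ top (q s)) (ν (j s)) ≤ η/4` (`CaseI`); `r s > q s` with
`pairE (G_s ∘ top (r s)) (ν (j s)) > 3η/4` (`val_tail`); `M s` increasing and bounding the `Act`
tags in the support; `q (s+1) > r s` with `2 * (2 wt (q (s+1))) * M s ≤ 2^{-(s+1)} wt (r s)`.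
`h s = cut (τ (q s) ≤ M s) (G_s ∘ top (r s) - G_s ∘ top (q s))`, value `> η/2`.
Cap of `h s`: `2 wt (q s)` (`tail` at the good tag `top (r s) τ`), total `≤ 4 ω`.
Line of level `i`: `s` with `r s ≤ i` constant; the `s` with `q s ≤ i < r s` costs
`≤ 2 wt i + 2 wt i` (`var_cut` if `i = q s`; if `i > q s` the cut is fixed along the line, use
`var_congr`); for `i < q s` the cut is fixed along the line and `h s` costs
`≤ 2 wt i`; this bound is used for the first such `s₀` and for the unique `s > s₀` with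
`M (s-1) < τ (i+1) ≤ M s`; if `τ (i+1) ≤ M (s-1)` use `var_tiny` (good `s' ≤ τ (i+1)`), cost
`≤ 2^{-s} wt (r (s-1)) ≤ 2^{-s} wt i`; if `M s < τ (i+1)` then `h s = 0` on the good part of the line
(`τ (i+1) ≤ τ (q s)`).  Total `≤ 10 wt i`.  `of_fin`, `mem`, `Sel`. -/
def EFree (ω : ℝ) : Prop := Free (EE ω)

/-! ## 3. Parameters -/

/-- a cell is named by its centre; `b = false` lower position, `b = true` upper position -/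
abbrev Cell := ℕ → ℕ → Bool → ℝ

structure Par (ε : ℝ) where
  Λ : ℝ
  T : ℕ → ℝ
  T' : ℕ → ℝ
  ρ : ℕ → ℝ
  ω : ℕ → ℝ
  e : ℕ → ℝ
  Lc : ℕ → ℝ
  Cn : ℕ → ℝ
  θ : ℕ → ℝ → ℝ
  θe : ℕ → ℝ → ℝ
  Q : ℕ → Finset Cell
  π : ℕ → Cell → Cell → ℝ
  χ : ℕ → Cell → Cell → ℝ
  Λ_pos : 0 < Λ
  T_pos : ∀ k, 0 < T k
  T'_pos : ∀ k, 0 < T' k
  ρ_pos : ∀ k, 0 < ρ k
  ω_pos : ∀ k, 0 < ω k
  e_nonneg : ∀ k, 0 ≤ e k
  Lc_nonneg : ∀ k, 0 ≤ Lc k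
  one_le_Cn : ∀ k, 1 ≤ Cn k
  T_le : ∀ k, T k ≤ 1 / 2 ^ k
  θ_nonneg : ∀ k s, 0 ≤ θ k s
  θ_le : ∀ k s, θ k s ≤ 1
  θe_nonneg : ∀ k s, 0 ≤ θe k s
  θ_supp : ∀ k s, θ k s ≠ 0 → T' k < s ∧ s < T k
  θe_θ : ∀ k s, θe k s ≠ 0 → θ k s = 1
  θ_sum : ∀ K s, ∑ k ∈ range K, θ k s ≤ 3
  θe_sum : ∀ K s, ∑ k ∈ range K, θe k s ≤ 1
  θe_one : ∀ s, 0 < s → s ≤ Λ → ∀ᶠ K in atTop, ∑ k ∈ range K, θe k s = 1
  θ_lip : ∀ k s s', 0 ≤ s → 0 ≤ s' → min s s' * |θ k s - θ k s'| ≤ e k * |s - s'|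
  θe_lip : ∀ k s s', 0 ≤ s → 0 ≤ s' → min s s' * |θe k s - θe k s'| ≤ e k * |s - s'|
  π_nonneg : ∀ k q z, 0 ≤ π k q z
  π_sum : ∀ k z, (∀ n l b, |z n l b| ≤ 4 * Λ) → ∑ q ∈ Q k, π k q z = 1
  π_supp : ∀ k q z, π k q z ≠ 0 →
    χ k q z = 1 ∧ ∀ n < k, ∀ l < k, ∀ b, |z n l b - q n l b| ≤ ρ k
  χ_nonneg : ∀ k q z, 0 ≤ χ k q z
  χ_le : ∀ k q z, χ k q z ≤ 1
  χ_card : ∀ k z, 2 * (((Q k).filter (fun q => χ k q z ≠ 0)).card : ℝ) ≤ Cn k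
  π_lip : ∀ k q z z' (δ : ℝ), (∀ n l b, |z n l b - z' n l b| ≤ δ) →
    |π k q z - π k q z'| ≤ Lc k * δ
  χ_lip : ∀ k q z z' (δ : ℝ), (∀ n l b, |z n l b - z' n l b| ≤ δ) →
    |χ k q z - χ k q z'| ≤ Lc k * δ
  ρ_small : ∀ k, ρ k * Cn k * 4 ^ k ≤ 1
  err : ∀ k, 8 * e k + 256 * ω k * T k / T' k + 4 * Lc k * Cn k * T k ≤ ε / 2 ^ (k + 1)

/-- Cells of one scale.  `Co = range k ×ˢ range k ×ˢ univ` (`2 k²` coordinates), `Q` = functions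
with `q n l b ∈ {j ρ : |j| ≤ G}` on `Co` and `0` off `Co` (`G ρ ≥ 4`; an injective image of a
`piFinset`), `π q z = ∏_{Co} max 0 (1 - |z - q| / ρ)`, `χ q z = ∏_{Co} max 0 (min 1 (2 - |z - q| / ρ))`.
Sum of products = product of sums, and `∑_{|j| ≤ G} max 0 (1 - |y - j|) = 1` for `|y| ≤ G`; at most
4 integers within distance `< 2` of a real. -/
def CellsEx : Prop :=
  ∀ (k : ℕ) (ρ : ℝ), 0 < ρ → ∃ (Q : Finset Cell) (π χ : Cell → Cell → ℝ),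
    (∀ q z, 0 ≤ π q z) ∧ (∀ z : Cell, (∀ n l b, |z n l b| ≤ 4) → ∑ q ∈ Q, π q z = 1) ∧
    (∀ q z, π q z ≠ 0 → χ q z = 1 ∧ ∀ n < k, ∀ l < k, ∀ b, |z n l b - q n l b| ≤ ρ) ∧
    (∀ q z, 0 ≤ χ q z ∧ χ q z ≤ 1) ∧
    (∀ z, ((Q.filter (fun q => χ q z ≠ 0)).card : ℝ) ≤ 4 ^ (2 * k ^ 2)) ∧
    (∀ q z z' (δ : ℝ), (∀ n l b, |z n l b - z' n l b| ≤ δ) →
      |π q z - π q z'| ≤ 2 * k ^ 2 / ρ * δ ∧ |χ q z - χ q z'| ≤ 2 * k ^ 2 / ρ * δ)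

/-- Scales.  Choose `t k > 0` decreasing to `0` with `t k ≤ b k`, `t 0 ≤ 1`, and
`L k := log (t k) - log (t (k+1))` with `2 / L j ≤ e k` for `j = k, .., k+3` (e.g.
`t k = ∏_{j ≤ k} β j`, `β j = min (b j) (exp (-λ j))`-like with `λ j ≥ 2 / min_{i ≤ j} e i + 1`).
`s k σ = if σ ≤ 0 then 0 else max 0 (min 1 ((log σ - log (t (k+1))) / L k))`,
`θ k = s (k+3) - s k`, `θe k = s (k+2) - s (k+1)`, `T k = t k`, `T' k = t (k+4)`, `Λ = t 2`.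
`s k ≤ s (k+1)`; `s k σ = 0` iff `σ ≤ t (k+1)`, `= 1` iff `t k ≤ σ`;
`min σ σ' * |log σ - log σ'| ≤ |σ - σ'|`. -/
def ScalesEx : Prop :=
  ∀ (b e : ℕ → ℝ), (∀ k, 0 < b k) → (∀ k, 0 < e k) →
    ∃ (Λ : ℝ) (T T' : ℕ → ℝ) (θ θe : ℕ → ℝ → ℝ), 0 < Λ ∧ Λ ≤ 1 ∧
      (∀ k, 0 < T k ∧ 0 < T' k ∧ T k ≤ b k) ∧
      (∀ k s, 0 ≤ θ k s ∧ θ k s ≤ 1 ∧ 0 ≤ θe k s) ∧
      (∀ k s, θ k s ≠ 0 → T' k < s ∧ s < T k) ∧ (∀ k s, θe k s ≠ 0 → θ k s = 1) ∧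
      (∀ K s, ∑ k ∈ range K, θ k s ≤ 3 ∧ ∑ k ∈ range K, θe k s ≤ 1) ∧
      (∀ s, 0 < s → s ≤ Λ → ∀ᶠ K in atTop, ∑ k ∈ range K, θe k s = 1) ∧
      (∀ k s s', 0 ≤ s → 0 ≤ s' → min s s' * |θ k s - θ k s'| ≤ e k * |s - s'| ∧
        min s s' * |θe k s - θe k s'| ≤ e k * |s - s'|)

/-- From `CellsEx`, `ScalesEx`: `Cn k = 2 * 4^(2k²)`, `ρ k = 1 / (Cn k * 4^k)`, `Lc k = 2k²/ρ k`,
`e k = ε / (24 * 2^(k+1))`, `b k = min (1/2^k) (ε / (2^(k+1) * 12 * (Lc k * Cn k + 1)))`,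
`ω k = ε * T' k / (768 * T k * 2^(k+1))`. -/
def ParEx : Prop := ∀ ε : ℝ, 0 < ε → Nonempty (Par ε)

/-! ## 4. The norming set `KK` -/

/-- atoms `(k, q, τ, n, l, t)` -/
abbrev IK := ℕ × Cell × IE

section K

variable {ε : ℝ} (P : Par ε)

def Compat (k : ℕ) (q : Cell) (v : ℕ → ℕ → ℝ) : Prop :=
  ∀ n < k, ∀ l < k, ∃ b, |v n l - q n l b| ≤ 2 * P.ρ k

def InK (C : ℝ) (ψ : ℕ → Cell → Fam) : Prop :=
  ∃ S : ℕ → Cell → ℝ, (∀ k q, InE (P.ω k) (S k q) C (ψ k q)) ∧ (∀ k q, S k q ≤ C) ∧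
    (∀ k, ∑ q ∈ P.Q k, S k q ≤ C * P.Cn k) ∧
    ∀ v : ℕ → ℕ → ℝ, ∃ b : ℕ → ℝ, (∀ k, 0 ≤ b k) ∧ (∀ K, ∑ k ∈ range K, b k ≤ C) ∧
      ∀ k, ∀ q ∈ P.Q k, Compat P k q v → ∀ m τ, Good m τ → BdAt m (ψ k q τ) v (b k)

def valK (ψ : ℕ → Cell → Fam) (i : IK) : ℝ :=
  if i.2.1 ∈ P.Q i.1 then valE (ψ i.1 i.2.1) i.2.2 else 0

def pairK (ψ : ℕ → Cell → Fam) : (IK →₀ ℝ) →ₗ[ℝ] ℝ := Finsupp.linearCombination ℝ (valK P ψ)

def KK : Set ((IK →₀ ℝ) →ₗ[ℝ] ℝ) := {g | ∃ ψ, InK P 1 ψ ∧ g = pairK P ψ}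

/-- restriction to the block `n` -/
def blk (n : ℕ) : (IK →₀ ℝ) →ₗ[ℝ] (IK →₀ ℝ) :=
  Finsupp.linearCombination ℝ (fun i : IK => if i.2.2.2.1 = n then Finsupp.single i (1 : ℝ) else 0)

/-- Elementary facts on `KK` (from `BasicBd`, `BasicE`). -/
structure BasicK : Prop where
  nonempty : (KK P).Nonempty
  neg : ∀ g ∈ KK P, -g ∈ KK P
  bdd : ∀ ν, ∃ C : ℝ, ∀ g ∈ KK P, g ν ≤ C
  mem : ∀ {C ψ}, InK P C ψ → 0 < C → ∃ g ∈ KK P, pairK P ψ = C • g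
  mono : ∀ {C C' ψ}, InK P C ψ → C ≤ C' → InK P C' ψ
  mask : ∀ {C ψ} (A : ℕ → Cell → ℕ → ℕ → ℝ → Prop),
    (∀ k q n l, MeasurableSet {t | A k q n l t}) → InK P C ψ →
    InK P C (fun k q τ => mask (A k q) (ψ k q τ))
  blk_mem : ∀ g ∈ KK P, ∀ n, g ∘ₗ blk n ∈ KK P
  single : ∀ (k : ℕ) (q : Cell) {F : Fam}, InE (P.ω k) 1 1 F →
    InK P 1 (fun k' q' => if k' = k ∧ q' = q then F else 0)

/-- **No c₀ in `KK`** (from `BasicBd`, `BasicE`, `BasicK`, `Sel`, `∀ ω > 0, EFree ω`).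
(1) For fixed `k`, `q ∈ Q k`, let `T : (IK →₀ ℝ) →ₗ (IE →₀ ℝ)` keep the atoms of cell `(k,q)`;
`pairE F ∘ T = pairK (single k q F)`, so `T ∘ ν` is `Wuc (EE (ω k))`, hence null; summing over the
finitely many `(k,q)` with `k < k₀`: the part of `pairK ψ (ν j)` of scales `< k₀` is uniformly null.
(2) If not null: `η`; choose recursively `j s` increasing, `ψ s` (with its `S s`), `κ 0 < κ 1 < …`:
the part of `pairK (ψ s) (ν (j s))` of scales `≥ κ s` is `> η/2`; `κ (s+1)` exceeds all `k, n, l` in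
the support of `ν (j s)` and `16 * 2^{-κ (s+1)} * ∑ |ν (j s) i| < η/4`.  Fix `J`.  Call `(k,q)`,
`κ s ≤ k < κ (s+1)`, `s < J`, `q ∈ Q k`, bad if `S s k q > 2^{-k}` (at most `Cn k 2^k` bad `q`).
`U s n l = ⋃` of `closedBall (q n l b) (2 ρ k)` over bad `(k,q)`, `k ≥ κ (s+1)`, and `b`:
measure `≤ ∑_k Cn k 2^k * 8 ρ k ≤ 16 * 2^{-κ (s+1)}`.  `h s = ψ s` restricted to scales in
`[κ s, κ (s+1))` and masked to `n, l < κ (s+1)`, `t ∉ U s n l`; the loss is `< η/4` as `|ψ| ≤ 1` on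
valid atoms (`pt`).  `∑ ε s • h s` is `InK 3`: one `s` per scale; given `v`, let `k*` be the largest
scale with a bad cell compatible with `v` (if none, `b k = 2^{-k}`), `s*` its block; for `s < s*`
`h s` vanishes at `v` (`v n l ∈ U s n l`); take `b k = 2^{-k} + 1[k in block s*] * b^{s*} k`. -/
def KFree : Prop := Free (KK P)

/-- Valid atoms have `q ∈ Q k` and `Act τ` (countably many: a bounded monotone `ℕ∞`-sequence is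
eventually constant); invalid atoms have norm `0`; `‖emb (single (.., t) 1 - single (.., t') 1)‖ ≤
|t - t'|` (`content` or `pt`); so `ℚ`-combinations of valid atoms with rational `t` are dense. -/
def KSep : Prop :=
  ∀ (B : Type) [NormedAddCommGroup B] [NormedSpace ℝ B] (emb : (IK →₀ ℝ) →ₗ[ℝ] B),
    Pre (KK P) emb → TopologicalSpace.SeparableSpace B

end K

/-! ## 5. Configurations and systems -/

abbrev H := lp (fun _ : ℕ => ℝ) 2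

structure Cfg where
  a : ℕ → H
  a' : ℕ → H
  σ : ℕ → ℝ

def Cfg.swap (x : Cfg) : Cfg := ⟨x.a', x.a, x.σ⟩

def Valid (x : Cfg) : Prop :=
  (∀ n, ‖x.a n‖ ≤ 4 * x.σ n ∧ ‖x.a' n‖ ≤ 4 * x.σ n) ∧ Tendsto x.σ atTop (𝓝 0)

def Dom (Λ : ℝ) (x : Cfg) : Prop := Valid x ∧ ∀ n, x.σ n ≤ Λ

def Near (x y : Cfg) (δ : ℝ) : Prop :=
  ∀ n, ‖x.a n - y.a n‖ ≤ δ ∧ ‖x.a' n - y.a' n‖ ≤ δ ∧ |x.σ n - y.σ n| ≤ δ

structure Sys (B : Type) [NormedAddCommGroup B] [NormedSpace ℝ B] (D : Cfg → Prop) (ε : ℝ) where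
  R : ℕ → B →L[ℝ] B
  I : Cfg → B
  p : Cfg → ℕ → B →L[ℝ] H
  R_le : ∀ n c, ‖R n c‖ ≤ ‖c‖
  R_tend : ∀ c, Tendsto (fun n => R n c) atTop (𝓝 0)
  p_le : ∀ x n c, ‖p x n c‖ ≤ ‖R n c‖
  p_lip : ∀ x y δ, D x → D y → Near x y δ → ∀ n c,
    min (x.σ n) (y.σ n) * ‖p x n c - p y n c‖ ≤ ε * δ * ‖R n c‖
  p_swap : ∀ x, p x.swap = p x
  p_I : ∀ x, D x → ∀ n, p x n (I x) = x.a n
  I_lip : ∀ x y δ δa, D x → D y → Near x y δ → (∀ n, ‖x.a n - y.a n‖ ≤ δa) →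
    ‖I x - I y‖ ≤ δa + ε * δ
  R_I : ∀ x, D x → ∀ n, ‖R n (I x)‖ ≤ 3 * ‖x.a n‖
  I_zero : I ⟨0, 0, 0⟩ = 0

/-! ## 6. Laws of tags -/

/-- product law of levels `< N` (level `i` has law `q i` on `{0..M}`), base tag `τ` above -/
def mu (q : ℕ → ℕ → ℝ) (M N : ℕ) : Tag → (Tag →₀ ℝ) :=
  Nat.rec (fun τ => Finsupp.single τ 1)
    (fun N ih τ => ∑ m ∈ range (M + 1), q N m • ih (update τ N (m : ℕ∞))) N

theorem mu_zero (q : ℕ → ℕ → ℝ) (M : ℕ) (τ : Tag) : mu q M 0 τ = Finsupp.single τ 1 := rfl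

theorem mu_succ (q : ℕ → ℕ → ℝ) (M N : ℕ) (τ : Tag) :
    mu q M (N + 1) τ = ∑ m ∈ range (M + 1), q N m • mu q M N (update τ N (m : ℕ∞)) := rfl

def IsLaw (q : ℕ → ℕ → ℝ) (M N : ℕ) : Prop :=
  ∀ i < N, (∀ m, 0 ≤ q i m) ∧ ∑ m ∈ range (M + 1), q i m = 1

def Box (N : ℕ) (lo hi : ℕ → ℕ) (τ τ' : Tag) : Prop :=
  (∀ i < N, ∃ m : ℕ, τ' i = m ∧ lo i ≤ m ∧ m ≤ hi i) ∧ ∀ i, N ≤ i → τ' i = τ i

/-- Facts on `mu` (all by induction on `N`, generalizing `τ`).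
`diff`: hybrid argument; the new term at level `N` is
`∑_m (q N m - q' N m) * E' G(update · N m)`; commute (`mu q' M N (update τ N m)` is the image of
`mu q' M N (update τ N (lo N))` under `update · N m`) and bound pointwise on the box by Abel
summation: with `c m = ∑_{j<m} (q N j - q' N j)`, `∑_m (c (m+1) - c m) g m = -∑_m c (m+1) (g (m+1) - g m)`
(`c 0 = c (M+1) = 0`), and `c (m+1) = 0` unless `lo N ≤ m`, `m + 1 ≤ hi N`. -/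
structure MuB : Prop where
  nonneg : ∀ {q M N} (τ τ' : Tag), IsLaw q M N → 0 ≤ mu q M N τ τ'
  mass : ∀ {q M N} (τ : Tag), IsLaw q M N → ∑ τ' ∈ (mu q M N τ).support, mu q M N τ τ' = 1
  supp : ∀ {q M N} {lo hi : ℕ → ℕ} (τ τ' : Tag),
    (∀ i < N, ∀ m, q i m ≠ 0 → lo i ≤ m ∧ m ≤ hi i) → τ' ∈ (mu q M N τ).support →
    Box N lo hi τ τ'
  le : ∀ {q M N} (τ : Tag) (G : Tag → ℝ) (r : ℝ), IsLaw q M N →
    (∀ τ' ∈ (mu q M N τ).support, G τ' ≤ r) →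
    Finsupp.linearCombination ℝ G (mu q M N τ) ≤ r
  box_update : ∀ {N lo hi τ τ'} (i s : ℕ), Box N lo hi τ τ' → i < N → lo i ≤ s → s ≤ hi i →
    Box N lo hi τ (update τ' i (s : ℕ∞))
  indep : ∀ {q M M' N N'} (τ τ' : Tag) (G : Tag → ℝ), M ≤ M' → N ≤ N' → IsLaw q M' N' →
    (∀ i < N, ∀ m, M < m → q i m = 0) →
    Finsupp.linearCombination ℝ (fun t => G (top N t)) (mu q M' N' τ') =
      Finsupp.linearCombination ℝ (fun t => G (top N t)) (mu q M N τ)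
  diff : ∀ {q q' M N} (lo hi : ℕ → ℕ) (η W : ℕ → ℝ) (τ : Tag) (G : Tag → ℝ),
    IsLaw q M N → IsLaw q' M N →
    (∀ i < N, ∀ m, q i m ≠ 0 ∨ q' i m ≠ 0 → lo i ≤ m ∧ m ≤ hi i) →
    (∀ i < N, ∀ m, |∑ j ∈ range m, q i j - ∑ j ∈ range m, q' i j| ≤ η i) →
    (∀ τ', Box N lo hi τ τ' → ∀ i < N, ∃ P : ℕ → ℝ, Monotone P ∧ (∀ s, 0 ≤ P s ∧ P s ≤ W i) ∧
      ∀ s : ℕ, lo i ≤ s → s + 1 ≤ hi i →
        |G (update τ' i ((s + 1 : ℕ) : ℕ∞)) - G (update τ' i (s : ℕ∞))| ≤ P (s + 1) - P s) →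
    Finsupp.linearCombination ℝ G (mu q M N τ) - Finsupp.linearCombination ℝ G (mu q' M N τ) ≤
      ∑ i ∈ range N, η i * W i

/-- `D_m = sup_{n ≥ m} σ n` -/
def Dm (σ : ℕ → ℝ) (m : ℕ) : ℝ := ⨆ n, σ (n + m)

/-- `P(τ_i ≥ m)` at a scale with lower end `T'` -/
def tailp (T' : ℝ) (σ : ℕ → ℝ) (i m : ℕ) : ℝ :=
  if m = 0 then 1 else
    max 0 (min 1 ((Dm σ (m - 1) - T' / 8 * (1 + 1 / 2 ^ i)) / (T' / 32 / 2 ^ i)))

def law (T' : ℝ) (σ : ℕ → ℝ) (i m : ℕ) : ℝ := tailp T' σ i m - tailp T' σ i (m + 1)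

/-- Facts on the laws.  `σ ≥ 0`, `σ → 0`, so `Dm σ` is antitone, tends to `0`, and is 1-Lipschitz.
With `α i = T'/8 (1 + 2^{-i})`, `ℓ i = T'/32 2^{-i}`: `law i m ≠ 0 → Dm m < α i + ℓ i` and
(`m = 0` or `α i < Dm (m-1)`).  `box`: `lo i = min {m | Dm σ m < α i + ℓ i + δ}`,
`hi i = min {m | Dm σ m ≤ α i - δ}`, `m0 = lo 0`; `hi i ≤ lo (i+1)` for `i + 1 < N` because
`α (i+1) + ℓ (i+1) + 2δ ≤ α i`; `hi i ≤ N`. -/
structure LawB : Prop where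
  le_Dm : ∀ {σ : ℕ → ℝ} (n m : ℕ), Tendsto σ atTop (𝓝 0) → m ≤ n → σ n ≤ Dm σ m
  Dm_le : ∀ {σ : ℕ → ℝ} (m : ℕ) (r : ℝ), (∀ n, m ≤ n → σ n ≤ r) → Dm σ m ≤ r
  Dm_tend : ∀ {σ : ℕ → ℝ}, Tendsto σ atTop (𝓝 0) → Tendsto (Dm σ) atTop (𝓝 0)
  isLaw : ∀ {σ : ℕ → ℝ} {T' : ℝ} (M N : ℕ), 0 < T' → Tendsto σ atTop (𝓝 0) →
    Dm σ M ≤ T' / 8 → IsLaw (law T' σ) M N ∧ ∀ i m, M < m → law T' σ i m = 0
  cdf : ∀ {σ σ' : ℕ → ℝ} {T' δ : ℝ} (i m : ℕ), 0 < T' → Tendsto σ atTop (𝓝 0) →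
    Tendsto σ' atTop (𝓝 0) → (∀ n, |σ n - σ' n| ≤ δ) →
    |∑ j ∈ range m, law T' σ i j - ∑ j ∈ range m, law T' σ' i j| ≤ 32 * 2 ^ i / T' * δ
  box : ∀ {σ σ' : ℕ → ℝ} {T' δ : ℝ} (N : ℕ), 0 < T' → Tendsto σ atTop (𝓝 0) →
    Tendsto σ' atTop (𝓝 0) → (∀ n, |σ n - σ' n| ≤ δ) → δ ≤ T' / (64 * 2 ^ N) →
    Dm σ N ≤ T' / 16 →
    ∃ (lo hi : ℕ → ℕ) (m0 : ℕ),
      (∀ i < N, ∀ m, law T' σ i m ≠ 0 ∨ law T' σ' i m ≠ 0 → lo i ≤ m ∧ m ≤ hi i) ∧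
      m0 ≤ N ∧ (∀ n, m0 ≤ n → σ n ≤ T' ∧ σ' n ≤ T') ∧
      ∀ τ', Box N lo hi (fun _ => (N : ℕ∞)) τ' → Good m0 τ' ∧ Act τ'

/-! ## 7. Insertion and extraction -/

/-- swap-symmetric positions -/
def pos (x : Cfg) : Cell := fun n l b =>
  if b then max (x.a n l) (x.a' n l) else min (x.a n l) (x.a' n l)

section Ins

variable {ε : ℝ} (P : Par ε)

def muP (x : Cfg) (k N : ℕ) : Tag →₀ ℝ := mu (law (P.T' k) x.σ) N N (fun _ => (N : ℕ∞))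

/-- truncated insertion at scale `k` -/
def JJ (x : Cfg) (k N : ℕ) : IK →₀ ℝ :=
  ∑ q ∈ P.Q k, P.π k q (pos x) • Finsupp.linearCombination ℝ
    (fun τ : Tag => ∑ n ∈ range N, ∑ l ∈ range N,
      P.θ k (x.σ n) • Finsupp.single ((k, q, τ, n, l, x.a n l) : IK) (1 : ℝ)) (muP P x k N)

/-- pairing with separated ingredients (cells from `xπ`, law from `xq`, cutoff from `xθ`,
contents from `xa`) -/
def AA (ψ : ℕ → Cell → Fam) (k N : ℕ) (xπ xq xθ xa : Cfg) : ℝ :=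
  ∑ q ∈ P.Q k, P.π k q (pos xπ) * Finsupp.linearCombination ℝ
    (fun τ : Tag => ∑ n ∈ range N, ∑ l ∈ range N,
      P.θ k (xθ.σ n) * valE (ψ k q) (τ, n, l, xa.a n l)) (muP P xq k N)

def JPair : Prop := ∀ ψ x k N, pairK P ψ (JJ P x k N) = AA P ψ k N x x x x

structure Loc (x y : Cfg) (δ : ℝ) (k N : ℕ) : Prop where
  hx : Dom P.Λ x
  hy : Dom P.Λ y
  near : Near x y δ
  δρ : δ ≤ P.ρ k
  δT : δ ≤ P.T' k / (64 * 2 ^ N)
  Dx : Dm x.σ N ≤ P.T' k / 16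
  Dy : Dm y.σ N ≤ P.T' k / 16

/-- **Main term** (from `BasicBd`, `BasicE`, `MuB`, `LawB`).  For `τ` in the support of `muP x k N`
(`Good m0`, `Act`), `θ = 0` for `n ≥ m0`, and
`valE (τ,n,l,x.a n l) - valE (τ,n,l,y.a n l) = ∫₀¹ ψ τ n l (v s n l) * (x.a n l - y.a n l)`,
`v s = y.a + s (x.a - y.a)`.  The whole left side is `∫₀¹` of a finite sum; for each `s` take `b`
from the last clause of `InK` at `v s`: cells with `π ≠ 0` are `Compat` with `v s`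
(`x.a n l` is `pos x n l b` for some `b`, `|v s - x.a| ≤ δ ≤ ρ`), `scale` with `D = δa`,
`∑ π = 1`, mass `1`, `∑ b ≤ 1`. -/
def MainT : Prop :=
  ∀ ψ, InK P 1 ψ → ∀ x y δ δa K N, (∀ k < K, Loc P x y δ k N) → (∀ n, ‖x.a n - y.a n‖ ≤ δa) →
    ∑ k ∈ range K, (AA P ψ k N x x x x - AA P ψ k N x x x y) ≤ δa

/-- `content` with `c n l = θ (x.σ n) - θ (y.σ n)`, `D = 8 e δ`: if the difference is nonzero then
`min σ ≥ T' - δ ≥ δ`, so `y.σ n ≤ 2 min`, `‖y.a n‖ ≤ 4 y.σ n`, `θ_lip`. -/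
def ErrTh : Prop :=
  ∀ ψ, InK P 1 ψ → ∀ x y δ k N, Loc P x y δ k N →
    AA P ψ k N x x x y - AA P ψ k N x x y y ≤ 8 * P.e k * δ

/-- `MuB.diff` with `η i = 32 * 2^i / T' * δ` (`cdf`), `W i = wt ω i * (4 T)` (from `var` at
`m0`, and `content` applied to `±` the difference, `θ ‖y.a n‖ ≤ 4 T`); `∑ 2^i/4^i ≤ 2`. -/
def ErrLaw : Prop :=
  ∀ ψ, InK P 1 ψ → ∀ x y δ k N, Loc P x y δ k N →
    AA P ψ k N x x y y - AA P ψ k N x y y y ≤ 256 * P.ω k * P.T k / P.T' k * δ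

/-- `∑_q |Δπ q| * S k q * 4 T ≤ Lc δ * Cn * 4 T` (`pos` is 1-Lipschitz). -/
def ErrPi : Prop :=
  ∀ ψ, InK P 1 ψ → ∀ x y δ k N, Loc P x y δ k N →
    AA P ψ k N x y y y - AA P ψ k N y y y y ≤ 4 * P.Lc k * P.Cn k * P.T k * δ

/-- **Global estimate** (from `LawB`, `JPair`, `MainT`, `ErrTh`, `ErrLaw`, `ErrPi`): take `N` with
`Dm x.σ N, Dm y.σ N ≤ T' k / 16` for `k < K`; cut the segment from `x` to `y` into `r` equal pieces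
with `δ / r` tiny (points of the segment are in `Dom`, with the same bound on `Dm`), add the local
estimates `δa / r + ε δ / r` (`err`, `∑ ε / 2^(k+1) ≤ ε`). -/
def Glob : Prop :=
  ∀ x y δ δa, Dom P.Λ x → Dom P.Λ y → Near x y δ → (∀ n, ‖x.a n - y.a n‖ ≤ δa) → ∀ K : ℕ,
    ∀ᶠ N in atTop, ∀ g ∈ KK P,
      g (∑ k ∈ range K, JJ P x k N - ∑ k ∈ range K, JJ P y k N) ≤ δa + ε * δ

/-- `cap` and `content` (from `0` to `x.a n l`), `D = 4 T`. -/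
def JSize : Prop :=
  ∀ x k N, Dom P.Λ x → Dm x.σ N ≤ P.T' k / 16 → ∀ g ∈ KK P, g (JJ P x k N) ≤ 4 * P.T k

/-- as `JSize`, with contents only in block `n` -/
def JBlk : Prop :=
  ∀ x k N n, Dom P.Λ x → Dm x.σ N ≤ P.T' k / 16 → ∀ g ∈ KK P,
    g (blk n (JJ P x k N)) ≤ P.θ k (x.σ n) * ‖x.a n‖

/-- For `N ≤ N'` large: replace `ψ τ` by `ψ (top N τ)` in both (cost `2 wt N * 4 T` each, `tail`,
`content`, `MuB.le`), use `MuB.indep`, and pay the `ℓ₂` tail `l ∈ [N, N')` of the finitely many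
`x.a n` with `θ (σ n) ≠ 0`. -/
def JCauchy : Prop :=
  ∀ x k, Dom P.Λ x → ∀ η : ℝ, 0 < η → ∃ N0 : ℕ, ∀ N N', N0 ≤ N → N0 ≤ N' →
    ∀ g ∈ KK P, g (JJ P x k N - JJ P x k N') ≤ η

/-- extraction functional of coordinate `(n, l)` -/
def ext (x : Cfg) (n l : ℕ) : ℕ → Cell → Fam := fun k q _ n' l' _ =>
  if n' = n ∧ l' = l then P.θe k (x.σ n) * P.χ k q (pos x) else 0

/-- `π ≠ 0 → χ = 1`, `θe ≠ 0 → θ = 1` (so `n < m0 ≤ τ 0` on the support), `∑ π = 1`, mass `1`. -/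
def JExt : Prop :=
  ∀ x k N n l, Dom P.Λ x → Dm x.σ N ≤ P.T' k / 16 → n < N → l < N →
    pairK P (ext P x n l) (JJ P x k N) = P.θe k (x.σ n) * x.a n l

/-- Extend `emb ∘ blk n` by density (`blk_mem` gives `‖emb (blk n ν)‖ ≤ ‖emb ν‖`, so it factors
through the range of `emb`; extend to the closure, `B` complete).  `R n (emb ν) = 0` for large `n`. -/
def REx : Prop :=
  ∀ (B : Type) [NormedAddCommGroup B] [NormedSpace ℝ B] [CompleteSpace B]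
    (emb : (IK →₀ ℝ) →ₗ[ℝ] B), Pre (KK P) emb →
    ∃ R : ℕ → B →L[ℝ] B, (∀ n ν, R n (emb ν) = emb (blk n ν)) ∧ (∀ n c, ‖R n c‖ ≤ ‖c‖) ∧
      ∀ c, Tendsto (fun n => R n c) atTop (𝓝 0)

/-- Finsupp-level bounds for extraction.  For `u` with `∑_{l<L} u l ^ 2 ≤ 1` the family
`ψ k q τ n' l t = if n' = n ∧ l < L then u l * θe k (σ n) * χ k q (pos x) else 0` is `InK 1`
(`S = θe χ`, `b k = θe k`, `const`, `of_sq`, `χ_card`), and it pairs with `ν` and `blk n ν` alike.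
For the difference use `min σ * (θe χ (x) - θe χ (y))`: `S k q ≤ β k := (e k + T k Lc k) δ`,
nonzero for at most `Cn k` cells, `∑ β k ≤ ε δ` (`err`); so it is `InK (ε δ)`
(treat `ε δ = 0` via `mono` to `ε δ + η`). -/
def ExtB : Prop :=
  ∀ (ν : IK →₀ ℝ) (r : ℝ) (n L : ℕ) (u : ℕ → ℝ), ∑ l ∈ range L, u l ^ 2 ≤ 1 →
    (∀ g ∈ KK P, g (blk n ν) ≤ r) →
    (∀ x, ∑ l ∈ range L, u l * pairK P (ext P x n l) ν ≤ r) ∧
    ∀ x y δ, Valid x → Valid y → Near x y δ →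
      min (x.σ n) (y.σ n) *
        ∑ l ∈ range L, u l * (pairK P (ext P x n l) ν - pairK P (ext P y n l) ν) ≤ ε * δ * r

/-- From `ExtB`: the vector `l ↦ pairK (ext x n l) ν` is finitely supported, with `ℓ₂` norm
`≤ ‖emb (blk n ν)‖ ≤ ‖emb ν‖` (test with the normalised vector itself); extend by density. -/
def PEx : Prop :=
  ∀ (B : Type) [NormedAddCommGroup B] [NormedSpace ℝ B] [CompleteSpace B]
    (emb : (IK →₀ ℝ) →ₗ[ℝ] B), Pre (KK P) emb → ∀ R : ℕ → B →L[ℝ] B,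
    (∀ n ν, R n (emb ν) = emb (blk n ν)) → (∀ n c, ‖R n c‖ ≤ ‖c‖) →
    ∃ p : Cfg → ℕ → B →L[ℝ] H, (∀ x n ν l, p x n (emb ν) l = pairK P (ext P x n l) ν) ∧
      (∀ x n c, ‖p x n c‖ ≤ ‖R n c‖) ∧
      (∀ x y δ, Valid x → Valid y → Near x y δ → ∀ n c,
        min (x.σ n) (y.σ n) * ‖p x n c - p y n c‖ ≤ ε * δ * ‖R n c‖) ∧
      ∀ x, p x.swap = p x

/-- **Assembly of the bounded system** (from `LawB`, `REx`, `PEx`, `Glob`, `JSize`, `JBlk`,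
`JCauchy`, `JExt`).  `J k x = lim_N emb (JJ x k N)`, `‖J k x‖ ≤ 4 T k ≤ 4 / 2^k`, `I x = ∑' k, J k x`.
`p x n (I x) l = ∑' k, θe k (σ n) * a n l = a n l` (`θe_one`; if `σ n = 0` then `a n = 0`).
`I 0 = 0` as `θ k 0 = 0`. -/
def SysB : Prop :=
  ∀ (B : Type) [NormedAddCommGroup B] [NormedSpace ℝ B] [CompleteSpace B]
    (emb : (IK →₀ ℝ) →ₗ[ℝ] B), Pre (KK P) emb → Nonempty (Sys B (Dom P.Λ) ε)

end Ins

/-! ## 8. From the system to the theorem -/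

abbrev L1 (B : Type) [NormedAddCommGroup B] := lp (fun _ : ℕ => B) 1

/-- **Removing the bound `σ ≤ Λ`.**  `λ x = ⨆ n, σ n`, `g = log (1 + λ) / L`, `L = 2000`,
`tent i = max 0 (1 - |g - i|)` (sum `1`, at most two nonzero), `plat i = max 0 (min 1 (2 - |g - i|))`,
`U i = exp (L (i+2)) / Λ`, `x_i = x / U i` (scale `a, a', σ`);
`I₁ x = (tent i * U i • I x_i)_i`, `p₁ x n c = ∑' i, plat i • p x_i n (c i)`, `R₁ n c = (R n (c i))_i`.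
If `λ x ≤ λ y` and `plat i` (or `tent i`) is nonzero at `y` or at `x` then `x_i ∈ Dom Λ`; split
`f(x) A(x) - f(y) A(y) = (f x - f y) A(x) + f(y) (A x - A y)`; `|g x - g y| ≤ δ / (L (1 + λ x))`,
`‖I z‖ ≤ 5 sup σ` (`I_lip` against `0` with `δ = δa = 4 sup σ`), `∑_i |Δ tent i| ≤ 2 |Δ g|`
(or `≤ 4 |Δ g|` with `L = 4000`). -/
def LemmaH : Prop :=
  ∀ (B : Type) [NormedAddCommGroup B] [NormedSpace ℝ B] [CompleteSpace B] (Λ : ℝ), 0 < Λ →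
    Nonempty (Sys B (Dom Λ) (1 / 200)) → Nonempty (Sys (L1 B) Valid (1 / 100))

abbrev AA0 := ZeroAtInftyContinuousMap ℕ H

/-- Lipschitz involution with the constants used by the swindle -/
def Invol (A B : Type) [NormedAddCommGroup A] [NormedAddCommGroup B] (Θ : A × B → A × B) : Prop :=
  (∀ u, Θ (Θ u) = u) ∧ Θ (0, 0) = (0, 0) ∧
    ∀ u v, ‖(Θ u).1 - (Θ v).1‖ ≤ 11 / 10 * ‖u.2 - v.2‖ + 1 / 10 * ‖u.1 - v.1‖ ∧
      ‖(Θ u).2 - (Θ v).2‖ ≤ 11 / 5 * ‖u.2 - v.2‖ + 11 / 10 * ‖u.1 - v.1‖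

/-- **The swap.**  `Rel (a,c) (a',b)`: there is `σ → 0` with, for `x = ⟨a, a', σ⟩`,
`a' n = p x n c`, `b = c - I x.swap + I x`, `σ n = max ‖a n‖ (max ‖a' n‖ ‖R n (c - I x.swap)‖)`.
Symmetric (`p_swap`, `p_I`, `b - I x = c - I x.swap`).  In a relation `‖R n c‖ ≤ 4 σ n` (`R_I`).
Lipschitz: for two related pairs, `δ = max (δa, δ', δσ)` (sups): `δ' ≤ δc + 4 ε δ` (use `p_lip` with
the `c` of the configuration with the smaller `σ n`), `δσ ≤ max (δa, δ', δc + δ' + ε δ)`, so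
`δ ≤ (δa + 2 δc) / (1 - 5 ε)`; `‖Δ b‖ ≤ δc + (δ' + ε δ) + (δa + ε δ)`.  This gives uniqueness too.
Existence: Banach fixed point on the closed set `‖a' n‖ ≤ γ n := ‖R n c‖`,
`max ‖a n‖ (γ n / 4) ≤ σ n` of `c₀(H) × c₀` for `(a', σ) ↦ (p x · c, max ..)`, which halves
`max (3 ‖Δ a'‖) ‖Δ σ‖` (store `3 a'`, or iterate twice). `Rel (0,0) (0,0)` with `σ = 0`. -/
def LemmaF : Prop :=
  ∀ (B : Type) [NormedAddCommGroup B] [NormedSpace ℝ B] [CompleteSpace B],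
    Nonempty (Sys B Valid (1 / 100)) → ∃ Θ : AA0 × B → AA0 × B, Invol AA0 B Θ

/-- bi-Lipschitz bijection `A ⊕₁ Z → Z` with both constants `18/5` -/
def Absorb (A Z : Type) [NormedAddCommGroup A] [NormedAddCommGroup Z] : Prop :=
  ∃ Ψ : A × Z → Z, Bijective Ψ ∧ ∀ u v, ‖Ψ u - Ψ v‖ ≤ 18 / 5 * (‖u.1 - v.1‖ + ‖u.2 - v.2‖) ∧
    ‖u.1 - v.1‖ + ‖u.2 - v.2‖ ≤ 18 / 5 * ‖Ψ u - Ψ v‖

/-- **Swindle.**  `a 0 = a`, `(a (i+1), b i) = Θ (a i, c i)`, `Ψ (a, c) = b`.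
`∑ ‖Δ a i‖ ≤ (‖Δ a 0‖ + 1.1 ∑ ‖Δ c i‖) / 0.9` (finite partial sums first; compare with `0` for
summability).  Conversely `(a i, c i) = Θ (a (i+1), b i)` gives
`∑ ‖Δ a i‖ ≤ 1.1 ∑ ‖Δ b i‖ / 0.9`; `2.2 + 1.21 / 0.9 ≤ 3.6`.  Surjective: given `b`, the map
`(a i) ↦ ((Θ (a (i+1), b i)).1)` is a `1/10`-contraction of `L1 A`; put `c i = (Θ (a (i+1), b i)).2`. -/
def Swindle : Prop :=
  ∀ (A B : Type) [NormedAddCommGroup A] [NormedSpace ℝ A] [CompleteSpace A]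
    [NormedAddCommGroup B] [NormedSpace ℝ B] [CompleteSpace B] (Θ : A × B → A × B),
    Invol A B Θ → Absorb A (L1 B)

/-- Gliding hump: coordinates tend to `0` by `NoC0 B`; pick `j s` and disjoint blocks with
`‖x (j s)|block s‖ > η/2`, norming functionals `h s` of the restrictions (`exists_dual_vector`-type,
or coordinatewise); `‖∑ ε s • h s‖ ≤ 1`; `Sel` with `K = {g | ∀ y, g y ≤ ‖y‖}`. -/
def LpNoC0 : Prop :=
  ∀ (B : Type) [NormedAddCommGroup B] [NormedSpace ℝ B], NoC0 B → NoC0 (L1 B)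

def SepB : Prop :=
  (∀ (B : Type) [NormedAddCommGroup B] [NormedSpace ℝ B], TopologicalSpace.SeparableSpace B →
    TopologicalSpace.SeparableSpace (L1 B)) ∧ TopologicalSpace.SeparableSpace AA0

def Core : Prop :=
  ∃ (Z : Type) (_ : NormedAddCommGroup Z) (_ : NormedSpace ℝ Z), CompleteSpace Z ∧
    TopologicalSpace.SeparableSpace Z ∧ NoC0 Z ∧ Absorb AA0 Z

/-- From `Core`, `SepB`: `X = WithLp 1 (AA0 × Z)`, `Y = Z`, `Ψ` scaled by `3/4`.  A closed subspace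
isomorphic to `c₀(ℓ₂)` gives a `Wuc` sequence bounded below (images of `single n e₀`); an
isomorphism `X ≃L Y` does too. -/
def St120 : Prop :=
    ∃ (X : Type) (_ : NormedAddCommGroup X) (_ : NormedSpace ℝ X)
      (Y : Type) (_ : NormedAddCommGroup Y) (_ : NormedSpace ℝ Y),
      CompleteSpace X ∧ TopologicalSpace.SeparableSpace X ∧
      CompleteSpace Y ∧ TopologicalSpace.SeparableSpace Y ∧
      (∃ Ψ : X → Y, Function.Bijective Ψ ∧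
        ∀ s t : X, (4 / 21 : ℝ) * ‖s - t‖ ≤ ‖Ψ s - Ψ t‖ ∧ ‖Ψ s - Ψ t‖ ≤ (76 / 25 : ℝ) * ‖s - t‖) ∧
      Nonempty (ZeroAtInftyContinuousMap ℕ (lp (fun _ : ℕ => ℝ) 2) →ₗᵢ[ℝ] X) ∧
      (∀ S : Submodule ℝ Y, IsClosed (S : Set Y) →
        IsEmpty (S ≃L[ℝ] ZeroAtInftyContinuousMap ℕ (lp (fun _ : ℕ => ℝ) 2))) ∧
      IsEmpty (X ≃L[ℝ] Y)

/-- From `Core`: `Z × c₀ → (A × Z) × c₀ → A × Z → Z` using `Ψ⁻¹`, the bi-Lipschitz bijection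
`A × c₀ → A`, `(a, u) ↦ (n ↦ cons (u n) (a n))`, and `Ψ`. -/
def St121 : Prop :=
    ∃ (Z : Type) (_ : NormedAddCommGroup Z) (_ : NormedSpace ℝ Z),
      CompleteSpace Z ∧ TopologicalSpace.SeparableSpace Z ∧
      (∀ S : Submodule ℝ Z, IsClosed (S : Set Z) →
        IsEmpty (S ≃L[ℝ] ZeroAtInftyContinuousMap ℕ ℝ)) ∧
      ∃ F : Z × ZeroAtInftyContinuousMap ℕ ℝ → Z, Function.Surjective F ∧
        ∃ c C : ℝ, 0 < c ∧
          ∀ u v : Z × ZeroAtInftyContinuousMap ℕ ℝ,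
            c * ‖u - v‖ ≤ ‖F u - F v‖ ∧ ‖F u - F v‖ ≤ C * ‖u - v‖

end

end Crest.Agent.R91
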