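import Crest.Agent.R91.Defs

/-! Common lemmas for the tasks N, Q, R of row 91. -/

set_option autoImplicit false
set_option linter.unusedSectionVars false

open Finset Filter Topology Function

namespace Crest.Agent.R91

namespace JL

open Classical

theorem sq_sum_le (a : H) (s : Finset ℕ) : ∑ l ∈ s, a l ^ 2 ≤ ‖a‖ ^ 2 := by
  have h := lp.sum_rpow_le_norm_rpow (p := 2) (by norm_num) a s
  simp only [ENNReal.toReal_ofNat, Real.rpow_ofNat, Real.norm_eq_abs, sq_abs] at h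
  exact h

theorem abs_le_norm (a : H) (l : ℕ) : |a l| ≤ ‖a‖ := by
  have h := lp.norm_apply_le_norm (p := 2) (by norm_num) a l
  simpa using h

theorem summable_sq (a : H) : Summable (fun l => a l ^ 2) :=
  summable_of_sum_le (fun _ => sq_nonneg _) (sq_sum_le a)

theorem LC_eq (G : Tag → ℝ) (μ : Tag →₀ ℝ) :
    Finsupp.linearCombination ℝ G μ = ∑ τ ∈ μ.support, μ τ * G τ := by
  rw [Finsupp.linearCombination_apply, Finsupp.sum]
  rfl

theorem LC_congr {G G' : Tag → ℝ} {μ : Tag →₀ ℝ} (h : ∀ τ ∈ μ.support, G τ = G' τ) :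
    Finsupp.linearCombination ℝ G μ = Finsupp.linearCombination ℝ G' μ := by
  rw [LC_eq, LC_eq]
  exact sum_congr rfl fun τ hτ => by rw [h τ hτ]

theorem LC_sub (G G' : Tag → ℝ) (μ : Tag →₀ ℝ) :
    Finsupp.linearCombination ℝ G μ - Finsupp.linearCombination ℝ G' μ =
      Finsupp.linearCombination ℝ (fun τ => G τ - G' τ) μ := by
  rw [LC_eq, LC_eq, LC_eq, ← sum_sub_distrib]
  exact sum_congr rfl fun τ _ => by ring

theorem LC_abs_sub (hM : MuB) {q : ℕ → ℕ → ℝ} {M N : ℕ} (τ : Tag) (G G' : Tag → ℝ) (r : ℝ)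
    (hq : IsLaw q M N) (h : ∀ τ' ∈ (mu q M N τ).support, |G τ' - G' τ'| ≤ r) :
    |Finsupp.linearCombination ℝ G (mu q M N τ) -
      Finsupp.linearCombination ℝ G' (mu q M N τ)| ≤ r := by
  rw [abs_le]
  constructor
  · have := hM.le τ (fun t => G' t - G t) r hq
      (fun t ht => by have := (abs_le.1 (h t ht)).1; linarith)
    rw [← LC_sub] at this
    linarith
  · have := hM.le τ (fun t => G t - G' t) r hq (fun t ht => (abs_le.1 (h t ht)).2)
    rw [← LC_sub] at this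
    exact this

theorem σ_nonneg {x : Cfg} (hx : Valid x) (n : ℕ) : 0 ≤ x.σ n := by
  have := (hx.1 n).1
  have h2 := norm_nonneg (x.a n)
  linarith

theorem near_nonneg {x y : Cfg} {δ : ℝ} (h : Near x y δ) : 0 ≤ δ :=
  (norm_nonneg _).trans (h 0).1

theorem pos_le {Λ : ℝ} {x : Cfg} (hx : Dom Λ x) (n l : ℕ) (b : Bool) : |pos x n l b| ≤ 4 * Λ := by
  have h1 : |x.a n l| ≤ 4 * Λ :=
    (abs_le_norm _ l).trans ((hx.1.1 n).1.trans (by have := hx.2 n; linarith))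
  have h2 : |x.a' n l| ≤ 4 * Λ :=
    (abs_le_norm _ l).trans ((hx.1.1 n).2.trans (by have := hx.2 n; linarith))
  rw [abs_le] at h1 h2
  unfold pos
  cases b
  · simp only [Bool.false_eq_true, if_false]
    rw [abs_le]
    exact ⟨le_min h1.1 h2.1, (min_le_left _ _).trans h1.2⟩
  · simp only [if_true]
    rw [abs_le]
    exact ⟨h1.1.trans (le_max_left _ _), max_le h1.2 h2.2⟩

theorem pos_eq (x : Cfg) (n l : ℕ) : ∃ b, pos x n l b = x.a n l := by
  rcases le_total (x.a n l) (x.a' n l) with h | h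
  · exact ⟨false, by simp [pos, h]⟩
  · exact ⟨true, by simp [pos, h]⟩

variable {ε : ℝ}

theorem isLaw (hL : LawB) (P : Par ε) {x : Cfg} (hx : Valid x) {k N : ℕ}
    (hD : Dm x.σ N ≤ P.T' k / 16) :
    IsLaw (law (P.T' k) x.σ) N N ∧ ∀ i m, N < m → law (P.T' k) x.σ i m = 0 :=
  hL.isLaw N N (P.T'_pos k) hx.2 (by have := P.T'_pos k; linarith)

theorem θ_zero (P : Par ε) {k : ℕ} {s : ℝ} (h : s ≤ P.T' k) : P.θ k s = 0 := by
  by_contra h0
  have := (P.θ_supp k s h0).1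
  linarith

/-- the support of the law consists of good active tags -/
theorem supp_good (hM : MuB) (hL : LawB) (P : Par ε) {x : Cfg} (hx : Valid x) {k N : ℕ}
    (hD : Dm x.σ N ≤ P.T' k / 16) :
    ∃ m0, m0 ≤ N ∧ (∀ n, m0 ≤ n → P.θ k (x.σ n) = 0) ∧
      ∀ τ ∈ (muP P x k N).support, Good m0 τ ∧ Act τ := by
  obtain ⟨lo, hi, m0, h1, h2, h3, h4⟩ := hL.box (σ := x.σ) (σ' := x.σ) (δ := 0) N (P.T'_pos k)
    hx.2 hx.2 (fun n => by simp) (by have := P.T'_pos k; positivity) hD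
  refine ⟨m0, h2, fun n hn => θ_zero P (h3 n hn).1, fun τ hτ => h4 τ ?_⟩
  exact hM.supp _ τ (fun i hi m hm => h1 i hi m (Or.inl hm)) hτ

/-- `θ ‖a‖ ≤ 4 T` in `ℓ₂` form -/
theorem θ_sq (P : Par ε) {x : Cfg} (hx : Valid x) (k n : ℕ) (s : Finset ℕ) :
    ∑ l ∈ s, (P.θ k (x.σ n) * x.a n l) ^ 2 ≤ (4 * P.T k) ^ 2 := by
  by_cases h0 : P.θ k (x.σ n) = 0
  · simp only [h0, zero_mul]
    simp only [ne_eq, OfNat.ofNat_ne_zero, not_false_eq_true, zero_pow, sum_const_zero]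
    positivity
  · have h1 := (P.θ_supp k _ h0).2
    have h2 := (hx.1 n).1
    have h3 := P.θ_nonneg k (x.σ n)
    have h4 := P.θ_le k (x.σ n)
    have h5 := sq_sum_le (x.a n) s
    have h6 : ‖x.a n‖ ^ 2 ≤ (4 * P.T k) ^ 2 :=
      pow_le_pow_left₀ (norm_nonneg _) (by linarith) 2
    have h7 : P.θ k (x.σ n) ^ 2 ≤ 1 := by nlinarith
    calc ∑ l ∈ s, (P.θ k (x.σ n) * x.a n l) ^ 2 ≤ ∑ l ∈ s, x.a n l ^ 2 := by
          refine sum_le_sum fun l _ => ?_
          rw [mul_pow]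
          nlinarith [sq_nonneg (x.a n l)]
      _ ≤ _ := h5.trans h6

/-- the basic integral sum -/
noncomputable def II (m L : ℕ) (c : ℕ → ℕ → ℝ) (φ : Fn) (a : ℕ → ℕ → ℝ) : ℝ :=
  ∑ n ∈ range m, ∑ l ∈ range L, c n l * ∫ s in (0 : ℝ)..a n l, φ n l s

theorem II_abs_le (hB : BasicBd) {m L : ℕ} {c : ℕ → ℕ → ℝ} {φ : Fn} {a : ℕ → ℕ → ℝ} {r D : ℝ}
    (hφ : ∀ n l, Measurable (φ n l)) (hr : Bd m φ r) (hD : 0 ≤ D)
    (h : ∀ n < m, ∑ l ∈ range L, (c n l * a n l) ^ 2 ≤ D ^ 2) : |II m L c φ a| ≤ r * D := by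
  rw [abs_le]
  constructor
  · have := hB.content (fun _ _ => 0) a (fun n l => -c n l) L D hφ hr hD
      (fun n hn => by simpa only [sub_zero, neg_mul, neg_sq] using h n hn)
    simp only [neg_mul, sum_neg_distrib] at this
    unfold II
    linarith
  · exact hB.content (fun _ _ => 0) a c L D hφ hr hD
      (fun n hn => by simpa only [sub_zero] using h n hn)

theorem II_sub (hB : BasicBd) {m L : ℕ} (c : ℕ → ℕ → ℝ) {φ φ' : Fn} (a : ℕ → ℕ → ℝ) {r r' : ℝ}
    (hφ : ∀ n l, Measurable (φ n l)) (hr : Bd m φ r)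
    (hφ' : ∀ n l, Measurable (φ' n l)) (hr' : Bd m φ' r') :
    II m L c φ a - II m L c φ' a = II m L c (φ - φ') a := by
  unfold II
  rw [← sum_sub_distrib]
  refine sum_congr rfl fun n hn => ?_
  rw [← sum_sub_distrib]
  refine sum_congr rfl fun l _ => ?_
  have hn' := mem_range.1 hn
  rw [← mul_sub, ← intervalIntegral.integral_sub (hB.itg n l _ _ (hφ n l) hr hn')
    (hB.itg n l _ _ (hφ' n l) hr' hn')]
  rfl

theorem lt_of_good {m n : ℕ} {τ : Tag} (h : Good m τ) (hn : n < m) : (n : ℕ∞) < τ 0 :=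
  lt_of_lt_of_le (by exact_mod_cast hn) h.2

theorem gsum_eq {m N L : ℕ} (c : ℕ → ℝ) (F : Fam) {τ : Tag} (a : ℕ → ℕ → ℝ) (hm : m ≤ N)
    (hc : ∀ n, m ≤ n → c n = 0) (hg : Good m τ) (ha : Act τ) :
    ∑ n ∈ range N, ∑ l ∈ range L, c n * valE F (τ, n, l, a n l) =
      II m L (fun n _ => c n) (F τ) a := by
  unfold II
  symm
  rw [← sum_subset (range_subset_range.2 hm)]
  · refine sum_congr rfl fun n hn => sum_congr rfl fun l _ => ?_
    have := lt_of_good hg (mem_range.1 hn)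
    simp only [valE, ha, this, and_self, if_true]
  · intro n _ hn
    have : c n = 0 := hc n (by simpa using hn)
    simp [this]

theorem avg_le (P : Par ε) {x : Cfg} (hx : Dom P.Λ x) (k : ℕ) (f : Cell → ℝ) (r : ℝ)
    (h : ∀ q ∈ P.Q k, P.π k q (pos x) ≠ 0 → f q ≤ r) :
    ∑ q ∈ P.Q k, P.π k q (pos x) * f q ≤ r := by
  calc ∑ q ∈ P.Q k, P.π k q (pos x) * f q ≤ ∑ q ∈ P.Q k, P.π k q (pos x) * r := by
        refine sum_le_sum fun q hq => ?_
        by_cases h0 : P.π k q (pos x) = 0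
        · simp [h0]
        · exact mul_le_mul_of_nonneg_left (h q hq h0) (P.π_nonneg _ _ _)
    _ = r := by rw [← sum_mul, P.π_sum k _ (pos_le hx), one_mul]

end JL

end Crest.Agent.R91
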