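import Crest.Agent.R91.Defs

set_option autoImplicit false

open Finset Filter Topology Function

namespace Crest.Agent.R91

noncomputable section

namespace LH

section L1

variable {B C : Type} [NormedAddCommGroup B] [NormedAddCommGroup C]

lemma l1_hasSum (f : L1 B) : HasSum (fun i => ‖f i‖) ‖f‖ := by
  have := lp.hasSum_norm (p := 1) (by simp) f
  simpa using this

def mkL1 (f : ℕ → B) (h : Summable fun i => ‖f i‖) : L1 B :=
  ⟨f, memℓp_gen (by simpa using h)⟩

@[simp] lemma mkL1_apply (f : ℕ → B) (h : Summable fun i => ‖f i‖) (i : ℕ) : mkL1 f h i = f i :=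
  rfl

lemma l1_le (f : L1 B) {r : ℝ} (h : ∀ N, ∑ i ∈ range N, ‖f i‖ ≤ r) : ‖f‖ ≤ r :=
  le_of_tendsto' (l1_hasSum f).tendsto_sum_nat h

lemma l1_sum_le (f : L1 B) (N : ℕ) : ∑ i ∈ range N, ‖f i‖ ≤ ‖f‖ :=
  sum_le_hasSum _ (fun _ _ => norm_nonneg _) (l1_hasSum f)

lemma l1_mono (f : L1 B) (g : L1 C) {r : ℝ} (hr : 0 ≤ r) (h : ∀ i, ‖f i‖ ≤ r * ‖g i‖) :
    ‖f‖ ≤ r * ‖g‖ := by
  refine l1_le f fun N => (sum_le_sum fun i _ => h i).trans ?_
  rw [← mul_sum]
  exact mul_le_mul_of_nonneg_left (l1_sum_le g N) hr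

variable [NormedSpace ℝ B] [NormedSpace ℝ C]

/-- diagonal operator -/
def diagL (T : ℕ → B →L[ℝ] C) (hT : ∀ i b, ‖T i b‖ ≤ ‖b‖) : L1 B →L[ℝ] L1 C :=
  LinearMap.mkContinuous
    { toFun := fun c => mkL1 (fun i => T i (c i))
        (Summable.of_nonneg_of_le (fun _ => norm_nonneg _) (fun i => hT i _) (l1_hasSum c).summable)
      map_add' := fun c d => by
        ext i
        simp only [mkL1_apply, lp.coeFn_add, Pi.add_apply, map_add]
      map_smul' := fun r c => by
        ext i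
        simp only [mkL1_apply, lp.coeFn_smul, Pi.smul_apply, map_smul, RingHom.id_apply] }
    1 (fun c => l1_mono _ c zero_le_one fun i => by simpa using hT i (c i))

@[simp] lemma diagL_apply (T : ℕ → B →L[ℝ] C) (hT : ∀ i b, ‖T i b‖ ≤ ‖b‖) (c : L1 B) (i : ℕ) :
    diagL T hT c i = T i (c i) := rfl

end L1

/-! ### clamps -/

def cl (t : ℝ) : ℝ := max 0 (min 1 t)

lemma cl_nonneg (t : ℝ) : 0 ≤ cl t := le_max_left _ _
lemma cl_le (t : ℝ) : cl t ≤ 1 := max_le zero_le_one (min_le_left _ _)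
lemma cl_mono {s t : ℝ} (h : s ≤ t) : cl s ≤ cl t := max_le_max le_rfl (min_le_min le_rfl h)
lemma cl_zero {t : ℝ} (h : t ≤ 0) : cl t = 0 := max_eq_left ((min_le_right _ _).trans h)
lemma cl_one {t : ℝ} (h : 1 ≤ t) : cl t = 1 := by
  unfold cl; rw [min_eq_left h]; exact max_eq_right zero_le_one
lemma cl_lip {s t : ℝ} (h : s ≤ t) : cl t - cl s ≤ t - s := by
  unfold cl
  rcases le_total 1 t with h1 | h1 <;> rcases le_total 1 s with h2 | h2 <;>
    rcases le_total 0 t with h3 | h3 <;> rcases le_total 0 s with h4 | h4 <;>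
    simp only [min_eq_left, min_eq_right, max_eq_left, max_eq_right, h1, h2, h3, h4,
      zero_le_one] <;> linarith

lemma sum_cl (g : ℝ) (N : ℕ) : ∑ i ∈ range N, cl (g - i) = max 0 (min (N : ℝ) g) := by
  induction N with
  | zero => simp
  | succ N ih =>
    rw [sum_range_succ, ih]
    have hN : (0 : ℝ) ≤ N := Nat.cast_nonneg N
    unfold cl
    push_cast
    rcases le_total g 0 with h | h
    · rw [min_eq_right (h.trans hN), max_eq_left h, min_eq_right (by linarith : g - N ≤ 1),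
        max_eq_left (by linarith : g - N ≤ 0), min_eq_right (by linarith : g ≤ N + 1),
        max_eq_left h]
      simp
    · rcases le_total g N with h1 | h1
      · rw [min_eq_right h1, max_eq_right h, min_eq_right (by linarith : g - N ≤ 1),
          max_eq_left (by linarith : g - N ≤ 0), min_eq_right (by linarith : g ≤ N + 1),
          max_eq_right h]
        simp
      · rw [min_eq_left h1, max_eq_right hN]
        rcases le_total g (N + 1) with h2 | h2
        · rw [min_eq_right (by linarith : g - N ≤ 1), max_eq_right (by linarith : 0 ≤ g - N),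
            min_eq_right h2, max_eq_right h]
          ring
        · rw [min_eq_left (by linarith : 1 ≤ g - N), max_eq_right zero_le_one, min_eq_left h2,
            max_eq_right (by linarith : (0 : ℝ) ≤ N + 1)]

lemma sum_cl_diff {g g' : ℝ} (h : g ≤ g') (N : ℕ) :
    ∑ i ∈ range N, (cl (g' - i) - cl (g - i)) ≤ g' - g := by
  rw [sum_sub_distrib, sum_cl, sum_cl]
  have hN : (0 : ℝ) ≤ N := Nat.cast_nonneg N
  rcases le_total (N : ℝ) g' with h1 | h1 <;> rcases le_total (N : ℝ) g with h2 | h2 <;>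
    rcases le_total 0 g' with h3 | h3 <;> rcases le_total 0 g with h4 | h4 <;>
    simp only [min_eq_left, min_eq_right, max_eq_left, max_eq_right, h1, h2, h3, h4, hN] <;>
    linarith

def tent (g : ℝ) (i : ℕ) : ℝ := cl (g + 1 - i) - cl (g - i)

def plat (g : ℝ) (i : ℕ) : ℝ := 1 - cl (g - 1 - i)

lemma tent_nonneg (g : ℝ) (i : ℕ) : 0 ≤ tent g i :=
  sub_nonneg.2 (cl_mono (by linarith))

lemma tent_zero {g : ℝ} {i : ℕ} (h : g + 1 ≤ i) : tent g i = 0 := by
  unfold tent; rw [cl_zero (by linarith), cl_zero (by linarith), sub_zero]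

lemma tent_lt {g : ℝ} {i : ℕ} (h : tent g i ≠ 0) : g < i + 1 := by
  by_contra hc
  push Not at hc
  apply h
  unfold tent; rw [cl_one (by linarith), cl_one (by linarith), sub_self]

lemma sum_tent {g : ℝ} (hg : 0 ≤ g) (N : ℕ) : ∑ i ∈ range N, tent g i = 1 - cl (g + 1 - N) := by
  induction N with
  | zero => simp [cl_one (by linarith : (1 : ℝ) ≤ g + 1)]
  | succ N ih =>
    rw [sum_range_succ, ih]
    unfold tent
    push_cast
    rw [show g + 1 - (N + 1) = g - N by ring]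
    ring

lemma sum_tent_le {g : ℝ} (hg : 0 ≤ g) (N : ℕ) : ∑ i ∈ range N, tent g i ≤ 1 := by
  rw [sum_tent hg]; linarith [cl_nonneg (g + 1 - N)]

lemma tent_fin (g : ℝ) : ∀ i ∉ range (⌈g + 1⌉₊), tent g i = 0 := fun i hi => by
  refine tent_zero ?_
  rw [mem_range, not_lt] at hi
  exact (Nat.le_ceil _).trans (by exact_mod_cast hi)

lemma hasSum_tent {g : ℝ} (hg : 0 ≤ g) : HasSum (tent g) 1 := by
  have h := hasSum_sum_of_ne_finset_zero (L := SummationFilter.unconditional ℕ) (tent_fin g)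
  rwa [sum_tent hg, cl_zero (by linarith [Nat.le_ceil (g + 1)]), sub_zero] at h

lemma sum_tent_diff {g g' : ℝ} (h : g ≤ g') (N : ℕ) :
    ∑ i ∈ range N, |tent g i - tent g' i| ≤ 2 * (g' - g) := by
  have h1 := sum_cl_diff h N
  have h2 := sum_cl_diff (g := g + 1) (g' := g' + 1) (by linarith) N
  have : ∑ i ∈ range N, |tent g i - tent g' i| ≤ ∑ i ∈ range N,
      ((cl (g' - i) - cl (g - i)) + (cl (g' + 1 - i) - cl (g + 1 - i))) := by
    refine sum_le_sum fun i _ => ?_
    have a1 : cl (g - i) ≤ cl (g' - i) := cl_mono (by linarith)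
    have a2 : cl (g + 1 - i) ≤ cl (g' + 1 - i) := cl_mono (by linarith)
    unfold tent
    rw [abs_le]; constructor <;> linarith
  rw [sum_add_distrib] at this
  linarith

lemma plat_nonneg (g : ℝ) (i : ℕ) : 0 ≤ plat g i := sub_nonneg.2 (cl_le _)
lemma plat_le (g : ℝ) (i : ℕ) : plat g i ≤ 1 := by
  unfold plat; linarith [cl_nonneg (g - 1 - i)]
lemma plat_lt {g : ℝ} {i : ℕ} (h : plat g i ≠ 0) : g < i + 2 := by
  by_contra hc
  push Not at hc
  apply h
  unfold plat; rw [cl_one (by linarith), sub_self]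
lemma plat_one {g : ℝ} {i : ℕ} (h : g < i + 1) : plat g i = 1 := by
  unfold plat; rw [cl_zero (by linarith), sub_zero]
lemma plat_diff {g g' : ℝ} (h : g ≤ g') (i : ℕ) : |plat g i - plat g' i| ≤ g' - g := by
  have a1 : cl (g - 1 - i) ≤ cl (g' - 1 - i) := cl_mono (by linarith)
  have a2 := cl_lip (s := g - 1 - i) (t := g' - 1 - i) (by linarith)
  unfold plat
  rw [abs_le]; constructor <;> linarith

/-! ### scaling -/

def lam (x : Cfg) : ℝ := ⨆ n, x.σ n

def gg (x : Cfg) : ℝ := Real.log (1 + lam x) / 4000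

def sc (r : ℝ) (x : Cfg) : Cfg := ⟨fun n => r • x.a n, fun n => r • x.a' n, fun n => r * x.σ n⟩

def rr (Λ : ℝ) (i : ℕ) : ℝ := Λ / Real.exp (4000 * (i + 2))

lemma rr_pos {Λ : ℝ} (h : 0 < Λ) (i : ℕ) : 0 < rr Λ i := div_pos h (Real.exp_pos _)

lemma σ_nonneg {x : Cfg} (hx : Valid x) (n : ℕ) : 0 ≤ x.σ n := by
  have := (hx.1 n).1
  have := norm_nonneg (x.a n)
  linarith

lemma σ_le {x : Cfg} (hx : Valid x) (n : ℕ) : x.σ n ≤ lam x :=
  le_ciSup hx.2.bddAbove_range n

lemma lam_nonneg {x : Cfg} (hx : Valid x) : 0 ≤ lam x := (σ_nonneg hx 0).trans (σ_le hx 0)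

lemma gg_nonneg {x : Cfg} (hx : Valid x) : 0 ≤ gg x :=
  div_nonneg (Real.log_nonneg (by linarith [lam_nonneg hx])) (by norm_num)

lemma lam_lip {x y : Cfg} {δ : ℝ} (hx : Valid x) (h : Near x y δ) : lam y ≤ lam x + δ := by
  refine ciSup_le fun n => ?_
  have h1 := (abs_le.1 (h n).2.2).1
  have := σ_le hx n
  linarith

lemma gg_mono {x y : Cfg} (hx : Valid x) (h : lam x ≤ lam y) : gg x ≤ gg y :=
  div_le_div_of_nonneg_right (Real.log_le_log (by linarith [lam_nonneg hx]) (by linarith))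
    (by norm_num)

lemma gg_lip {x y : Cfg} {δ : ℝ} (hx : Valid x) (hn : Near x y δ) (h : lam x ≤ lam y) :
    lam x * (gg y - gg x) ≤ δ / 4000 := by
  have h0 := lam_nonneg hx
  have h1 := lam_lip hx hn
  have h2 : Real.log (1 + lam y) - Real.log (1 + lam x) ≤ (lam y - lam x) / (1 + lam x) := by
    rw [← Real.log_div (by linarith) (by linarith)]
    refine (Real.log_le_sub_one_of_pos (div_pos (by linarith) (by linarith))).trans (le_of_eq ?_)
    field_simp
    ring
  have h3 : lam x * ((lam y - lam x) / (1 + lam x)) ≤ lam y - lam x := by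
    rw [← mul_div_assoc, div_le_iff₀ (by linarith)]
    nlinarith
  have h4 := mul_le_mul_of_nonneg_left h2 h0
  unfold gg
  rw [← sub_div, ← mul_div_assoc]
  exact div_le_div_of_nonneg_right (by linarith) (by norm_num)

lemma valid_sc {x : Cfg} (hx : Valid x) {r : ℝ} (hr : 0 ≤ r) : Valid (sc r x) := by
  refine ⟨fun n => ?_, by simpa [sc] using hx.2.const_mul r⟩
  simp only [sc, norm_smul, Real.norm_eq_abs, abs_of_nonneg hr]
  have h1 := mul_le_mul_of_nonneg_left (hx.1 n).1 hr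
  have h2 := mul_le_mul_of_nonneg_left (hx.1 n).2 hr
  constructor <;> linarith

lemma dom_sc {Λ : ℝ} (hΛ : 0 < Λ) {x : Cfg} (hx : Valid x) {i : ℕ} (h : gg x < i + 2) :
    Dom Λ (sc (rr Λ i) x) := by
  refine ⟨valid_sc hx (rr_pos hΛ i).le, fun n => ?_⟩
  have h0 := lam_nonneg hx
  have h1 : Real.log (1 + lam x) ≤ 4000 * (i + 2) := by
    unfold gg at h
    rw [div_lt_iff₀ (by norm_num)] at h
    linarith
  have h2 : 1 + lam x ≤ Real.exp (4000 * (i + 2)) := by
    rw [← Real.exp_log (by linarith : 0 < 1 + lam x)]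
    exact Real.exp_le_exp.2 h1
  have h3 := σ_le hx n
  change Λ / Real.exp (4000 * (i + 2)) * x.σ n ≤ Λ
  rw [div_mul_eq_mul_div, div_le_iff₀ (Real.exp_pos _)]
  exact mul_le_mul_of_nonneg_left (by linarith) hΛ.le

lemma near_sc {x y : Cfg} {δ r : ℝ} (hr : 0 ≤ r) (h : Near x y δ) :
    Near (sc r x) (sc r y) (r * δ) := fun n => by
  simp only [sc, ← smul_sub, ← mul_sub, norm_smul, abs_mul, Real.norm_eq_abs, abs_of_nonneg hr]
  exact ⟨mul_le_mul_of_nonneg_left (h n).1 hr, mul_le_mul_of_nonneg_left (h n).2.1 hr,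
    mul_le_mul_of_nonneg_left (h n).2.2 hr⟩

lemma near_symm {x y : Cfg} {δ : ℝ} (h : Near x y δ) : Near y x δ := fun n =>
  ⟨by rw [norm_sub_rev]; exact (h n).1, by rw [norm_sub_rev]; exact (h n).2.1,
    by rw [abs_sub_comm]; exact (h n).2.2⟩

lemma sc_zero (r : ℝ) : sc r ⟨0, 0, 0⟩ = ⟨0, 0, 0⟩ := by
  simp only [sc, Pi.zero_apply, smul_zero, mul_zero]
  rfl

lemma dom_zero {Λ : ℝ} (hΛ : 0 < Λ) : Dom Λ ⟨0, 0, 0⟩ :=
  ⟨⟨fun n => by simp, tendsto_const_nhds⟩, fun _ => hΛ.le⟩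

variable {B : Type} [NormedAddCommGroup B] [NormedSpace ℝ B] {Λ : ℝ}

lemma I_size (hΛ : 0 < Λ) (S : Sys B (Dom Λ) (1 / 200)) {x : Cfg} (hx : Valid x) {r : ℝ}
    (hr : 0 ≤ r) (hd : Dom Λ (sc r x)) : ‖S.I (sc r x)‖ ≤ r * (5 * lam x) := by
  have h0 := lam_nonneg hx
  have hn : Near x ⟨0, 0, 0⟩ (4 * lam x) := fun n => by
    have h1 := hx.1 n
    have h2 := σ_le hx n
    have h3 := σ_nonneg hx n
    simp only [Pi.zero_apply, sub_zero, abs_of_nonneg h3]
    refine ⟨by linarith [h1.1], by linarith [h1.2], by linarith⟩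
  have hn' := near_sc hr hn
  rw [sc_zero] at hn'
  have := S.I_lip _ _ _ (r * (4 * lam x)) hd (dom_zero hΛ) hn' (fun n => (hn' n).1)
  rw [S.I_zero, sub_zero] at this
  have h5 : 0 ≤ r * lam x := mul_nonneg hr h0
  nlinarith

def R1 (S : Sys B (Dom Λ) (1 / 200)) (n : ℕ) : L1 B →L[ℝ] L1 B :=
  diagL (fun _ => S.R n) (fun _ b => S.R_le n b)

def I1 (S : Sys B (Dom Λ) (1 / 200)) (x : Cfg) : L1 B :=
  mkL1 (fun i => (tent (gg x) i * (rr Λ i)⁻¹) • S.I (sc (rr Λ i) x))
    (summable_of_ne_finset_zero (s := range ⌈gg x + 1⌉₊) fun i hi => by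
      rw [tent_fin _ i hi]; simp)

lemma p_bd (S : Sys B (Dom Λ) (1 / 200)) (x : Cfg) (n i : ℕ) (b : B) :
    ‖(plat (gg x) i • S.p (sc (rr Λ i) x) n) b‖ ≤ ‖S.R n b‖ := by
  rw [smul_apply, norm_smul, Real.norm_eq_abs, abs_of_nonneg (plat_nonneg _ _)]
  exact (mul_le_of_le_one_left (norm_nonneg _) (plat_le _ _)).trans (S.p_le _ n b)

def pd (S : Sys B (Dom Λ) (1 / 200)) (x : Cfg) (n : ℕ) : L1 B →L[ℝ] L1 H :=
  diagL (fun i => plat (gg x) i • S.p (sc (rr Λ i) x) n)
    (fun i b => (p_bd S x n i b).trans (S.R_le n b))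

def p1 (S : Sys B (Dom Λ) (1 / 200)) (x : Cfg) (n : ℕ) : L1 B →L[ℝ] H :=
  (lp.tsumCLM ℝ ℕ H).comp (pd S x n)

lemma tsum_le (f : L1 H) : ‖lp.tsumCLM ℝ ℕ H f‖ ≤ ‖f‖ := lp.norm_tsum_le f

lemma p_lip1 (hΛ : 0 < Λ) (S : Sys B (Dom Λ) (1 / 200)) {x y : Cfg} {δ : ℝ} (hx : Valid x)
    (hy : Valid y) (hn : Near x y δ) (hl : lam x ≤ lam y) (n : ℕ) (c : L1 B) :
    min (x.σ n) (y.σ n) * ‖p1 S x n c - p1 S y n c‖ ≤ 1 / 100 * δ * ‖R1 S n c‖ := by
  have hδ : 0 ≤ δ := (norm_nonneg _).trans (hn 0).1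
  set m := min (x.σ n) (y.σ n) with hm
  have hm0 : 0 ≤ m := le_min (σ_nonneg hx n) (σ_nonneg hy n)
  have hml : m ≤ lam x := (min_le_left _ _).trans (σ_le hx n)
  have hg := gg_mono hx hl
  have hgl := gg_lip hx hn hl
  have key : ‖m • (pd S x n c - pd S y n c)‖ ≤ 1 / 100 * δ * ‖R1 S n c‖ := by
    refine l1_mono _ _ (by positivity) fun i => ?_
    change ‖m • (plat (gg x) i • S.p (sc (rr Λ i) x) n (c i) -
      plat (gg y) i • S.p (sc (rr Λ i) y) n (c i))‖ ≤ 1 / 100 * δ * ‖S.R n (c i)‖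
    have e : plat (gg x) i • S.p (sc (rr Λ i) x) n (c i) -
        plat (gg y) i • S.p (sc (rr Λ i) y) n (c i) =
        (plat (gg x) i - plat (gg y) i) • S.p (sc (rr Λ i) x) n (c i) +
        plat (gg y) i • (S.p (sc (rr Λ i) x) n (c i) - S.p (sc (rr Λ i) y) n (c i)) := by
      rw [sub_smul, smul_sub]; abel
    have hR := norm_nonneg (S.R n (c i))
    have t1 : m * ‖(plat (gg x) i - plat (gg y) i) • S.p (sc (rr Λ i) x) n (c i)‖ ≤
        δ / 4000 * ‖S.R n (c i)‖ := by
      rw [norm_smul, Real.norm_eq_abs, ← mul_assoc]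
      refine mul_le_mul ?_ (S.p_le _ _ _) (norm_nonneg _) (by positivity)
      exact (mul_le_mul hml (plat_diff hg i) (abs_nonneg _) (lam_nonneg hx)).trans hgl
    have t2 : m * ‖plat (gg y) i •
        (S.p (sc (rr Λ i) x) n (c i) - S.p (sc (rr Λ i) y) n (c i))‖ ≤
        1 / 200 * δ * ‖S.R n (c i)‖ := by
      by_cases h0 : plat (gg y) i = 0
      · rw [h0, zero_smul, norm_zero, mul_zero]; positivity
      · have hlt := plat_lt h0
        have hr := rr_pos hΛ i
        have q := S.p_lip _ _ _ (dom_sc hΛ hx (hg.trans_lt hlt)) (dom_sc hΛ hy hlt)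
          (near_sc hr.le hn) n (c i)
        have e2 : min ((sc (rr Λ i) x).σ n) ((sc (rr Λ i) y).σ n) = rr Λ i * m := by
          rw [hm, mul_min_of_nonneg _ _ hr.le]; rfl
        rw [e2] at q
        have q2 : m * ‖S.p (sc (rr Λ i) x) n (c i) - S.p (sc (rr Λ i) y) n (c i)‖ ≤
            1 / 200 * δ * ‖S.R n (c i)‖ := by
          refine le_of_mul_le_mul_left ?_ hr
          linarith
        refine le_trans (mul_le_mul_of_nonneg_left ?_ hm0) q2
        rw [norm_smul, Real.norm_eq_abs, abs_of_nonneg (plat_nonneg _ _)]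
        exact mul_le_of_le_one_left (norm_nonneg _) (plat_le _ _)
    rw [e, norm_smul, Real.norm_eq_abs, abs_of_nonneg hm0]
    refine (mul_le_mul_of_nonneg_left (norm_add_le _ _) hm0).trans ?_
    rw [mul_add]
    have : 0 ≤ δ * ‖S.R n (c i)‖ := mul_nonneg hδ hR
    nlinarith
  rw [norm_smul, Real.norm_eq_abs, abs_of_nonneg hm0] at key
  refine le_trans (mul_le_mul_of_nonneg_left ?_ hm0) key
  have : p1 S x n c - p1 S y n c = lp.tsumCLM ℝ ℕ H (pd S x n c - pd S y n c) := by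
    rw [map_sub]; rfl
  rw [this]
  exact tsum_le _

lemma I_lip1 (hΛ : 0 < Λ) (S : Sys B (Dom Λ) (1 / 200)) {x y : Cfg} {δ δa : ℝ} (hx : Valid x)
    (hy : Valid y) (hn : Near x y δ) (ha : ∀ n, ‖x.a n - y.a n‖ ≤ δa) (hl : lam x ≤ lam y) :
    ‖I1 S x - I1 S y‖ ≤ δa + 1 / 100 * δ := by
  have hδ : 0 ≤ δ := (norm_nonneg _).trans (hn 0).1
  have hδa : 0 ≤ δa := (norm_nonneg _).trans (ha 0)
  have hg := gg_mono hx hl
  have hgl := gg_lip hx hn hl
  have h0 := lam_nonneg hx
  refine l1_le _ fun N => ?_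
  have pt : ∀ i, ‖(I1 S x - I1 S y) i‖ ≤ |tent (gg x) i - tent (gg y) i| * (5 * lam x) +
      tent (gg y) i * (δa + 1 / 200 * δ) := fun i => by
    have hr := rr_pos hΛ i
    change ‖(tent (gg x) i * (rr Λ i)⁻¹) • S.I (sc (rr Λ i) x) -
      (tent (gg y) i * (rr Λ i)⁻¹) • S.I (sc (rr Λ i) y)‖ ≤ _
    have e : (tent (gg x) i * (rr Λ i)⁻¹) • S.I (sc (rr Λ i) x) -
        (tent (gg y) i * (rr Λ i)⁻¹) • S.I (sc (rr Λ i) y) =
        ((tent (gg x) i - tent (gg y) i) * (rr Λ i)⁻¹) • S.I (sc (rr Λ i) x) +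
        (tent (gg y) i * (rr Λ i)⁻¹) • (S.I (sc (rr Λ i) x) - S.I (sc (rr Λ i) y)) := by
      rw [sub_mul, sub_smul, smul_sub]; abel
    rw [e]
    refine (norm_add_le _ _).trans (add_le_add ?_ ?_)
    · by_cases h1 : tent (gg x) i - tent (gg y) i = 0
      · rw [h1]; simp
      · have hlt : gg x < i + 2 := by
          by_cases h2 : tent (gg x) i = 0
          · have h3 : tent (gg y) i ≠ 0 := fun h3 => h1 (by rw [h2, h3, sub_zero])
            linarith [tent_lt h3]
          · linarith [tent_lt h2]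
        have q := I_size hΛ S hx hr.le (dom_sc hΛ hx hlt)
        rw [norm_smul, Real.norm_eq_abs, abs_mul, abs_of_pos (inv_pos.2 hr), mul_assoc]
        refine mul_le_mul_of_nonneg_left ?_ (abs_nonneg _)
        rw [inv_mul_le_iff₀ hr]
        exact q
    · by_cases h3 : tent (gg y) i = 0
      · rw [h3]; simp
      · have hlt : gg y < i + 2 := by linarith [tent_lt h3]
        have q := S.I_lip _ _ _ (rr Λ i * δa) (dom_sc hΛ hx (hg.trans_lt hlt)) (dom_sc hΛ hy hlt)
          (near_sc hr.le hn) (fun n => by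
            simp only [sc, ← smul_sub, norm_smul, Real.norm_eq_abs, abs_of_pos hr]
            exact mul_le_mul_of_nonneg_left (ha n) hr.le)
        rw [norm_smul, Real.norm_eq_abs, abs_mul, abs_of_pos (inv_pos.2 hr), mul_assoc,
          abs_of_nonneg (tent_nonneg _ _)]
        refine mul_le_mul_of_nonneg_left ?_ (tent_nonneg _ _)
        rw [inv_mul_le_iff₀ hr]
        linarith
  refine (sum_le_sum fun i _ => pt i).trans ?_
  rw [sum_add_distrib, ← sum_mul, ← sum_mul]
  have s1 := mul_le_mul_of_nonneg_right (sum_tent_diff hg N) (by linarith : 0 ≤ 5 * lam x)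
  have s2 := mul_le_mul_of_nonneg_right (sum_tent_le (gg_nonneg hy) N)
    (by positivity : 0 ≤ δa + 1 / 200 * δ)
  nlinarith

def sys1 (hΛ : 0 < Λ) (S : Sys B (Dom Λ) (1 / 200)) : Sys (L1 B) Valid (1 / 100) where
  R := R1 S
  I := I1 S
  p := p1 S
  R_le n c := by
    have := l1_mono (R1 S n c) c zero_le_one fun i => by
      rw [one_mul]; exact S.R_le n (c i)
    rwa [one_mul] at this
  R_tend c := by
    rw [tendsto_zero_iff_norm_tendsto_zero]
    have h := tendsto_tsum_of_dominated_convergence (𝓕 := atTop)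
      (f := fun n i => ‖S.R n (c i)‖) (g := fun _ => (0 : ℝ)) (bound := fun i => ‖c i‖)
      (l1_hasSum c).summable (fun i => by simpa using (S.R_tend (c i)).norm)
      (Eventually.of_forall fun n i => by simpa using S.R_le n (c i))
    rw [tsum_zero] at h
    refine h.congr fun n => ?_
    exact (l1_hasSum (R1 S n c)).tsum_eq
  p_le x n c := by
    refine (tsum_le _).trans ?_
    have := l1_mono (pd S x n c) (R1 S n c) zero_le_one fun i => by
      rw [one_mul]; exact p_bd S x n i (c i)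
    rwa [one_mul] at this
  p_lip x y δ hx hy hn n c := by
    rcases le_total (lam x) (lam y) with hl | hl
    · exact p_lip1 hΛ S hx hy hn hl n c
    · rw [min_comm, norm_sub_rev]
      exact p_lip1 hΛ S hy hx (near_symm hn) hl n c
  p_swap x := by
    funext n
    have : ∀ i, S.p (sc (rr Λ i) x.swap) = S.p (sc (rr Λ i) x) := fun i => S.p_swap (sc (rr Λ i) x)
    have e : pd S x.swap n = pd S x n := by
      ext c i l
      change (plat (gg x) i • S.p (sc (rr Λ i) x.swap) n (c i)) l =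
        (plat (gg x) i • S.p (sc (rr Λ i) x) n (c i)) l
      rw [this]
    unfold p1
    rw [e]
  p_I x hx n := by
    have e : ∀ i, pd S x n (I1 S x) i = tent (gg x) i • x.a n := fun i => by
      change plat (gg x) i • S.p (sc (rr Λ i) x) n
        ((tent (gg x) i * (rr Λ i)⁻¹) • S.I (sc (rr Λ i) x)) = _
      by_cases h0 : tent (gg x) i = 0
      · rw [h0]; simp
      · have hlt := tent_lt h0
        rw [plat_one hlt, one_smul, map_smul, S.p_I _ (dom_sc hΛ hx (by linarith)) n]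
        change (tent (gg x) i * (rr Λ i)⁻¹) • rr Λ i • x.a n = _
        rw [smul_smul, mul_assoc, inv_mul_cancel₀ (rr_pos hΛ i).ne', mul_one]
    change ∑' i, pd S x n (I1 S x) i = _
    simp only [e]
    have := ((hasSum_tent (gg_nonneg hx)).smul_const (x.a n)).tsum_eq
    rwa [one_smul] at this
  I_lip x y δ δa hx hy hn ha := by
    rcases le_total (lam x) (lam y) with hl | hl
    · exact I_lip1 hΛ S hx hy hn ha hl
    · rw [norm_sub_rev]
      exact I_lip1 hΛ S hy hx (near_symm hn) (fun n => by rw [norm_sub_rev]; exact ha n) hl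
  R_I x hx n := by
    refine l1_le _ fun N => ?_
    have pt : ∀ i, ‖R1 S n (I1 S x) i‖ ≤ tent (gg x) i * (3 * ‖x.a n‖) := fun i => by
      have hr := rr_pos hΛ i
      change ‖S.R n ((tent (gg x) i * (rr Λ i)⁻¹) • S.I (sc (rr Λ i) x))‖ ≤ _
      by_cases h0 : tent (gg x) i = 0
      · rw [h0]; simp
      · have hlt := tent_lt h0
        have q := S.R_I _ (dom_sc hΛ hx (i := i) (by linarith)) n
        rw [map_smul, norm_smul, Real.norm_eq_abs, abs_mul, abs_of_pos (inv_pos.2 hr), mul_assoc,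
          abs_of_nonneg (tent_nonneg _ _)]
        refine mul_le_mul_of_nonneg_left ?_ (tent_nonneg _ _)
        rw [inv_mul_le_iff₀ hr]
        simp only [sc, norm_smul, Real.norm_eq_abs, abs_of_pos hr] at q ⊢
        linarith
    refine (sum_le_sum fun i _ => pt i).trans ?_
    rw [← sum_mul]
    exact mul_le_of_le_one_left (by positivity) (sum_tent_le (gg_nonneg hx) N)
  I_zero := by
    ext i
    change (tent _ i * (rr Λ i)⁻¹) • S.I (sc (rr Λ i) ⟨0, 0, 0⟩) = 0
    rw [sc_zero, S.I_zero, smul_zero]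

end LH

theorem lemmaH : LemmaH := fun _ _ _ _ _ hΛ ⟨S⟩ => ⟨LH.sys1 hΛ S⟩

end

end Crest.Agent.R91
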